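import Vale.Agent.P283.MathlibUsed

/-!
Iterated derivations tangent to a hypersurface and multiplicities.
-/

set_option linter.all false

namespace Vale.Agent.P283.H108

open MvPolynomial Finset

variable {m : ℕ}

/-- The derivation `∂_k F ∂_l - ∂_l F ∂_k`, which is tangent to `{F = 0}`. -/
noncomputable def tang (F : MvPolynomial (Fin m) ℂ) (p : Fin m × Fin m)
    (P : MvPolynomial (Fin m) ℂ) : MvPolynomial (Fin m) ℂ :=
  pderiv p.1 F * pderiv p.2 P - pderiv p.2 F * pderiv p.1 P

/-- Compositions of tangent derivations. -/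
noncomputable def tangs (F : MvPolynomial (Fin m) ℂ) :
    List (Fin m × Fin m) → MvPolynomial (Fin m) ℂ → MvPolynomial (Fin m) ℂ
  | [], P => P
  | p :: l, P => tangs F l (tang F p P)

theorem tang_add (F : MvPolynomial (Fin m) ℂ) (p : Fin m × Fin m) (P Q : MvPolynomial (Fin m) ℂ) :
    tang F p (P + Q) = tang F p P + tang F p Q := by
  unfold tang; rw [map_add, map_add]; ring

theorem tang_mul_self (F : MvPolynomial (Fin m) ℂ) (p : Fin m × Fin m)
    (H : MvPolynomial (Fin m) ℂ) : tang F p (F * H) = F * tang F p H := by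
  unfold tang
  simp only [Derivation.leibniz, smul_eq_mul]
  ring

theorem tangs_add (F : MvPolynomial (Fin m) ℂ) (l : List (Fin m × Fin m)) :
    ∀ P Q : MvPolynomial (Fin m) ℂ, tangs F l (P + Q) = tangs F l P + tangs F l Q := by
  induction l with
  | nil => intro P Q; rfl
  | cons p l ih => intro P Q; simp only [tangs, tang_add, ih]

theorem tangs_mul_self (F : MvPolynomial (Fin m) ℂ) (l : List (Fin m × Fin m)) :
    ∀ H : MvPolynomial (Fin m) ℂ, tangs F l (F * H) = F * tangs F l H := by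
  induction l with
  | nil => intro H; rfl
  | cons p l ih => intro H; simp only [tangs, tang_mul_self, ih]

section Point

variable (ξ : Fin m → ℂ)

/-- The maximal ideal of a point. -/
noncomputable def mx : Ideal (MvPolynomial (Fin m) ℂ) := RingHom.ker (eval ξ)

theorem mem_mx {P : MvPolynomial (Fin m) ℂ} : P ∈ mx ξ ↔ eval ξ P = 0 := RingHom.mem_ker

theorem X_sub_mem (k : Fin m) : X k - C (ξ k) ∈ mx ξ := by
  rw [mem_mx]; simp

/-- The Euler operator at the point. -/
noncomputable def euler (P : MvPolynomial (Fin m) ℂ) : MvPolynomial (Fin m) ℂ :=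
  ∑ k, (X k - C (ξ k)) * pderiv k P

theorem euler_add (P Q : MvPolynomial (Fin m) ℂ) : euler ξ (P + Q) = euler ξ P + euler ξ Q := by
  unfold euler
  rw [← Finset.sum_add_distrib]
  exact Finset.sum_congr rfl fun k _ => by rw [map_add]; ring

theorem euler_mul (P Q : MvPolynomial (Fin m) ℂ) :
    euler ξ (P * Q) = P * euler ξ Q + Q * euler ξ P := by
  unfold euler
  rw [Finset.mul_sum, Finset.mul_sum, ← Finset.sum_add_distrib]
  exact Finset.sum_congr rfl fun k _ => by
    rw [Derivation.leibniz, smul_eq_mul, smul_eq_mul]; ring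

theorem euler_C (a : ℂ) : euler ξ (C a) = 0 := by
  unfold euler
  exact Finset.sum_eq_zero fun k _ => by rw [pderiv_C, mul_zero]

theorem euler_X (i : Fin m) : euler ξ (X i) = X i - C (ξ i) := by
  classical
  unfold euler
  rw [Finset.sum_eq_single i]
  · rw [pderiv_X_self, mul_one]
  · intro j _ hj
    rw [pderiv_X_of_ne (Ne.symm hj), mul_zero]
  · intro h; exact absurd (Finset.mem_univ _) h

theorem euler_mem (P : MvPolynomial (Fin m) ℂ) : euler ξ P ∈ mx ξ :=
  Ideal.sum_mem _ fun k _ => Ideal.mul_mem_right _ _ (X_sub_mem ξ k)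

theorem taylor_one (P : MvPolynomial (Fin m) ℂ) :
    euler ξ P - P + C (eval ξ P) ∈ mx ξ ^ 2 := by
  induction P using MvPolynomial.induction_on with
  | C a => rw [euler_C, eval_C]; simp
  | add P Q hP hQ =>
    have h1 : euler ξ (P + Q) - (P + Q) + C (eval ξ (P + Q)) =
        (euler ξ P - P + C (eval ξ P)) + (euler ξ Q - Q + C (eval ξ Q)) := by
      rw [euler_add, map_add, map_add]; ring
    rw [h1]
    exact Ideal.add_mem _ hP hQ
  | mul_X P i hP =>
    have h1 : euler ξ (P * X i) - P * X i + C (eval ξ (P * X i)) =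
        (X i - C (ξ i)) * euler ξ P + C (ξ i) * (euler ξ P - P + C (eval ξ P)) := by
      rw [euler_mul, euler_X, map_mul, eval_X, map_mul]; ring
    rw [h1]
    refine Ideal.add_mem _ ?_ (Ideal.mul_mem_left _ _ hP)
    rw [pow_two]
    exact Ideal.mul_mem_mul (X_sub_mem ξ i) (euler_mem ξ P)

theorem euler_sub_mem {P : MvPolynomial (Fin m) ℂ} (hP : P ∈ mx ξ) :
    euler ξ P - P ∈ mx ξ ^ 2 := by
  have h1 := taylor_one ξ P
  rw [(mem_mx ξ).1 hP, map_zero, add_zero] at h1
  exact h1

theorem euler_pow (j : ℕ) : ∀ P ∈ mx ξ ^ j, euler ξ P - (j : MvPolynomial (Fin m) ℂ) * P ∈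
    mx ξ ^ (j + 1) := by
  induction j with
  | zero =>
    intro P _
    rw [Nat.cast_zero, zero_mul, sub_zero, zero_add, pow_one]
    exact euler_mem ξ P
  | succ j ih =>
    intro P hP
    rw [pow_succ] at hP
    refine Submodule.mul_induction_on hP ?_ ?_
    · intro a ha b hb
      have h1 : euler ξ (a * b) - ((j + 1 : ℕ) : MvPolynomial (Fin m) ℂ) * (a * b) =
          a * (euler ξ b - b) + (euler ξ a - (j : MvPolynomial (Fin m) ℂ) * a) * b := by
        rw [euler_mul]; push_cast; ring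
      rw [h1]
      refine Ideal.add_mem _ ?_ ?_
      · have h2 := Ideal.mul_mem_mul ha (euler_sub_mem ξ hb)
        rwa [← pow_add] at h2
      · have h2 := Ideal.mul_mem_mul (ih a ha) hb
        rwa [← pow_succ] at h2
    · intro x y hx hy
      have h1 : euler ξ (x + y) - ((j + 1 : ℕ) : MvPolynomial (Fin m) ℂ) * (x + y) =
          (euler ξ x - ((j + 1 : ℕ) : MvPolynomial (Fin m) ℂ) * x) +
          (euler ξ y - ((j + 1 : ℕ) : MvPolynomial (Fin m) ℂ) * y) := by
        rw [euler_add]; ring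
      rw [h1]
      exact Ideal.add_mem _ hx hy

theorem pderiv_pow (k : Fin m) (j : ℕ) : ∀ P ∈ mx ξ ^ (j + 1), pderiv k P ∈ mx ξ ^ j := by
  induction j with
  | zero => intro P _; rw [pow_zero, Ideal.one_eq_top]; trivial
  | succ j ih =>
    intro P hP
    rw [pow_succ] at hP
    refine Submodule.mul_induction_on hP ?_ ?_
    · intro a ha b hb
      rw [Derivation.leibniz, smul_eq_mul, smul_eq_mul]
      refine Ideal.add_mem _ (Ideal.mul_mem_right _ _ ha) ?_
      have h2 := Ideal.mul_mem_mul hb (ih a ha)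
      rwa [mul_comm (mx ξ), ← pow_succ] at h2
    · intro x y hx hy
      rw [map_add]
      exact Ideal.add_mem _ hx hy

theorem euler_tang (F P : MvPolynomial (Fin m) ℂ) (k : Fin m) :
    pderiv k F * euler ξ P = ∑ l, (X l - C (ξ l)) * tang F (k, l) P + euler ξ F * pderiv k P := by
  unfold euler tang
  rw [Finset.mul_sum, Finset.sum_mul, ← Finset.sum_add_distrib]
  exact Finset.sum_congr rfl fun l _ => by ring

/-- If all compositions of at most `μ` tangent derivations vanish at a smooth point, then the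
multiplicity is larger than `μ`. -/
theorem mem_of_tangs (F : MvPolynomial (Fin m) ℂ) (hF : eval ξ F = 0)
    (hk : ∃ k, eval ξ (pderiv k F) ≠ 0) (μ : ℕ) : ∀ P : MvPolynomial (Fin m) ℂ,
    (∀ l : List (Fin m × Fin m), l.length ≤ μ → eval ξ (tangs F l P) = 0) →
      P ∈ mx ξ ^ (μ + 1) ⊔ Ideal.span {F} := by
  obtain ⟨k, hk⟩ := hk
  induction μ with
  | zero =>
    intro P hP
    have h1 := hP [] le_rfl
    apply Ideal.mem_sup_left
    rw [zero_add, pow_one, mem_mx]
    exact h1
  | succ μ ih =>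
    intro P₀ hP₀
    -- reduction to an element of a power of the ideal
    have h1 := ih P₀ fun l hl => hP₀ l (Nat.le_succ_of_le hl)
    obtain ⟨P, hPm, Q, hQ, hPQ⟩ := Submodule.mem_sup.1 h1
    obtain ⟨H, hH⟩ := Ideal.mem_span_singleton'.1 hQ
    have hQF : Q = F * H := by rw [← hH, mul_comm]
    have hP : ∀ l : List (Fin m × Fin m), l.length ≤ μ + 1 → eval ξ (tangs F l P) = 0 := by
      intro l hl
      have h2 := hP₀ l hl
      rw [← hPQ, tangs_add, hQF, tangs_mul_self, map_add, map_mul, hF, zero_mul, add_zero] at h2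
      exact h2
    have hPgoal : P ∈ mx ξ ^ (μ + 1 + 1) ⊔ Ideal.span {F} := by
      have h2 : ∀ l, tang F (k, l) P ∈ mx ξ ^ (μ + 1) ⊔ Ideal.span {F} := by
        intro l
        apply ih
        intro t ht
        exact hP ((k, l) :: t) (by simpa using ht)
      have h3 : ∑ l, (X l - C (ξ l)) * tang F (k, l) P ∈ mx ξ ^ (μ + 1 + 1) ⊔ Ideal.span {F} := by
        refine Ideal.sum_mem _ fun l _ => ?_
        obtain ⟨a, ha, b, hb, hab⟩ := Submodule.mem_sup.1 (h2 l)
        rw [← hab, mul_add]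
        refine Submodule.add_mem_sup ?_ (Ideal.mul_mem_left _ _ hb)
        have h4 := Ideal.mul_mem_mul ha (X_sub_mem ξ l)
        rw [← pow_succ, mul_comm] at h4
        exact h4
      have h4 : euler ξ F * pderiv k P ∈ mx ξ ^ (μ + 1 + 1) ⊔ Ideal.span {F} := by
        have h5 : euler ξ F * pderiv k P = (euler ξ F - F) * pderiv k P + F * pderiv k P := by ring
        rw [h5]
        refine Submodule.add_mem_sup ?_ (Ideal.mul_mem_right _ _ (Ideal.mem_span_singleton_self F))
        have h6 := Ideal.mul_mem_mul (euler_sub_mem ξ ((mem_mx ξ).2 hF)) (pderiv_pow ξ k μ P hPm)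
        rw [← pow_add] at h6
        have h7 : μ + 1 + 1 = 2 + μ := by ring
        rw [h7]; exact h6
      have h5 : pderiv k F * euler ξ P ∈ mx ξ ^ (μ + 1 + 1) ⊔ Ideal.span {F} := by
        rw [euler_tang]
        exact Ideal.add_mem _ h3 h4
      have h6 : (pderiv k F - C (eval ξ (pderiv k F))) * P ∈ mx ξ ^ (μ + 1 + 1) := by
        have h7 : pderiv k F - C (eval ξ (pderiv k F)) ∈ mx ξ := by rw [mem_mx]; simp
        have h8 := Ideal.mul_mem_mul hPm h7
        rw [← pow_succ, mul_comm] at h8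
        exact h8
      have h7 := euler_pow ξ (μ + 1) P hPm
      have h8 : C (((μ + 1 : ℕ) : ℂ) * eval ξ (pderiv k F)) * P ∈
          mx ξ ^ (μ + 1 + 1) ⊔ Ideal.span {F} := by
        have h9 : C (((μ + 1 : ℕ) : ℂ) * eval ξ (pderiv k F)) * P =
            pderiv k F * euler ξ P -
            (pderiv k F * (euler ξ P - ((μ + 1 : ℕ) : MvPolynomial (Fin m) ℂ) * P) +
            ((μ + 1 : ℕ) : MvPolynomial (Fin m) ℂ) *
              ((pderiv k F - C (eval ξ (pderiv k F))) * P)) := by
          rw [map_mul, C_eq_coe_nat]; ring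
        rw [h9]
        exact Ideal.sub_mem _ h5 (Ideal.mem_sup_left (Ideal.add_mem _ (Ideal.mul_mem_left _ _ h7)
          (Ideal.mul_mem_left _ _ h6)))
      have hne : ((μ + 1 : ℕ) : ℂ) * eval ξ (pderiv k F) ≠ 0 :=
        mul_ne_zero (by exact_mod_cast Nat.succ_ne_zero μ) hk
      have h9 : P = C (((μ + 1 : ℕ) : ℂ) * eval ξ (pderiv k F))⁻¹ *
          (C (((μ + 1 : ℕ) : ℂ) * eval ξ (pderiv k F)) * P) := by
        rw [← mul_assoc, ← map_mul, inv_mul_cancel₀ hne, map_one, one_mul]
      rw [h9]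
      exact Ideal.mul_mem_left _ _ h8
    rw [← hPQ]
    exact Ideal.add_mem _ hPgoal (Ideal.mem_sup_right hQ)

theorem exists_tangs {F : MvPolynomial (Fin m) ℂ} (hF : eval ξ F = 0)
    (hk : ∃ k, eval ξ (pderiv k F) ≠ 0) {μ : ℕ} {P : MvPolynomial (Fin m) ℂ}
    (hP : P ∉ RingHom.ker (eval ξ) ^ (μ + 1) ⊔ Ideal.span {F}) :
    ∃ l : List (Fin m × Fin m), l.length ≤ μ ∧ eval ξ (tangs F l P) ≠ 0 := by
  by_contra hno
  push Not at hno
  exact hP (mem_of_tangs ξ F hF hk μ P hno)

end Point

end Vale.Agent.P283.H108
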