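import Vale.Agent.P283.H108.FinBase

/-!
Every function field is the function field of a hypersurface in a torus.
-/

set_option linter.all false

namespace Vale.Agent.P283.H108

open MvPolynomial Finset
open Vale.Agent.P283.H647 (HypData)

theorem exists_model {d : ℕ} {L : Type} [Field L] [Algebra ℂ L] [Algebra.EssFiniteType ℂ L]
    (htr : Algebra.trdeg ℂ L = d) :
    ∃ (x : Fin (d + 1) → L) (F : MvPolynomial (Fin (d + 1)) ℂ), HypData x F := by
  classical
  haveI : CharZero L := charZero_of_injective_algebraMap (algebraMap ℂ L).injective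
  obtain ⟨β, hβ⟩ := gen_trbasis htr
  let E₀ := IntermediateField.adjoin ℂ (Set.range β)
  haveI : Algebra.IsAlgebraic E₀ L := hβ.isAlgebraic_field
  haveI : Algebra.EssFiniteType E₀ L := Algebra.EssFiniteType.of_comp ℂ E₀ L
  haveI : FiniteDimensional E₀ L := Algebra.finite_of_essFiniteType_of_isAlgebraic
  -- a primitive element which is not zero
  obtain ⟨θ, hθ0, hθ⟩ : ∃ θ : L, θ ≠ 0 ∧ IntermediateField.adjoin E₀ {θ} = ⊤ := by
    obtain ⟨θ, hθ⟩ := Field.exists_primitive_element E₀ L
    by_cases h0 : θ = 0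
    · refine ⟨1, one_ne_zero, ?_⟩
      rw [h0, IntermediateField.adjoin_zero] at hθ
      rw [IntermediateField.adjoin_one]
      exact hθ
    · exact ⟨θ, h0, hθ⟩
  -- the polynomial ring
  letI : Algebra (MvPolynomial (Fin d) ℂ) L := (aeval β).toRingHom.toAlgebra
  haveI : IsScalarTower ℂ (MvPolynomial (Fin d) ℂ) L :=
    IsScalarTower.of_algebraMap_eq fun c => by
      show algebraMap ℂ L c = aeval β (algebraMap ℂ (MvPolynomial (Fin d) ℂ) c)
      rw [AlgHom.commutes]
  have hR : ∀ P : MvPolynomial (Fin d) ℂ, algebraMap (MvPolynomial (Fin d) ℂ) L P = aeval β P :=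
    fun P => rfl
  have hinj : Function.Injective (algebraMap (MvPolynomial (Fin d) ℂ) L) := hβ.1
  haveI : FaithfulSMul (MvPolynomial (Fin d) ℂ) L :=
    (faithfulSMul_iff_algebraMap_injective _ _).2 hinj
  have halg : ∀ z : L, IsAlgebraic (MvPolynomial (Fin d) ℂ) z := by
    intro z
    obtain ⟨p, hp0, hp⟩ := hβ.isAlgebraic.isAlgebraic z
    refine ⟨p.map (hβ.1.aevalEquiv.symm : _ →+* MvPolynomial (Fin d) ℂ), ?_, ?_⟩
    · intro h0
      apply hp0
      exact (Polynomial.map_eq_zero_iff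
        (fun a b h => (hβ.1.aevalEquiv.symm).injective h)).1 h0
    · rw [Polynomial.aeval_def, Polynomial.eval₂_map]
      rw [Polynomial.aeval_def] at hp
      rw [← hp]
      congr 1
      ext s
      show aeval β (hβ.1.aevalEquiv.symm s) = _
      have h1 := hβ.1.algebraMap_aevalEquiv (hβ.1.aevalEquiv.symm s)
      rw [AlgEquiv.apply_symm_apply] at h1
      exact h1.symm
  obtain ⟨ρ, hρ0, hint⟩ := (halg θ).exists_integral_multiple
  have hθ'eq : ρ • θ = aeval β ρ * θ := Algebra.smul_def ρ θ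
  have hρL : aeval β ρ ≠ 0 := fun h => hρ0 (hinj (by rw [hR, h, map_zero]))
  set θ' : L := ρ • θ with hθ'
  have hθ'0 : θ' ≠ 0 := by rw [hθ'eq]; exact mul_ne_zero hρL hθ0
  let x : Fin (d + 1) → L := Fin.cons θ' β
  let M := IntermediateField.adjoin ℂ (Set.range x)
  have hβM : ∀ i, β i ∈ M := fun i =>
    IntermediateField.subset_adjoin ℂ _ ⟨i.succ, by simp [x]⟩
  have hθ'M : θ' ∈ M := IntermediateField.subset_adjoin ℂ _ ⟨0, by simp [x]⟩
  have hE₀M : ∀ z ∈ E₀, z ∈ M := by
    intro z hz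
    have h1 : E₀ ≤ M := IntermediateField.adjoin_le_iff.2 (by
      rintro _ ⟨i, rfl⟩
      exact hβM i)
    exact h1 hz
  have hpM : aeval β ρ ∈ M := by
    apply hE₀M
    have h1 : aeval β ρ ∈ Algebra.adjoin ℂ (Set.range β) := by
      rw [Algebra.adjoin_range_eq_range_aeval]
      exact ⟨ρ, rfl⟩
    exact IntermediateField.algebra_adjoin_le_adjoin ℂ _ h1
  have hθM : θ ∈ M := by
    have h1 : θ = θ' / aeval β ρ := by rw [hθ'eq]; field_simp
    rw [h1]
    exact M.div_mem hθ'M hpM
  have htop : ∀ z : L, z ∈ M := by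
    intro z
    have h1 : z ∈ IntermediateField.adjoin E₀ {θ} := by rw [hθ]; trivial
    induction h1 using IntermediateField.adjoin_induction with
    | mem y hy =>
      rw [Set.mem_singleton_iff] at hy
      rw [hy]; exact hθM
    | algebraMap y => exact hE₀M _ y.2
    | add y z _ _ hy hz => exact M.add_mem hy hz
    | inv y _ hy => exact M.inv_mem hy
    | mul y z _ _ hy hz => exact M.mul_mem hy hz
  have heval : ∀ P : MvPolynomial (Fin (d + 1)) ℂ,
      aeval x P = Polynomial.aeval θ' (finSuccEquiv ℂ d P) := by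
    intro P
    have h1 : (aeval x : MvPolynomial (Fin (d + 1)) ℂ →ₐ[ℂ] L) =
        ((Polynomial.aeval θ' : Polynomial (MvPolynomial (Fin d) ℂ) →ₐ[MvPolynomial (Fin d) ℂ]
          L).restrictScalars ℂ).comp (finSuccEquiv ℂ d).toAlgHom := by
      apply MvPolynomial.algHom_ext
      intro i
      refine Fin.cases ?_ (fun j => ?_) i
      · simp [x, finSuccEquiv_X_zero]
      · simp [x, finSuccEquiv_X_succ, hR]
    exact congrArg (fun φ => φ P) h1
  refine ⟨x, (finSuccEquiv ℂ d).symm (minpoly (MvPolynomial (Fin d) ℂ) θ'), ?_⟩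
  refine ⟨?_, ?_, ?_, ?_⟩
  · intro z
    obtain ⟨P, Q, h2⟩ := (IntermediateField.mem_adjoin_range_iff ℂ x z).1 (htop z)
    by_cases hQ : aeval x Q = 0
    · refine ⟨0, 1, by simp, ?_⟩
      rw [h2, hQ]; simp
    · exact ⟨P, Q, hQ, h2⟩
  · intro P
    rw [heval, minpoly.isIntegrallyClosed_dvd_iff hint]
    rw [← map_dvd_iff (finSuccEquiv ℂ d)
      (a := (finSuccEquiv ℂ d).symm (minpoly (MvPolynomial (Fin d) ℂ) θ')),
      AlgEquiv.apply_symm_apply]
  · intro h0
    have h1 := minpoly.ne_zero hint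
    apply h1
    have h2 := congrArg (finSuccEquiv ℂ d) h0
    rwa [AlgEquiv.apply_symm_apply, map_zero] at h2
  · intro j
    refine Fin.cases ?_ (fun i => ?_) j
    · simpa [x] using hθ'0
    · have h1 := hβ.1.ne_zero i
      simpa [x] using h1

end Vale.Agent.P283.H108
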