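import Vale.Agent.P283.H108.LocBertini
import Vale.Agent.P283.H108.Model

/-!
The theorem of Bertini type for linear systems of monomials in functions on any variety.
-/

set_option linter.all false

namespace Vale.Agent.P283.H108

open MvPolynomial Finset
open Vale.Agent.P283.Z647
open Vale.Agent.P283.H647 (ResForm HypData order_exists order_unique)

/-- The coefficients of `S` are independent over the field generated by `F`. -/
def GenS {n : ℕ} (F : Finset ℂ) (S : MvPolynomial (Fin n) ℂ) : Prop :=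
  ∀ e₀ ∈ S.support, ∃ δ : Derivation ℚ ℂ ℂ, (∀ c ∈ F, δ c = 0) ∧ δ (S.coeff e₀) = 1 ∧
    ∀ e, e ≠ e₀ → δ (S.coeff e) = 0

theorem exists_genS {n : ℕ} (F : Finset ℂ) (E : Finset (Fin n →₀ ℕ)) :
    ∃ S : MvPolynomial (Fin n) ℂ, S.support = E ∧ GenS F S := by
  classical
  obtain ⟨S, hS, hgen⟩ := exists_genCoeff (0 : MvPolynomial (Fin n) ℂ)
    (fun i : Fin F.card => (C ((F.equivFin.symm i : F) : ℂ) : MvPolynomial (Fin n) ℂ)) E
  refine ⟨S, hS, ?_⟩
  intro e₀ he₀
  obtain ⟨δ, -, h2, h3, h4⟩ := hgen e₀ he₀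
  refine ⟨δ, fun c hc => ?_, h3, h4⟩
  have h5 := h2 (F.equivFin ⟨c, hc⟩) 0
  simp only [Equiv.symm_apply_apply, coeff_zero_C] at h5
  exact h5

/-- The coefficients of a polynomial and of a family of polynomials. -/
noncomputable def coeffs {m t : ℕ} (F : MvPolynomial (Fin m) ℂ)
    (gx : Fin t → MvPolynomial (Fin m) ℂ) : Finset ℂ := by
  classical
  exact (F.support.image fun α => F.coeff α) ∪
    Finset.univ.biUnion fun i => (gx i).support.image fun α => (gx i).coeff α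

theorem fix_coeffs {m t : ℕ} {F : MvPolynomial (Fin m) ℂ} {gx : Fin t → MvPolynomial (Fin m) ℂ}
    {ι₀ : ℂ →+* ℂ} (h : ∀ c ∈ coeffs F gx, ι₀ c = c) :
    map ι₀ F = F ∧ ∀ i, map ι₀ (gx i) = gx i := by
  classical
  constructor
  · apply map_eq_self
    intro α
    by_cases hα : α ∈ F.support
    · exact h _ (Finset.mem_union_left _ (Finset.mem_image_of_mem _ hα))
    · rw [notMem_support_iff.1 hα, map_zero]
  · intro i
    apply map_eq_self
    intro α
    by_cases hα : α ∈ (gx i).support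
    · exact h _ (Finset.mem_union_right _ (Finset.mem_biUnion.2
        ⟨i, Finset.mem_univ _, Finset.mem_image_of_mem _ hα⟩))
    · rw [notMem_support_iff.1 hα, map_zero]

theorem semi_aeval {n : ℕ} {L : Type} [Field L] [Algebra ℂ L] {y : Fin n → L} {ι₀ : ℂ →+* ℂ}
    {ι : L →+* L} (hC : ∀ a : ℂ, ι (algebraMap ℂ L a) = algebraMap ℂ L (ι₀ a))
    (hy : ∀ k, ι (y k) = y k) (P : MvPolynomial (Fin n) ℂ) :
    ι (aeval y P) = aeval y (map ι₀ P) := by
  induction P using MvPolynomial.induction_on with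
  | C a => rw [MvPolynomial.algHom_C, map_C, MvPolynomial.algHom_C, hC]
  | add P Q hP hQ => rw [map_add, map_add, map_add, map_add, hP, hQ]
  | mul_X P i hP => rw [map_mul, map_mul, map_mul, map_mul, hP, aeval_X, map_X, aeval_X, hy]

section Step

variable {n t t' : ℕ} {e : ℕ} {L : Type} [Field L] [Algebra ℂ L] {x : Fin (e + 2) → L}
  {F : MvPolynomial (Fin (e + 2)) ℂ} {gx : Fin t' → MvPolynomial (Fin (e + 2)) ℂ}
  {y : Fin n → L} {S : MvPolynomial (Fin n) ℂ}

/-- The endomorphism which moves one coefficient. -/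
theorem exists_move (H : HypData x F) (hy0 : ∀ k, y k ≠ 0) (hy : ∀ k, Fixes x gx (y k))
    (hgen : GenS (coeffs F gx) S) {e₀ : Fin n →₀ ℕ} (he₀ : e₀ ∈ S.support) :
    ∃ (ι₀ : ℂ →+* ℂ) (ι : L →+* L), (∀ P : MvPolynomial (Fin (e + 2)) ℂ,
      ι (aeval x P) = aeval x (map ι₀ P)) ∧ map ι₀ F = F ∧ (∀ i, map ι₀ (gx i) = gx i) ∧
      (∀ γ, ι₀ γ ≠ S.coeff e₀) ∧
      ι (- aeval y (S - monomial e₀ (S.coeff e₀)) / ∏ k, y k ^ e₀ k) =
        - aeval y (S - monomial e₀ (S.coeff e₀)) / ∏ k, y k ^ e₀ k := by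
  classical
  obtain ⟨δ, hδF, hδ1, hδS⟩ := hgen e₀ he₀
  set c := S.coeff e₀ with hcdef
  obtain ⟨ι₀, hι₀, hcι⟩ := exists_endo (coeffs F gx ∪
    ((S.support.erase e₀).image fun α => S.coeff α)) c δ (by
    intro a ha
    simp only [Finset.mem_union, Finset.mem_image] at ha
    rcases ha with ha | ⟨α, hα, rfl⟩
    · exact hδF a ha
    · exact hδS α (Finset.ne_of_mem_erase hα)) (by rw [hδ1]; exact one_ne_zero)
  obtain ⟨hff, hxf⟩ := fix_coeffs (F := F) (gx := gx) (ι₀ := ι₀)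
    (fun c hc => hι₀ c (Finset.mem_union_left _ hc))
  set S₁ := S - monomial e₀ c with hS₁
  have hS₁c : ∀ α, S₁.coeff α = if α = e₀ then 0 else S.coeff α := by
    intro α
    rw [hS₁, coeff_sub, coeff_monomial]
    by_cases hα : α = e₀
    · subst hα; rw [if_pos rfl, if_pos rfl, sub_self]
    · rw [if_neg (Ne.symm hα), if_neg hα, sub_zero]
  have hSf : map ι₀ S₁ = S₁ := by
    apply map_eq_self
    intro α
    rw [hS₁c]
    split_ifs with hα
    · exact map_zero _
    · by_cases hαS : α ∈ S.support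
      · exact hι₀ _ (Finset.mem_union_right _
          (Finset.mem_image_of_mem _ (Finset.mem_erase.2 ⟨hα, hαS⟩)))
      · rw [notMem_support_iff.1 hαS, map_zero]
  obtain ⟨ι, hι⟩ := exists_semi H hff
  have hιy : ∀ k, ι (y k) = y k := fun k => hy k ι₀ ι hι hxf
  refine ⟨ι₀, ι, hι, hff, hxf, hcι, ?_⟩
  have hYι : ι (∏ k, y k ^ e₀ k) = ∏ k, y k ^ e₀ k := by
    rw [map_prod]
    exact Finset.prod_congr rfl fun k _ => by rw [map_pow, hιy]
  rw [map_div₀, map_neg, semi_aeval (semi_C hι) hιy, hSf, hYι]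

theorem split_S (hy0 : ∀ k, y k ≠ 0) (e₀ : Fin n →₀ ℕ) :
    aeval y S = (∏ k, y k ^ e₀ k) * (algebraMap ℂ L (S.coeff e₀) -
      (- aeval y (S - monomial e₀ (S.coeff e₀)) / ∏ k, y k ^ e₀ k)) := by
  have hY0 : (∏ k, y k ^ e₀ k) ≠ 0 := Finset.prod_ne_zero_iff.2 fun k _ => pow_ne_zero _ (hy0 k)
  have h1 : S = (S - monomial e₀ (S.coeff e₀)) + monomial e₀ (S.coeff e₀) := by ring
  have h2 : aeval y (monomial e₀ (S.coeff e₀)) =
      algebraMap ℂ L (S.coeff e₀) * ∏ k, y k ^ e₀ k := by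
    rw [aeval_monomial, Finsupp.prod_fintype _ _ (by simp)]
  conv_lhs => rw [h1]
  rw [map_add, h2]
  field_simp
  ring

theorem genS_aeval_ne (H : HypData x F) (hy0 : ∀ k, y k ≠ 0) (hy : ∀ k, Fixes x gx (y k))
    (hS0 : S ≠ 0) (hgen : GenS (coeffs F gx) S) : aeval y S ≠ 0 := by
  intro h0
  obtain ⟨e₀, he₀⟩ := support_nonempty.2 hS0
  obtain ⟨ι₀, ι, hι, -, -, hcι, hx⟩ := exists_move H hy0 hy hgen he₀
  have hY0 : (∏ k, y k ^ e₀ k) ≠ 0 := Finset.prod_ne_zero_iff.2 fun k _ => pow_ne_zero _ (hy0 k)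
  rw [split_S hy0 e₀] at h0
  have h1 := sub_eq_zero.1 ((mul_eq_zero.1 h0).resolve_left hY0)
  rw [← h1, semi_C hι] at hx
  exact hcι _ ((algebraMap ℂ L).injective hx)

/-- The theorem of Bertini type. -/
theorem bertiniX (H : HypData x F) {D' : Fin (e + 1) → Derivation ℂ L L} {h : L}
    (R : ResForm x F D' h) (hh : Fixes x gx h) (hy0 : ∀ k, y k ≠ 0)
    (hy : ∀ k, Fixes x gx (y k)) {G : L} (hG0 : G ≠ 0) (hG : Fixes x gx G)
    {σ : Fin t → L} (hσ : ∀ i, Fixes x gx (σ i)) {q : ℕ} {Λ : (Fin n → ℤ) → ℤ}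
    (hΛ : ∀ (β : ℕ) (a a' : Fin n → ℤ), (∀ k, (β : ℤ) * a' k = a k) → Λ a = β * Λ a')
    (hΛ0 : Λ 0 = 0)
    (hlc : ∀ (w : AddValuation L (WithTop ℤ)) (m : ℤ), Q.IsDivisorial (e + 1) w →
      (∀ i, 0 ≤ w (σ i)) → Q.FormOrder w D' m → ov w G ≤ q * (1 + m) + Λ (wts w y))
    (hS0 : S ≠ 0) (hgen : GenS (coeffs F gx) S)
    {w : AddValuation L (WithTop ℤ)} (hw : Q.IsDivisorial (e + 1) w)
    (hwσ : ∀ i, 0 ≤ w (σ i)) {m : ℤ} (hm : Q.FormOrder w D' m) :
    ov w G + q * (ov w (aeval y S) - minWt S (wts w y)) ≤ q * (1 + m) + Λ (wts w y) := by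
  classical
  haveI := H.ess
  have hxS := genS_aeval_ne H hy0 hy hS0 hgen
  have hSl := ov_lower hw.const hy0 hxS (isMinZ_minWt hS0 (wts w y))
  have hqZ : (0 : ℤ) ≤ q := by positivity
  by_cases hex : ov w (aeval y S) = minWt S (wts w y)
  · rw [hex, sub_self, mul_zero, add_zero]
    exact hlc w m hw hwσ hm
  have hpos : 0 < ov w (aeval y S) - minWt S (wts w y) := by
    have := lt_of_le_of_ne hSl (Ne.symm hex)
    omega
  set b := wts w y with hbdef
  have hb : ∀ j, w (y j) = (b j : WithTop ℤ) := fun j => (coe_ov w (hy0 j)).symm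
  obtain ⟨⟨e₀, he₀, he₀w⟩, hmin⟩ := isMinZ_minWt hS0 b
  obtain ⟨ι₀, ι, hι, hff, hxf, hcι, hxι⟩ := exists_move H hy0 hy hgen he₀
  have hιy : ∀ k, ι (y k) = y k := fun k => hy k ι₀ ι hι hxf
  set c := S.coeff e₀ with hcdef
  set S₁ := S - monomial e₀ c with hS₁
  have hS₁c : ∀ α, S₁.coeff α = if α = e₀ then 0 else S.coeff α := by
    intro α
    rw [hS₁, coeff_sub, coeff_monomial]
    by_cases hα : α = e₀
    · subst hα; rw [if_pos rfl, if_pos rfl, sub_self]
    · rw [if_neg (Ne.symm hα), if_neg hα, sub_zero]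
  have hSx' := split_S (S := S) hy0 e₀
  set Y := ∏ k, y k ^ e₀ k with hY
  have hY0 : Y ≠ 0 := Finset.prod_ne_zero_iff.2 fun k _ => pow_ne_zero _ (hy0 k)
  set z := - aeval y S₁ / Y with hz
  have hSx : aeval y S = Y * (algebraMap ℂ L c - ι z) := by
    rw [hxι]; exact hSx'
  have hYw : ov w Y = minWt S b := by
    apply ov_eq_of
    rw [hY, val_monoZ w hw.const y b hb, he₀w]
  have hcx0 : algebraMap ℂ L c - ι z ≠ 0 := by
    intro h0
    rw [h0, mul_zero] at hSx
    exact hxS hSx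
  have hcxv : ov w (algebraMap ℂ L c - ι z) = ov w (aeval y S) - minWt S b := by
    rw [hSx, ov_mul w hY0 hcx0, hYw]; ring
  have hcx : 0 < w (algebraMap ℂ L c - ι z) := by
    rw [pos_iff w hcx0, hcxv]; exact hpos
  by_cases htriv : ∃ z : L, z ≠ 0 ∧ ov (w.comap ι) z ≠ 0
  · -- the main case
    obtain ⟨v', β, hβ0, hn, hβ'⟩ := exists_normalized (w.comap ι) htriv
    have hβ : ∀ z, w (ι z) = β • v' z := hβ'
    have hβZ : (0 : ℤ) < β := by exact_mod_cast hβ0
    have hc' : ∀ c : ℂ, c ≠ 0 → v' (algebraMap ℂ L c) = 0 := by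
      intro c hc
      have h0 : algebraMap ℂ L c ≠ 0 := (map_ne_zero _).2 hc
      have h1 : ov w (ι (algebraMap ℂ L c)) = 0 := by
        rw [semi_C hι]
        exact ov_eq_of w (by rw [hw.const _ ((map_ne_zero ι₀).2 hc)]; rfl)
      rw [ov_comap_mul hβ h0] at h1
      rw [eq_zero_iff v' h0]
      rcases mul_eq_zero.1 h1 with h | h
      · exact absurd h hβZ.ne'
      · exact h
    have hxv : 0 ≤ v' z := by
      by_cases h0 : z = 0
      · rw [h0, AddValuation.map_zero]; exact le_top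
      rw [nonneg_iff v' h0]
      have h1 : 0 ≤ w z := by
        have h2 : (minWt S b : WithTop ℤ) ≤ w (aeval y S₁) := by
          apply val_lowerZ w hw.const y b hb
          intro α hα
          rw [mem_support_iff, hS₁c] at hα
          by_cases hαe : α = e₀
          · rw [if_pos hαe] at hα; exact absurd rfl hα
          · rw [if_neg hαe] at hα
            exact hmin α (mem_support_iff.2 hα)
        have h3 : aeval y S₁ ≠ 0 := by
          intro h4
          apply h0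
          rw [hz, h4, neg_zero, zero_div]
        rw [nonneg_iff w h0, hz, ov_div w (neg_ne_zero.2 h3) hY0, hYw]
        have h4 : ov w (-aeval y S₁) = ov w (aeval y S₁) := by
          apply ov_eq_of
          rw [AddValuation.map_neg, coe_ov w h3]
        rw [h4]
        rw [← coe_ov w h3] at h2
        have h5 : minWt S b ≤ ov w (aeval y S₁) := by exact_mod_cast h2
        omega
      rw [← hxι, nonneg_iff w ((map_ne_zero ι).2 h0), ov_comap_mul hβ h0] at h1
      exact nonneg_of_mul_nonneg_right h1 hβZ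
    obtain ⟨m', hm'⟩ := restr_order hι H hff R hm hβ0 hβ
    obtain ⟨hdiv, hkey⟩ := restr_key hι H hff R hw hm hβ0 hβ hn hc' hm' hcι hxv hcx
    have hfix : ∀ {z : L}, z ≠ 0 → Fixes x gx z → ov w z = β * ov v' z := by
      intro z hz0 hzf
      have h1 := ov_comap_mul hβ hz0
      rwa [hzf ι₀ ι hι hxf] at h1
    have hwt : ∀ k, (β : ℤ) * wts v' y k = b k := fun k => (hfix (hy0 k) (hy k)).symm
    have hv'σ : ∀ i, 0 ≤ v' (σ i) := by
      intro i
      have h1 := hβ (σ i)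
      rw [hσ i ι₀ ι hι hxf] at h1
      have h2 := hwσ i
      rw [h1] at h2
      exact nonneg_of_nsmul hβ0 h2
    have h1 := hlc v' m' hdiv hv'σ hm'
    have h2 := mul_le_mul_of_nonneg_left h1 hβZ.le
    have h3 := hfix hG0 hG
    have h4 := hfix R.h0 hh
    have h5 := hΛ β b (wts v' y) hwt
    rw [hcxv, h4] at hkey
    have h6 := mul_le_mul_of_nonneg_left hkey hqZ
    rw [h3, h5]
    have h7 : (β : ℤ) * (q * (1 + m') + Λ (wts v' y)) =
        q * (β * (1 + m')) + β * Λ (wts v' y) := by ring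
    rw [h7] at h2
    have h8 : (q : ℤ) * (β * (1 + m' - ov v' h) + (ov w (aeval y S) - minWt S b)) =
        q * (β * (1 + m')) - q * (β * ov v' h) + q * (ov w (aeval y S) - minWt S b) := by ring
    have h9 : (q : ℤ) * (1 + m - β * ov v' h) = q * (1 + m) - q * (β * ov v' h) := by ring
    rw [h8, h9] at h6
    linarith
  · -- the restriction is trivial
    push Not at htriv
    have hz' : ∀ z : L, z ≠ 0 → ov w (ι z) = 0 := htriv
    have hfix0 : ∀ {z : L}, z ≠ 0 → Fixes x gx z → ov w z = 0 := by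
      intro z hz0 hzf
      have h1 := hz' z hz0
      rwa [hzf ι₀ ι hι hxf] at h1
    have hb0 : b = 0 := by
      funext k
      exact hfix0 (hy0 k) (hy k)
    have h2 := restr_trivial hι H hff R hw hm hz' hcι hcx
    rw [hcxv, hfix0 R.h0 hh] at h2
    have h3 := mul_le_mul_of_nonneg_left h2 hqZ
    rw [hfix0 hG0 hG]
    rw [hb0] at h3 ⊢
    rw [hΛ0]
    linarith

end Step

end Vale.Agent.P283.H108
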