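import Vale.Agent.P283.H647.Gen

/-!
Endomorphisms of the field of complex numbers.
-/

set_option linter.all false

namespace Vale.Agent.P283.H108

open Cardinal

theorem lift_alg_closed {R Ω₁ Ω₂ : Type} [CommRing R] [IsDomain R] [Field Ω₁] [Field Ω₂]
    [IsAlgClosed Ω₂] (ψ : R →+* Ω₁) (hψ : Function.Injective ψ)
    (halg : letI := ψ.toAlgebra; Algebra.IsAlgebraic R Ω₁)
    (φ : R →+* Ω₂) (hφ : Function.Injective φ) : ∃ ι : Ω₁ →+* Ω₂, ∀ r, ι (ψ r) = φ r := by
  letI := ψ.toAlgebra
  letI := φ.toAlgebra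
  haveI : FaithfulSMul R Ω₁ := (faithfulSMul_iff_algebraMap_injective _ _).2 hψ
  haveI : FaithfulSMul R Ω₂ := (faithfulSMul_iff_algebraMap_injective _ _).2 hφ
  haveI : Algebra.IsAlgebraic R Ω₁ := halg
  let ι : Ω₁ →ₐ[R] Ω₂ := IsAlgClosed.lift
  exact ⟨ι.toRingHom, fun r => ι.commutes r⟩

theorem der_aeval_poly {k : IntermediateField ℚ ℂ} (δ : Derivation ℚ ℂ ℂ)
    (hk : ∀ a ∈ k, δ a = 0) (c : ℂ) (p : Polynomial k) :
    δ (Polynomial.aeval c p) = Polynomial.aeval c (Polynomial.derivative p) * δ c := by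
  induction p using Polynomial.induction_on' with
  | add p q hp hq => simp only [map_add, hp, hq, add_mul]
  | monomial n a =>
    rw [Polynomial.aeval_monomial, Derivation.leibniz, Derivation.leibniz_pow,
      Polynomial.derivative_monomial, Polynomial.aeval_monomial]
    have h1 : δ (algebraMap k ℂ a) = 0 := hk _ a.2
    rw [h1]
    simp only [smul_eq_mul, nsmul_eq_mul, map_mul, map_natCast, mul_zero, add_zero]
    ring

theorem exists_endo (F : Finset ℂ) (c : ℂ) (δ : Derivation ℚ ℂ ℂ) (hδ : ∀ a ∈ F, δ a = 0)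
    (hc : δ c ≠ 0) : ∃ ι₀ : ℂ →+* ℂ, (∀ a ∈ F, ι₀ a = a) ∧ ∀ γ, ι₀ γ ≠ c := by
  classical
  let k : IntermediateField ℚ ℂ := IntermediateField.adjoin ℚ (F : Set ℂ)
  have hk : ∀ a ∈ k, δ a = 0 := by
    intro a ha
    induction ha using IntermediateField.adjoin_induction with
    | mem x hx => exact hδ x hx
    | algebraMap x => exact δ.map_algebraMap x
    | add x y _ _ hx hy => rw [map_add, hx, hy, add_zero]
    | inv x _ hx => rw [Derivation.leibniz_inv, hx, smul_zero]
    | mul x y _ _ hx hy => rw [Derivation.leibniz, hx, hy]; simp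
  have htr : Transcendental k c := by
    intro halg
    have hint : IsIntegral k c := halg.isIntegral
    have h1 : Polynomial.aeval c (minpoly k c) = 0 := minpoly.aeval k c
    have h2 := der_aeval_poly δ hk c (minpoly k c)
    rw [h1, map_zero] at h2
    have h3 : Polynomial.aeval c (Polynomial.derivative (minpoly k c)) ≠ 0 :=
      (minpoly.irreducible hint).separable.aeval_derivative_ne_zero h1
    exact mul_ne_zero h3 hc h2.symm
  -- a transcendence basis containing `c`
  have hind : AlgebraicIndepOn k id ({c} : Set ℂ) := by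
    have h1 := (algebraicIndependent_singleton_iff (R := k)
      (x := fun i : ({c} : Set ℂ) => (i : ℂ)) ⟨c, rfl⟩).2 htr
    exact h1
  obtain ⟨s, hcs, hs⟩ := exists_isTranscendenceBasis_superset hind
  have hkc : #k ≤ ℵ₀ := by
    have h1 := IntermediateField.cardinalMk_adjoin_le ℚ (F : Set ℂ)
    refine h1.trans ?_
    have h2 : #((F : Set ℂ) : Type) ≤ ℵ₀ := (Finset.countable_toSet F).le_aleph0
    simp [h2]
  have hinf : Infinite s := by
    rw [← not_finite_iff_infinite]
    intro hfin
    have h1 := IsAlgClosed.cardinal_le_max_transcendence_basis' (Subtype.val : s → ℂ) hs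
    have h3 : #s < ℵ₀ := Cardinal.mk_lt_aleph0
    rw [Cardinal.mk_complex] at h1
    have h4 : max (max #k #s) ℵ₀ = ℵ₀ := by
      rw [max_eq_right (max_le hkc h3.le)]
    rw [h4] at h1
    exact absurd Cardinal.aleph0_lt_continuum (not_lt.2 h1)
  let c' : s := ⟨c, hcs rfl⟩
  obtain ⟨g⟩ : Nonempty (Option s ≃ s) := by
    rw [← Cardinal.eq, Cardinal.mk_option, Cardinal.mk_add_one_eq]
  let g' : Option s ≃ s := g.trans (Equiv.swap (g none) c')
  have hg' : g' none = c' := by
    simp [g']
  let j : s → s := fun b => g' (some b)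
  have hj : Function.Injective j := fun a b h => Option.some_injective _ (g'.injective h)
  have hjc : c' ∉ Set.range j := by
    rintro ⟨b, hb⟩
    have h1 : g' (some b) = g' none := by rw [hg']; exact hb
    exact Option.some_ne_none _ (g'.injective h1)
  let ψ : MvPolynomial s k →ₐ[k] ℂ := MvPolynomial.aeval (Subtype.val : s → ℂ)
  let φ : MvPolynomial s k →ₐ[k] ℂ := MvPolynomial.aeval (fun b => ((j b : s) : ℂ))
  have hψ : Function.Injective ψ := hs.1
  have hφ : Function.Injective φ := (hs.1.comp j hj)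
  have halg : letI := ψ.toRingHom.toAlgebra; Algebra.IsAlgebraic (MvPolynomial s k) ℂ := by
    letI := ψ.toRingHom.toAlgebra
    haveI := hs.isAlgebraic
    refine Algebra.IsAlgebraic.of_ringHom_of_comp_eq
      (S := Algebra.adjoin k (Set.range (Subtype.val : s → ℂ))) (B := ℂ)
      (f := (hs.1.aevalEquiv : MvPolynomial s k ≃ₐ[k] _).toRingEquiv.toRingHom)
      (g := RingHom.id ℂ) ?_ Function.injective_id ?_
    · exact (hs.1.aevalEquiv).surjective
    · ext x
      · simp [RingHom.algebraMap_toAlgebra, ψ]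
      · simp [RingHom.algebraMap_toAlgebra, ψ]
  obtain ⟨ι₀, hι₀⟩ := lift_alg_closed ψ.toRingHom hψ halg φ.toRingHom hφ
  have hk0 : ∀ a : k, ι₀ (a : ℂ) = a := by
    intro a
    have h1 := hι₀ (MvPolynomial.C a)
    have h2 : ψ.toRingHom (MvPolynomial.C a) = (a : ℂ) := MvPolynomial.algHom_C ψ a
    have h3 : φ.toRingHom (MvPolynomial.C a) = (a : ℂ) := MvPolynomial.algHom_C φ a
    rw [h2, h3] at h1
    exact h1
  refine ⟨ι₀, fun a ha => hk0 ⟨a, IntermediateField.subset_adjoin ℚ _ ha⟩, ?_⟩
  intro γ hγ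
  -- `c` would be algebraic over the other elements of the basis
  have htrc := hs.1.transcendental_adjoin (s := Set.range j) (i := c') hjc
  apply htrc
  letI := ψ.toRingHom.toAlgebra
  haveI : Algebra.IsAlgebraic (MvPolynomial s k) ℂ := halg
  have hγalg : IsAlgebraic (MvPolynomial s k) γ := Algebra.IsAlgebraic.isAlgebraic γ
  have hmem : ∀ p, φ p ∈ Algebra.adjoin k ((Subtype.val : s → ℂ) '' Set.range j) := by
    intro p
    have h1 : φ p ∈ φ.range := ⟨p, rfl⟩
    rw [← Algebra.adjoin_range_eq_range_aeval] at h1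
    rw [← Set.range_comp]
    exact h1
  let φ' : MvPolynomial s k →+* Algebra.adjoin k ((Subtype.val : s → ℂ) '' Set.range j) :=
    φ.toRingHom.codRestrict _ hmem
  have h1 := hγalg.ringHom_of_comp_eq (S := Algebra.adjoin k ((Subtype.val : s → ℂ) '' Set.range j))
    φ' ι₀ (fun a b h => hφ (congrArg Subtype.val h)) (by
      ext x
      · exact (hι₀ _).symm
      · exact (hι₀ _).symm)
  have h2 : ι₀ γ = ((c' : s) : ℂ) := hγ
  rw [h2] at h1
  exact h1

end Vale.Agent.P283.H108
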