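import Vale.Agent.P283.Z647.Defs

/-!
Pairs `(X', B')` with a proper morphism `X' → Z = Spec A` with a Galois cover by a non-degenerate
hypersurface in a toric variety, where the remaining components of the boundary may be degenerate.
-/

namespace Vale.Agent.P283.H108

open MvPolynomial Vale.Agent.P283.Q Vale.Agent.P283.Z647

variable {m N s : ℕ}

/-- `f` is non-degenerate for the weights `a` in the cone `τ`, and `∑ c_i div(g_i)` is transversal
to it up to small multiplicities. At every zero `ξ` in the torus of the initial form of `f` there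
is a set `S` of indices such that the gradients of the initial forms of `f` and of the `g_i` with
`i ∈ S` are linearly independent; for the other indices with `c_i ≠ 0`, the restriction of the
initial form of `g_i` to the smooth hypersurface `{in_a f = 0}` has multiplicity at most `μ i` at
`ξ`, that is, it does not lie in the power `μ i + 1` of the maximal ideal of the point; and
`β + ∑_{i ∉ S} c_i μ_i < 1`, where `β ≥ 0` and `c_i ≤ β` for `i ∈ S`. -/
def SmallMult (v : Fin N → Fin m → ℤ) (f : MvPolynomial (Fin m) ℂ)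
    (g : Fin s → MvPolynomial (Fin m) ℂ) (c : Fin s → ℚ) : Prop :=
  ∀ a : Fin m → ℤ, Z647.InCone v a → ∀ ξ : Fin m → ℂ, (∀ k, ξ k ≠ 0) → eval ξ (inFormZ f a) = 0 →
    ∃ (S : Finset (Fin s)) (μ : Fin s → ℕ) (β : ℚ),
      (∀ (t₀ : ℂ) (t : Fin s → ℂ), (∀ k, t₀ * eval ξ (pderiv k (inFormZ f a)) +
        ∑ i ∈ S, t i * eval ξ (pderiv k (inFormZ (g i) a)) = 0) → t₀ = 0 ∧ ∀ i ∈ S, t i = 0) ∧
      (∀ i ∉ S, c i ≠ 0 → inFormZ (g i) a ∉
        RingHom.ker (eval ξ) ^ (μ i + 1) ⊔ Ideal.span {inFormZ f a}) ∧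
      0 ≤ β ∧ (∀ i ∈ S, c i ≤ β) ∧ β + ∑ i ∈ Sᶜ, c i * μ i < 1

/-- `Z = Spec A` and the irreducible hypersurface `{f = 0}` in the torus with the coordinates `y_k`:
`L` is the function field of the hypersurface, `K = L^G` for a group `G` of at most `J`
automorphisms of `L`, and `A ⊆ K` has the same integral closure in `L` as the ring
`ℂ[y^u : u ∈ τ^∨]`, where the cone `τ` is spanned by the vectors `v j`. So `Z` has the same
normalization in `L` as the closure of the image of the hypersurface in the affine toric variety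
`Spec ℂ[y^u : u ∈ τ^∨]`. The cone `τ` may contain lines; then `dim Z` may be smaller than the
transcendence degree of `K`, and `Z` is a point if `τ` is the whole space. And `f` is
non-degenerate, up to small multiplicities jointly with `∑ c_i div(g_i)`. -/
structure IsMultCover (J : ℕ) {K L : Type} [Field K] [Field L] [Algebra ℂ K] [Algebra ℂ L]
    [Algebra K L] (y : Fin m → L) (f : MvPolynomial (Fin m) ℂ)
    (g : Fin s → MvPolynomial (Fin m) ℂ) (c : Fin s → ℚ) (v : Fin N → Fin m → ℤ)
    (G : Subgroup (L ≃ₐ[ℂ] L)) (A : Subalgebra ℂ K) : Prop where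
  generate : IntermediateField.adjoin ℂ (Set.range y) = ⊤
  equation : ∀ P : MvPolynomial (Fin m) ℂ, aeval y P = 0 ↔ f ∣ P
  nonzero : f ≠ 0
  coordinate : ∀ k, y k ≠ 0
  divisor : ∀ i, aeval y (g i) ≠ 0
  multiplicity : SmallMult v f g c
  finite : Finite G
  card : Nat.card G ≤ J
  field : ∀ z : L, z ∈ Set.range (algebraMap K L) ↔ ∀ τ ∈ G, τ z = z
  cover : ∀ a ∈ A, IsIntegral (Algebra.adjoin ℂ {z : L | ∃ u : Fin m → ℤ,
    (∀ j, 0 ≤ ∑ k, v j k * u k) ∧ z = ∏ k, y k ^ u k}) (algebraMap K L a)
  finiteCover : ∀ u : Fin m → ℤ, (∀ j, 0 ≤ ∑ k, v j k * u k) → IsIntegral A (∏ k, y k ^ u k)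

end Vale.Agent.P283.H108
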