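import Vale.Agent.P283.H108.Indep
import Vale.Agent.P283.H108.Defs
import Vale.Agent.P283.Z647.Sec

/-!
The complement is klt.
-/

set_option linter.all false

namespace Vale.Agent.P283.H108

open MvPolynomial Finset
open Vale.Agent.P283.Z647
open Vale.Agent.P283.H647 (ResForm HypData order_exists order_unique ov_monoT ov_lt_of)

variable {N s : ℕ}

theorem SmallMult.reg {m : ℕ} {v : Fin N → Fin m → ℤ} {f : MvPolynomial (Fin m) ℂ}
    {g : Fin s → MvPolynomial (Fin m) ℂ} {c : Fin s → ℚ} (h : SmallMult v f g c)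
    {a : Fin m → ℤ} (ha : Z647.InCone v a) : RegZ f a := by
  intro ξ hξ h0
  by_contra hno
  push Not at hno
  obtain ⟨S, μ, β, h1, -⟩ := h a ha ξ hξ h0
  have := (h1 1 0 (fun k => by simp [hno k])).1
  exact one_ne_zero this

theorem SmallMult.nonDeg {m : ℕ} {v : Fin N → Fin m → ℤ} {f : MvPolynomial (Fin m) ℂ}
    {g : Fin s → MvPolynomial (Fin m) ℂ} {c : Fin s → ℚ} (h : SmallMult v f g c)
    (g₀ : Fin 0 → MvPolynomial (Fin m) ℂ) : NonDegZ v f g₀ := by
  intro a ha ξ hξ h0 t₀ t _ hrel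
  refine ⟨?_, fun i => i.elim0⟩
  obtain ⟨k, hk⟩ := h.reg ha ξ hξ h0
  have h1 := hrel k
  rw [Finset.univ_eq_empty, Finset.sum_empty, add_zero] at h1
  exact (mul_eq_zero.1 h1).resolve_right hk

/-- The class contains the jointly non-degenerate families. -/
theorem smallMult_of_nonDeg {m : ℕ} {v : Fin N → Fin m → ℤ} {f : MvPolynomial (Fin m) ℂ}
    {g : Fin s → MvPolynomial (Fin m) ℂ} {c : Fin s → ℚ} (h : NonDegZ v f g)
    (hc : ∀ i, 0 ≤ c i ∧ c i < 1) : SmallMult v f g c := by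
  classical
  intro a ha ξ hξ h0
  obtain ⟨β, hβ0, hβ, hβ1⟩ : ∃ β : ℚ, 0 ≤ β ∧ (∀ i, c i ≤ β) ∧ β < 1 := by
    by_cases hs : Nonempty (Fin s)
    · obtain ⟨i, -, hi⟩ := Finset.exists_max_image (Finset.univ : Finset (Fin s)) c
        Finset.univ_nonempty
      exact ⟨c i, (hc i).1, fun j => hi j (Finset.mem_univ _), (hc i).2⟩
    · exact ⟨0, le_rfl, fun i => absurd ⟨i⟩ hs, one_pos⟩
  refine ⟨Finset.univ.filter fun i => eval ξ (inFormZ (g i) a) = 0, fun _ => 0, β, ?_, ?_, hβ0,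
    fun i _ => hβ i, ?_⟩
  · intro t₀ t hrel
    obtain ⟨h1, h2⟩ := h a ha ξ hξ h0 t₀
      (fun i => if eval ξ (inFormZ (g i) a) = 0 then t i else 0)
      (fun i hi => by rw [if_neg hi]) (fun k => by
        refine Eq.trans ?_ (hrel k)
        rw [Finset.sum_filter]
        congr 1
        refine Finset.sum_congr rfl fun i _ => ?_
        split_ifs <;> simp)
    refine ⟨h1, fun i hi => ?_⟩
    have h3 := h2 i
    rwa [if_pos (Finset.mem_filter.1 hi).2] at h3
  · intro i hi _ hmem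
    apply hi
    rw [Finset.mem_filter]
    refine ⟨Finset.mem_univ _, ?_⟩
    have h1 : RingHom.ker (eval ξ) ^ (0 + 1) ⊔ Ideal.span {inFormZ f a} ≤ RingHom.ker (eval ξ) := by
      rw [zero_add, pow_one]
      refine sup_le le_rfl ?_
      rw [Ideal.span_singleton_le_iff_mem, RingHom.mem_ker]
      exact h0
    exact RingHom.mem_ker.1 (h1 hmem)
  · simpa using hβ1

section Values

variable {e : ℕ} {L : Type} [Field L] [Algebra ℂ L] {v : Fin N → Fin (e + 2) → ℤ}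
  {y : Fin (e + 2) → L} {f : MvPolynomial (Fin (e + 2)) ℂ}
  {g : Fin s → MvPolynomial (Fin (e + 2)) ℂ} {S : MvPolynomial (Fin (e + 2)) ℂ}

/-- The excess of the boundary. -/
theorem excess_bound (H : HypData y f) {c : Fin s → ℚ} (hsm : SmallMult v f g c)
    {D' : Fin (e + 1) → Derivation ℂ L L} {h : L} (R : ResForm y f D' h)
    (hg : ∀ i, aeval y (g i) ≠ 0) {q : ℕ} {cq : Fin s → ℕ} (hcq : ∀ i, (cq i : ℚ) = q * c i)
    (hq : 0 < q) {w : AddValuation L (WithTop ℤ)} (hw : Q.IsDivisorial (e + 1) w)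
    (hcone : Z647.InCone v (wts w y)) {m' : ℤ} (hm' : Q.FormOrder w D' m')
    (hA : 0 ≤ 1 + m' - ov w h - ∑ j, wts w y j + minWt f (wts w y)) :
    ∑ i, (cq i : ℤ) * (ov w (aeval y (g i)) - minWt (g i) (wts w y)) ≤
      (q - 1) * (1 + m' - ov w h - ∑ j, wts w y j + minWt f (wts w y)) := by
  classical
  haveI := H.ess
  set a := wts w y with ha
  set A := 1 + m' - ov w h - ∑ j, a j + minWt f a with hAdef
  have hb : ∀ j, w (y j) = (a j : WithTop ℤ) := fun j => (coe_ov w (H.x0 j)).symm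
  have hg0 : ∀ i, g i ≠ 0 := fun i h0 => hg i (by rw [h0, map_zero])
  have he : ∀ i, 0 ≤ ov w (aeval y (g i)) - minWt (g i) a := fun i => by
    have := ov_lower hw.const H.x0 (hg i) (isMinZ_minWt (hg0 i) (wts w y))
    linarith
  obtain ⟨ξ, hξ0, hξ⟩ := exists_point w hw.const y a hb hw.normalized
  have hm := isMinZ_minWt H.f0 a
  have hfξ : eval ξ (inFormZ f a) = 0 := by
    by_contra hne
    have hk := hξ _ _ (inFormZ_homog hm) hne
    have h1 := val_lowerZ w hw.const y a hb (diff_atLeastZ hm)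
    have h2 : aeval y (inFormZ f a) + aeval y (f - inFormZ f a) = 0 := by
      rw [← map_add, add_sub_cancel, H.eqn]
    have h3 := ov_lt_of hk h1
    rw [h2, AddValuation.map_zero] at h3
    exact WithTop.top_ne_coe h3
  obtain ⟨S', μ, β, hI, hM, hβ0, hβ, hlt⟩ := hsm a hcone ξ hξ0 hfξ
  have hS' : ∑ i ∈ S', (ov w (aeval y (g i)) - minWt (g i) a) ≤ A := by
    have h1 := indep_bound (Nat.succ_pos e) H.trdeg R hw hm' hb hm g S' (fun i => minWt (g i) a)
      (fun i _ => isMinZ_minWt (hg0 i) a) (fun i _ => hg i) hξ0 hξ hI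
    linarith
  have hrest : ∀ i ∈ S'ᶜ, (cq i : ℤ) * (ov w (aeval y (g i)) - minWt (g i) a) ≤
      (cq i : ℤ) * μ i * A := by
    intro i hi
    rw [Finset.mem_compl] at hi
    by_cases hci : c i = 0
    · have h1 : cq i = 0 := by
        have := hcq i
        rw [hci, mul_zero] at this
        exact_mod_cast this
      rw [h1]; simp
    · obtain ⟨k, hk⟩ : ∃ k, eval ξ (pderiv k (inFormZ f a)) ≠ 0 := hsm.reg hcone ξ hξ0 hfξ
      obtain ⟨l, hl, hlne⟩ := exists_tangs ξ hfξ ⟨k, hk⟩ (hM i hi hci)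
      have hmi := isMinZ_minWt (hg0 i) a
      have h1 := (tangs_bound (Nat.succ_pos e) H.trdeg R hw hm' hb hm hξ l (g i)
        (inFormZ (g i) a) (minWt (g i) a) (inFormZ_homog hmi) (diff_atLeastZ hmi) hlne).2
      have h2 : (l.length : ℤ) * A ≤ μ i * A :=
        mul_le_mul_of_nonneg_right (by exact_mod_cast hl) hA
      rw [mul_assoc]
      exact mul_le_mul_of_nonneg_left (h1.trans h2) (by positivity)
  -- the maximal coefficient
  set κ : ℕ := S'.sup cq with hκ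
  have hκβ : (κ : ℚ) ≤ q * β := by
    by_cases hne : S'.Nonempty
    · obtain ⟨i, hi, hie⟩ := Finset.exists_mem_eq_sup S' hne cq
      rw [hκ, hie, hcq]
      exact mul_le_mul_of_nonneg_left (hβ i hi) (by positivity)
    · rw [Finset.not_nonempty_iff_eq_empty] at hne
      rw [hκ, hne, Finset.sup_empty]
      simp only [Nat.bot_eq_zero, Nat.cast_zero]
      positivity
  have hsum : (κ : ℤ) + ∑ i ∈ S'ᶜ, (cq i : ℤ) * μ i ≤ q - 1 := by
    have hqQ : (0 : ℚ) < q := by exact_mod_cast hq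
    have h1 : (κ : ℚ) + ∑ i ∈ S'ᶜ, (cq i : ℚ) * μ i < q := by
      have h2 : ∑ i ∈ S'ᶜ, (cq i : ℚ) * μ i = q * ∑ i ∈ S'ᶜ, c i * μ i := by
        rw [Finset.mul_sum]
        exact Finset.sum_congr rfl fun i _ => by rw [hcq]; ring
      rw [h2]
      calc (κ : ℚ) + q * ∑ i ∈ S'ᶜ, c i * μ i ≤ q * β + q * ∑ i ∈ S'ᶜ, c i * μ i := by linarith
        _ = q * (β + ∑ i ∈ S'ᶜ, c i * μ i) := by ring
        _ < q * 1 := mul_lt_mul_of_pos_left hlt hqQ
        _ = q := mul_one _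
    have h3 : (κ : ℤ) + ∑ i ∈ S'ᶜ, (cq i : ℤ) * μ i < q := by exact_mod_cast h1
    omega
  have hsplit := Finset.sum_add_sum_compl S'
    (fun i => (cq i : ℤ) * (ov w (aeval y (g i)) - minWt (g i) a))
  rw [← hsplit]
  have h1 : ∑ i ∈ S', (cq i : ℤ) * (ov w (aeval y (g i)) - minWt (g i) a) ≤ κ * A := by
    calc ∑ i ∈ S', (cq i : ℤ) * (ov w (aeval y (g i)) - minWt (g i) a)
        ≤ ∑ i ∈ S', (κ : ℤ) * (ov w (aeval y (g i)) - minWt (g i) a) := by
          refine Finset.sum_le_sum fun i hi => mul_le_mul_of_nonneg_right ?_ (he i)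
          exact_mod_cast Finset.le_sup (f := cq) hi
      _ = κ * ∑ i ∈ S', (ov w (aeval y (g i)) - minWt (g i) a) := by rw [Finset.mul_sum]
      _ ≤ κ * A := mul_le_mul_of_nonneg_left hS' (by positivity)
  have h2 : ∑ i ∈ S'ᶜ, (cq i : ℤ) * (ov w (aeval y (g i)) - minWt (g i) a) ≤
      (∑ i ∈ S'ᶜ, (cq i : ℤ) * μ i) * A := by
    rw [Finset.sum_mul]
    exact Finset.sum_le_sum hrest
  calc _ ≤ κ * A + (∑ i ∈ S'ᶜ, (cq i : ℤ) * μ i) * A := add_le_add h1 h2
    _ = (κ + ∑ i ∈ S'ᶜ, (cq i : ℤ) * μ i) * A := by ring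
    _ ≤ (q - 1) * A := mul_le_mul_of_nonneg_right hsum hA

/-- The complement is klt. -/
theorem klt_phiS (H : HypData y f) {c : Fin s → ℚ} (hsm : SmallMult v f g c)
    {D' : Fin (e + 1) → Derivation ℂ L L} {h : L} (R : ResForm y f D' h)
    (hg : ∀ i, aeval y (g i) ≠ 0) (hS0 : S ≠ 0) {g₀ : Fin 0 → MvPolynomial (Fin (e + 2)) ℂ}
    (hS : GenPos v f g₀ S) {k q : ℕ} (hk : 2 ≤ k) (hq : 0 < q) {cq : Fin s → ℕ}
    (hcq : ∀ i, (cq i : ℚ) = q * c i) {σ : Fin (e + 2) → ℤ}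
    (hlt : ∀ a, Z647.InCone v a → a ≠ 0 → NonMonoZ f a → ∃ γ ∈ S.support,
      wtZ a γ - ∑ i, σ i * a i < k * (q * (∑ i, a i - minWt f a) - ∑ i, cq i * minWt (g i) a))
    {w : AddValuation L (WithTop ℤ)} (hw : Q.IsDivisorial (e + 1) w)
    (hcone : Z647.InCone v (wts w y)) {m' : ℤ} (hm' : Q.FormOrder w D' m') :
    ov w (phiOne y h g k q cq S σ) < k * q * (1 + m') := by
  classical
  have hxS := aeval_neZ H hS0 hS
  have hg0 : ∀ i, g i ≠ 0 := fun i h0 => hg i (by rw [h0, map_zero])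
  have h1 := X_bound H R (fun i => i.elim0) hS0 hS hw hcone hm'
  rw [Finset.univ_eq_empty (α := Fin 0), Finset.sum_empty, add_zero] at h1
  rw [ov_phiOne H.x0 R.h0 hg hxS]
  have hSl := ov_lower hw.const H.x0 hxS (isMinZ_minWt hS0 (wts w y))
  have hA : 0 ≤ 1 + m' - ov w h - ∑ j, wts w y j + minWt f (wts w y) := by linarith
  have hE := excess_bound H hsm R hg hcq hq hw hcone hm' hA
  have hkZ : (2 : ℤ) ≤ k := by exact_mod_cast hk
  have hqZ : (1 : ℤ) ≤ q := by exact_mod_cast hq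
  set A := 1 + m' - ov w h - ∑ j, wts w y j + minWt f (wts w y) with hAdef
  have hEsplit : ∑ i, (cq i : ℤ) * (ov w (aeval y (g i)) - minWt (g i) (wts w y)) =
      ∑ i, (cq i : ℤ) * ov w (aeval y (g i)) - ∑ i, (cq i : ℤ) * minWt (g i) (wts w y) := by
    rw [← Finset.sum_sub_distrib]
    exact Finset.sum_congr rfl fun i _ => by ring
  rw [hEsplit] at hE
  have hkE := mul_le_mul_of_nonneg_left hE (by linarith : (0 : ℤ) ≤ k)
  have hSA : ov w (aeval y S) - minWt S (wts w y) ≤ A := by linarith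
  by_cases ha0 : wts w y = 0
  · have h2 := torus_boundZ R H.f0 (hsm.reg (inCone_zero v)) hw hm' (fun j => by
      rw [← coe_ov w (H.x0 j)]
      have : wts w y j = 0 := by rw [ha0]; rfl
      have h3 : ov w (y j) = 0 := this
      rw [h3]; rfl)
    rw [ha0] at hAdef hkE hSA
    rw [ha0]
    simp only [minWt_zero H.f0, minWt_zero hS0, minWt_zero (hg0 _), Pi.zero_apply,
      Finset.sum_const_zero, sub_zero, add_zero, mul_zero] at hAdef hkE hSA ⊢
    have hA1 : 1 ≤ A := by linarith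
    have h3 : A < k * A := by nlinarith
    have h4 : 1 + m' = A + ov w h := by linarith
    rw [h4]
    nlinarith
  · have hnm : NonMonoZ f (wts w y) := nonMono_of_zeroZ hw.const H.f0 H.eqn
      (fun j => (coe_ov w (H.x0 j)).symm)
    obtain ⟨γ, hγ, hγ'⟩ := hlt _ hcone ha0 hnm
    have h3 := (isMinZ_minWt hS0 (wts w y)).2 γ hγ
    have h4 : 1 + m' = A + ov w h + ∑ j, wts w y j - minWt f (wts w y) := by linarith
    rw [h4]
    have h5 : A ≤ k * A := by nlinarith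
    nlinarith

/-- The complement is large. -/
theorem eff_phiG (H : HypData y f) {D' : Fin (e + 1) → Derivation ℂ L L}
    {h : L} (R : ResForm y f D' h) (hg : ∀ i, aeval y (g i) ≠ 0) (hS0 : S ≠ 0)
    {g₀ : Fin 0 → MvPolynomial (Fin (e + 2)) ℂ}
    (hS : GenPos v f g₀ S) {k q : ℕ} {cq : Fin s → ℕ} {σ : Fin (e + 2) → ℤ} {B : ℚ}
    {w : AddValuation L (WithTop ℤ)} (hw : ∀ c : ℂ, c ≠ 0 → w (algebraMap ℂ L c) = 0)
    (hB : ∀ γ ∈ S.support, B ≤ ((wtZ (wts w y) γ - ∑ i, σ i * wts w y i : ℤ) : ℚ)) :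
    (k : ℚ) * q * ov w h + k * ∑ i, cq i * (ov w (aeval y (g i)) : ℚ) + B ≤
      ov w (phiOne y h g k q cq S σ) := by
  have hxS := aeval_neZ H hS0 hS
  rw [ov_phiOne H.x0 R.h0 hg hxS]
  have hSl := ov_lower hw H.x0 hxS (isMinZ_minWt hS0 (wts w y))
  obtain ⟨γ, hγ, hγ'⟩ := (isMinZ_minWt hS0 (wts w y)).1
  have h1 := hB γ hγ
  rw [hγ'] at h1
  push_cast at h1 ⊢
  have h2 : (minWt S (wts w y) : ℚ) ≤ ov w (aeval y S) := by exact_mod_cast hSl
  linarith

end Values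

end Vale.Agent.P283.H108
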