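import Vale.Agent.P283.H108.Restr
import Vale.Agent.P283.H108.Endo
import Vale.Agent.P283.H108.Klt

/-!
An elementary theorem of Bertini type: adding a generic member of a linear system of monomials.
-/

set_option linter.all false

namespace Vale.Agent.P283.H108

open MvPolynomial Finset
open Vale.Agent.P283.Z647
open Vale.Agent.P283.H647 (ResForm HypData order_exists order_unique ov_monoT ov_lt_of gen_coeffs
  cder cder_sum cder_monomial poly coeff_poly)

/-- The coefficients of `S` are independent over the field generated by those of `f` and `g i`. -/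
def GenCoeff {m s : ℕ} (f : MvPolynomial (Fin m) ℂ) (g : Fin s → MvPolynomial (Fin m) ℂ)
    (S : MvPolynomial (Fin m) ℂ) : Prop :=
  ∀ e₀ ∈ S.support, ∃ δ : Derivation ℚ ℂ ℂ, (∀ α, δ (f.coeff α) = 0) ∧
    (∀ i α, δ ((g i).coeff α) = 0) ∧ δ (S.coeff e₀) = 1 ∧ ∀ e, e ≠ e₀ → δ (S.coeff e) = 0

theorem exists_genCoeff {m s : ℕ} (f : MvPolynomial (Fin m) ℂ)
    (g : Fin s → MvPolynomial (Fin m) ℂ) (E : Finset (Fin m →₀ ℕ)) :
    ∃ S : MvPolynomial (Fin m) ℂ, S.support = E ∧ GenCoeff f g S := by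
  classical
  obtain ⟨c, hc⟩ := gen_coeffs ((f.support.image fun α => f.coeff α) ∪
    Finset.univ.biUnion fun i => (g i).support.image fun α => (g i).coeff α) E
  let c' : (Fin m →₀ ℕ) → ℂ := fun e => if h : e ∈ E then c ⟨e, h⟩ else 0
  have hc' : ∀ e₀ ∈ E, ∃ δ : Derivation ℚ ℂ ℂ, (∀ α, δ (f.coeff α) = 0) ∧
      (∀ i α, δ ((g i).coeff α) = 0) ∧
      δ (c' e₀) = 1 ∧ ∀ e, e ≠ e₀ → δ (c' e) = 0 := by
    intro e₀ he₀
    obtain ⟨δ, h1, h2, h3⟩ := hc ⟨e₀, he₀⟩
    refine ⟨δ, fun α => ?_, fun i α => ?_, ?_, fun e he => ?_⟩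
    · by_cases hα : α ∈ f.support
      · exact h1 _ (Finset.mem_union_left _ (Finset.mem_image_of_mem _ hα))
      · rw [notMem_support_iff.1 hα, map_zero]
    · by_cases hα : α ∈ (g i).support
      · exact h1 _ (Finset.mem_union_right _ (Finset.mem_biUnion.2
          ⟨i, Finset.mem_univ _, Finset.mem_image_of_mem _ hα⟩))
      · rw [notMem_support_iff.1 hα, map_zero]
    · simp only [c', he₀, dif_pos]; exact h2
    · by_cases heE : e ∈ E
      · simp only [c', heE, dif_pos]
        exact h3 ⟨e, heE⟩ fun h => he (congrArg Subtype.val h)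
      · simp only [c', heE, dif_neg, not_false_iff, map_zero]
  have hsupp : (poly E c').support = E := by
    ext e
    rw [mem_support_iff, coeff_poly]
    by_cases he : e ∈ E
    · simp only [he, if_true, ne_eq, iff_true]
      intro h0
      obtain ⟨δ, -, -, h2, -⟩ := hc' e he
      rw [h0, map_zero] at h2
      exact zero_ne_one h2
    · simp [he]
  refine ⟨poly E c', hsupp, ?_⟩
  intro e₀ he₀
  rw [hsupp] at he₀
  obtain ⟨δ, h1, h2, h3, h4⟩ := hc' e₀ he₀
  refine ⟨δ, h1, h2, ?_, fun e he => ?_⟩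
  · rw [coeff_poly, if_pos he₀]; exact h3
  · rw [coeff_poly]
    split_ifs
    · exact h4 e he
    · exact map_zero _

/-- A generic polynomial is in general position with respect to `f`. -/
theorem GenCoeff.pos {m N s : ℕ} {v : Fin N → Fin m → ℤ} {f : MvPolynomial (Fin m) ℂ}
    {g : Fin s → MvPolynomial (Fin m) ℂ} {S : MvPolynomial (Fin m) ℂ} (hS : GenCoeff f g S)
    (hS0 : S ≠ 0) (hf : ∀ a, Z647.InCone v a → RegZ f a)
    (g₀ : Fin 0 → MvPolynomial (Fin m) ℂ) : GenPos v f g₀ S := by
  classical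
  intro a ha ξ hξ hf0 t₀ t t' ht ht' hrel
  have hrel' : ∀ k, t₀ * eval ξ (pderiv k (inFormZ f a)) +
      t' * eval ξ (pderiv k (inFormZ S a)) = 0 := by
    intro k
    have h1 := hrel k
    rwa [Finset.univ_eq_empty, Finset.sum_empty, add_zero] at h1
  have key : t' = 0 := by
    by_cases hs0 : eval ξ (inFormZ S a) = 0
    · obtain ⟨e₀, he₀, hmin⟩ := S.support.exists_min_image (fun e => wtZ a e)
        (support_nonempty.2 hS0)
      obtain ⟨δ, hδ1, -, hδ2, hδ3⟩ := hS e₀ he₀
      have hin0 : e₀ ∈ S.support.filter (fun α => ∀ β ∈ S.support, wtZ a α ≤ wtZ a β) := by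
        rw [Finset.mem_filter]; exact ⟨he₀, hmin⟩
      have hdf := cder_inFormZ δ f hδ1 a ξ hf0
      have hds : ∑ i, eval ξ (pderiv i (inFormZ S a)) * δ (ξ i) = - eval ξ (monomial e₀ 1) := by
        have h1 : cder δ ξ (inFormZ S a) = eval ξ (monomial e₀ 1) := by
          unfold inFormZ
          rw [cder_sum, Finset.sum_eq_single_of_mem e₀ hin0]
          · rw [cder_monomial, hδ2, one_mul]
          · intro α hα hne
            rw [cder_monomial, hδ3 α hne, zero_mul]
        unfold cder at h1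
        rw [hs0, map_zero, zero_sub] at h1
        rw [← h1, neg_neg]
      have hsum : ∑ k, (t₀ * eval ξ (pderiv k (inFormZ f a)) +
          t' * eval ξ (pderiv k (inFormZ S a))) * δ (ξ k) = 0 :=
        Finset.sum_eq_zero fun k _ => by rw [hrel' k, zero_mul]
      have hexp : ∑ k, (t₀ * eval ξ (pderiv k (inFormZ f a)) +
          t' * eval ξ (pderiv k (inFormZ S a))) * δ (ξ k) =
          t₀ * ∑ k, eval ξ (pderiv k (inFormZ f a)) * δ (ξ k) +
          t' * ∑ k, eval ξ (pderiv k (inFormZ S a)) * δ (ξ k) := by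
        rw [Finset.mul_sum, Finset.mul_sum, ← Finset.sum_add_distrib]
        refine Finset.sum_congr rfl fun k _ => ?_
        ring
      rw [hexp, hdf, hds, mul_zero, zero_add] at hsum
      have h3 : eval ξ (monomial e₀ (1 : ℂ)) ≠ 0 := by
        rw [eval_monomial, one_mul, Finsupp.prod]
        exact Finset.prod_ne_zero_iff.2 fun i _ => pow_ne_zero _ (hξ i)
      exact (mul_eq_zero.1 hsum).resolve_right (neg_ne_zero.2 h3)
    · exact ht' hs0
  refine ⟨?_, key, fun i => i.elim0⟩
  obtain ⟨k, hk⟩ := hf a ha ξ hξ hf0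
  have h1 := hrel' k
  rw [key, zero_mul, add_zero] at h1
  exact (mul_eq_zero.1 h1).resolve_right hk

variable {N s : ℕ} {e : ℕ} {L : Type} [Field L] [Algebra ℂ L] {v : Fin N → Fin (e + 2) → ℤ}
  {y : Fin (e + 2) → L} {f : MvPolynomial (Fin (e + 2)) ℂ}
  {g : Fin s → MvPolynomial (Fin (e + 2)) ℂ} {S : MvPolynomial (Fin (e + 2)) ℂ}

/-- Log canonicity with respect to the toric boundary and the divisors of the `g i`, in terms of a
form. -/
def TorLC (v : Fin N → Fin (e + 2) → ℤ) (y : Fin (e + 2) → L) (f : MvPolynomial (Fin (e + 2)) ℂ)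
    (g : Fin s → MvPolynomial (Fin (e + 2)) ℂ) (D' : Fin (e + 1) → Derivation ℂ L L) (h : L)
    (q : ℕ) (cq : Fin s → ℕ) : Prop :=
  ∀ (w : AddValuation L (WithTop ℤ)) (m : ℤ), Q.IsDivisorial (e + 1) w →
    Z647.InCone v (wts w y) → Q.FormOrder w D' m →
    ∑ i, (cq i : ℤ) * (ov w (aeval y (g i)) - minWt (g i) (wts w y)) ≤
      q * (1 + m - ov w h - ∑ j, wts w y j + minWt f (wts w y))

theorem bertini (H : HypData y f) {D' : Fin (e + 1) → Derivation ℂ L L} {h : L}
    (R : ResForm y f D' h) (hg : ∀ i, aeval y (g i) ≠ 0) {q : ℕ} {cq : Fin s → ℕ}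
    (hlc : TorLC v y f g D' h q cq) (hS0 : S ≠ 0) (hgen : GenCoeff f g S)
    {g₀ : Fin 0 → MvPolynomial (Fin (e + 2)) ℂ} (hS : GenPos v f g₀ S)
    {w : AddValuation L (WithTop ℤ)} (hw : Q.IsDivisorial (e + 1) w)
    (hcone : Z647.InCone v (wts w y)) {m : ℤ} (hm : Q.FormOrder w D' m) :
    ∑ i, (cq i : ℤ) * (ov w (aeval y (g i)) - minWt (g i) (wts w y)) +
      q * (ov w (aeval y S) - minWt S (wts w y)) ≤
      q * (1 + m - ov w h - ∑ j, wts w y j + minWt f (wts w y)) := by
  classical
  haveI := H.ess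
  have hxS := aeval_neZ H hS0 hS
  have hg0 : ∀ i, g i ≠ 0 := fun i h0 => hg i (by rw [h0, map_zero])
  have hSl := ov_lower hw.const H.x0 hxS (isMinZ_minWt hS0 (wts w y))
  have hqZ : (0 : ℤ) ≤ q := by positivity
  by_cases hex : ov w (aeval y S) = minWt S (wts w y)
  · rw [hex, sub_self, mul_zero, add_zero]
    exact hlc w m hw hcone hm
  have hpos : 0 < ov w (aeval y S) - minWt S (wts w y) := by
    have := lt_of_le_of_ne hSl (Ne.symm hex)
    omega
  set b := wts w y with hbdef
  have hb : ∀ j, w (y j) = (b j : WithTop ℤ) := fun j => (coe_ov w (H.x0 j)).symm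
  obtain ⟨⟨e₀, he₀, he₀w⟩, hmin⟩ := isMinZ_minWt hS0 b
  obtain ⟨δ, hδf, hδg, hδ1, hδS⟩ := hgen e₀ he₀
  set c := S.coeff e₀ with hcdef
  -- the endomorphism of `ℂ`
  let F : Finset ℂ := (f.support.image fun α => f.coeff α) ∪
    ((Finset.univ.biUnion fun i => (g i).support.image fun α => (g i).coeff α) ∪
    ((S.support.erase e₀).image fun α => S.coeff α))
  obtain ⟨ι₀, hι₀, hcι⟩ := exists_endo F c δ (by
    intro a ha
    simp only [F, Finset.mem_union, Finset.mem_image, Finset.mem_biUnion, Finset.mem_univ,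
      true_and] at ha
    rcases ha with ⟨α, -, rfl⟩ | ⟨i, α, -, rfl⟩ | ⟨α, hα, rfl⟩
    · exact hδf α
    · exact hδg i α
    · exact hδS α (Finset.ne_of_mem_erase hα)) (by rw [hδ1]; exact one_ne_zero)
  have hff : map ι₀ f = f := by
    apply map_eq_self
    intro α
    by_cases hα : α ∈ f.support
    · exact hι₀ _ (Finset.mem_union_left _ (Finset.mem_image_of_mem _ hα))
    · rw [notMem_support_iff.1 hα, map_zero]
  have hgf : ∀ i, map ι₀ (g i) = g i := by
    intro i
    apply map_eq_self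
    intro α
    by_cases hα : α ∈ (g i).support
    · exact hι₀ _ (Finset.mem_union_right _ (Finset.mem_union_left _ (Finset.mem_biUnion.2
        ⟨i, Finset.mem_univ _, Finset.mem_image_of_mem _ hα⟩)))
    · rw [notMem_support_iff.1 hα, map_zero]
  set S₁ := S - monomial e₀ c with hS₁
  have hS₁c : ∀ α, S₁.coeff α = if α = e₀ then 0 else S.coeff α := by
    intro α
    rw [hS₁, coeff_sub, coeff_monomial]
    by_cases hα : α = e₀
    · subst hα; rw [if_pos rfl, if_pos rfl, sub_self]
    · rw [if_neg (Ne.symm hα), if_neg hα, sub_zero]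
  have hSf : map ι₀ S₁ = S₁ := by
    apply map_eq_self
    intro α
    rw [hS₁c]
    split_ifs with hα
    · exact map_zero _
    · by_cases hαS : α ∈ S.support
      · exact hι₀ _ (Finset.mem_union_right _ (Finset.mem_union_right _
          (Finset.mem_image_of_mem _ (Finset.mem_erase.2 ⟨hα, hαS⟩))))
      · rw [notMem_support_iff.1 hαS, map_zero]
  obtain ⟨ι, hι⟩ := exists_semi H hff
  have hιy : ∀ k, ι (y k) = y k := semi_y hι
  -- the function `x`
  set Y := ∏ k, y k ^ e₀ k with hY
  have hY0 : Y ≠ 0 := Finset.prod_ne_zero_iff.2 fun k _ => pow_ne_zero _ (H.x0 k)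
  have hYι : ι Y = Y := by
    rw [hY, map_prod]
    exact Finset.prod_congr rfl fun k _ => by rw [map_pow, hιy]
  set x := - aeval y S₁ / Y with hx
  have hxι : ι x = x := by rw [hx, map_div₀, map_neg, semi_fix hι hSf, hYι]
  have hSx : aeval y S = Y * (algebraMap ℂ L c - ι x) := by
    have h1 : S = S₁ + monomial e₀ c := by rw [hS₁]; ring
    have h2 : aeval y (monomial e₀ c) = algebraMap ℂ L c * Y := by
      rw [aeval_monomial, Finsupp.prod_fintype _ _ (by simp)]
    conv_lhs => rw [h1]
    rw [map_add, h2, hxι, hx]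
    field_simp
    ring
  have hYw : ov w Y = minWt S b := by
    apply ov_eq_of
    rw [hY, val_monoZ w hw.const y b hb, he₀w]
  have hcx0 : algebraMap ℂ L c - ι x ≠ 0 := by
    intro h0
    rw [h0, mul_zero] at hSx
    exact hxS hSx
  have hcxv : ov w (algebraMap ℂ L c - ι x) = ov w (aeval y S) - minWt S b := by
    rw [hSx, ov_mul w hY0 hcx0, hYw]; ring
  have hcx : 0 < w (algebraMap ℂ L c - ι x) := by
    rw [pos_iff w hcx0, hcxv]; exact hpos
  by_cases htriv : ∃ z : L, z ≠ 0 ∧ ov (w.comap ι) z ≠ 0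
  · -- the main case
    obtain ⟨v', β, hβ0, hn, hβ'⟩ := exists_normalized (w.comap ι) htriv
    have hβ : ∀ z, w (ι z) = β • v' z := hβ'
    have hβZ : (0 : ℤ) < β := by exact_mod_cast hβ0
    have hc' : ∀ c : ℂ, c ≠ 0 → v' (algebraMap ℂ L c) = 0 := by
      intro c hc
      have h0 : algebraMap ℂ L c ≠ 0 := (map_ne_zero _).2 hc
      have h1 : ov w (ι (algebraMap ℂ L c)) = 0 := by
        rw [semi_C hι]
        exact ov_eq_of w (by rw [hw.const _ ((map_ne_zero ι₀).2 hc)]; rfl)
      rw [ov_comap_mul hβ h0] at h1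
      rw [eq_zero_iff v' h0]
      rcases mul_eq_zero.1 h1 with h | h
      · exact absurd h hβZ.ne'
      · exact h
    have hxv : 0 ≤ v' x := by
      by_cases h0 : x = 0
      · rw [h0, AddValuation.map_zero]; exact le_top
      rw [nonneg_iff v' h0]
      have h1 : 0 ≤ w x := by
        have h2 : (minWt S b : WithTop ℤ) ≤ w (aeval y S₁) := by
          apply val_lowerZ w hw.const y b hb
          intro α hα
          rw [mem_support_iff, hS₁c] at hα
          by_cases hαe : α = e₀
          · rw [if_pos hαe] at hα; exact absurd rfl hα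
          · rw [if_neg hαe] at hα
            exact hmin α (mem_support_iff.2 hα)
        have h3 : aeval y S₁ ≠ 0 := by
          intro h4
          apply h0
          rw [hx, h4, neg_zero, zero_div]
        rw [nonneg_iff w h0, hx, ov_div w (neg_ne_zero.2 h3) hY0, hYw]
        have h4 : ov w (-aeval y S₁) = ov w (aeval y S₁) := by
          apply ov_eq_of
          rw [AddValuation.map_neg, coe_ov w h3]
        rw [h4]
        rw [← coe_ov w h3] at h2
        have h5 : minWt S b ≤ ov w (aeval y S₁) := by exact_mod_cast h2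
        omega
      rw [← hxι, nonneg_iff w ((map_ne_zero ι).2 h0), ov_comap_mul hβ h0] at h1
      exact nonneg_of_mul_nonneg_right h1 hβZ
    obtain ⟨m', hm'⟩ := restr_order hι H hff R hm hβ0 hβ
    obtain ⟨hdiv, hkey⟩ := restr_key hι H hff R hw hm hβ0 hβ hn hc' hm' hcι hxv hcx
    -- the weights
    have hwt : ∀ k, (β : ℤ) * wts v' y k = b k := by
      intro k
      have h1 := ov_comap_mul hβ (H.x0 k)
      rw [hιy k] at h1
      exact h1.symm
    have hcone' : Z647.InCone v (wts v' y) := by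
      obtain ⟨t, ht, htA⟩ := hcone
      have hβQ : (0 : ℚ) < β := by exact_mod_cast hβ0
      refine ⟨fun j => t j / β, fun j => div_nonneg (ht j) hβQ.le, fun k => ?_⟩
      have h2 : (b k : ℚ) = β * (wts v' y k : ℚ) := by rw [← hwt k]; push_cast; ring
      have h3 : (wts v' y k : ℚ) = b k / β := by rw [h2]; field_simp
      rw [h3, htA, Finset.sum_div]
      exact Finset.sum_congr rfl fun j _ => by ring
    have h1 := hlc v' m' hdiv hcone' hm'
    have h2 := mul_le_mul_of_nonneg_left h1 hβZ.le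
    have h3 : (β : ℤ) * ∑ i, (cq i : ℤ) * (ov v' (aeval y (g i)) - minWt (g i) (wts v' y)) =
        ∑ i, (cq i : ℤ) * (ov w (aeval y (g i)) - minWt (g i) b) := by
      rw [Finset.mul_sum]
      refine Finset.sum_congr rfl fun i _ => ?_
      have h4 := ov_comap_mul hβ (hg i)
      rw [semi_fix hι (hgf i)] at h4
      have h5 := minWt_smul (hg0 i) (wts v' y) b β hwt
      rw [h4, h5]; ring
    have h4 := minWt_smul H.f0 (wts v' y) b β hwt
    have h5 : ∑ j, b j = β * ∑ j, wts v' y j := by
      rw [Finset.mul_sum]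
      exact Finset.sum_congr rfl fun j _ => (hwt j).symm
    rw [h3] at h2
    rw [hcxv] at hkey
    rw [h4, h5]
    have h6 := mul_le_mul_of_nonneg_left hkey hqZ
    have h7 : (β : ℤ) * (q * (1 + m' - ov v' h - ∑ j, wts v' y j + minWt f (wts v' y))) =
        q * (β * (1 + m' - ov v' h)) - q * (β * ∑ j, wts v' y j) +
        q * (β * minWt f (wts v' y)) := by ring
    rw [h7] at h2
    linarith
  · -- the restriction is trivial
    push Not at htriv
    have hz : ∀ z : L, z ≠ 0 → ov w (ι z) = 0 := htriv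
    have hb0 : b = 0 := by
      funext k
      have h1 := hz (y k) (H.x0 k)
      rw [hιy k] at h1
      exact h1
    have h1 : ∑ i, (cq i : ℤ) * (ov w (aeval y (g i)) - minWt (g i) b) = 0 := by
      refine Finset.sum_eq_zero fun i _ => ?_
      have h2 := hz _ (hg i)
      rw [semi_fix hι (hgf i)] at h2
      rw [h2, hb0, minWt_zero (hg0 i)]; ring
    have h2 := X_bound H R (fun i => i.elim0) hS0 hS hw hcone hm
    rw [Finset.univ_eq_empty (α := Fin 0), Finset.sum_empty, add_zero] at h2
    rw [h1, zero_add]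
    refine mul_le_mul_of_nonneg_left ?_ hqZ
    have h3 : b = wts w y := rfl
    rw [← h3] at h2
    linarith

end Vale.Agent.P283.H108
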