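import Vale.Agent.P283.H108.Bertini

/-!
The theorem of Bertini type for hypersurfaces which may be degenerate.
-/

set_option linter.all false

namespace Vale.Agent.P283.H108

open MvPolynomial Finset
open Vale.Agent.P283.Z647
open Vale.Agent.P283.H647 (ResForm HypData order_exists order_unique ov_monoT ov_lt_of gen_coeffs
  cder cder_sum cder_monomial poly coeff_poly exists_form)

/-- A generic polynomial does not vanish on the hypersurface. -/
theorem GenCoeff.aeval_ne {d s : ℕ} {L : Type} [Field L] [Algebra ℂ L] {y : Fin (d + 1) → L}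
    {f : MvPolynomial (Fin (d + 1)) ℂ} {g : Fin s → MvPolynomial (Fin (d + 1)) ℂ}
    {S : MvPolynomial (Fin (d + 1)) ℂ} (hS : GenCoeff f g S) (H : HypData y f) (hS0 : S ≠ 0) :
    aeval y S ≠ 0 := by
  classical
  intro h0
  obtain ⟨G, hG⟩ := (H.ker S).1 h0
  obtain ⟨e₀, he₀⟩ := support_nonempty.2 hS0
  obtain ⟨δ, hδf, -, hδ1, hδS⟩ := hS e₀ he₀
  let G' : MvPolynomial (Fin (d + 1)) ℂ := ∑ γ ∈ G.support, monomial γ (δ (G.coeff γ))
  have hG' : ∀ γ, G'.coeff γ = δ (G.coeff γ) := by
    intro γ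
    simp only [G', coeff_sum, coeff_monomial]
    rw [Finset.sum_ite_eq']
    split_ifs with h
    · rfl
    · rw [notMem_support_iff.1 h, map_zero]
  have key : f * G' = monomial e₀ 1 := by
    ext α
    rw [coeff_mul, coeff_monomial]
    have h1 : δ (S.coeff α) = ∑ p ∈ Finset.HasAntidiagonal.antidiagonal α, f.coeff p.1 * G'.coeff p.2 := by
      rw [hG, coeff_mul, map_sum]
      refine Finset.sum_congr rfl fun p _ => ?_
      rw [Derivation.leibniz, smul_eq_mul, smul_eq_mul, hδf, mul_zero, add_zero, hG']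
    rw [← h1]
    split_ifs with h
    · rw [← h]; exact hδ1
    · exact hδS α (Ne.symm h)
  have h2 : aeval y (monomial e₀ (1 : ℂ)) = 0 := by
    rw [← key, map_mul, H.eqn, zero_mul]
  rw [aeval_monomial, map_one, one_mul, Finsupp.prod] at h2
  exact Finset.prod_ne_zero_iff.2 (fun k _ => pow_ne_zero _ (H.x0 k)) h2

/-- A transcendental function is part of a system of parameters of the function field. -/
theorem exists_through {d : ℕ} {L : Type} [Field L] [Algebra ℂ L] [CharZero L]
    (htr : Algebra.trdeg ℂ L = (d : ℕ)) {D' : Fin d → Derivation ℂ L L}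
    (hD' : ∃ g, Q.jac D' g ≠ 0) {x : L} (hx : Transcendental ℂ x) :
    ∃ (z : Fin d → L) (i₀ : Fin d), z i₀ = x ∧ Q.jac D' z ≠ 0 := by
  classical
  have hind : AlgebraicIndepOn ℂ id ({x} : Set L) := by
    have h1 := algebraicIndependent_unique_type_iff (R := ℂ)
      (x := fun i : ({x} : Set L) => id (i : L))
    refine h1.2 ?_
    have h2 : ((default : ({x} : Set L)) : L) = x := (default : ({x} : Set L)).2
    simpa only [id, h2] using hx
  haveI : Algebra.IsAlgebraic (Algebra.adjoin ℂ (Set.univ : Set L)) L := by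
    refine ⟨fun z => ?_⟩
    have h3 : z = algebraMap (Algebra.adjoin ℂ (Set.univ : Set L)) L
        ⟨z, Algebra.subset_adjoin (Set.mem_univ z)⟩ := rfl
    rw [h3]
    exact isAlgebraic_algebraMap _
  obtain ⟨u, hu1, -, hu⟩ := exists_isTranscendenceBasis_between (R := ℂ) ({x} : Set L) Set.univ
    (Set.subset_univ _) hind
  have h2 := hu.cardinalMk_eq_trdeg
  rw [htr] at h2
  obtain ⟨e⟩ := Cardinal.eq.1 (h2.trans (by simp only [Cardinal.mk_fintype, Fintype.card_fin] :
    ((d : ℕ) : Cardinal) = Cardinal.mk (Fin d)))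
  have h3 : IsTranscendenceBasis ℂ ((Subtype.val : u → L) ∘ e.symm) :=
    (isTranscendenceBasis_equiv e.symm).2 hu
  obtain ⟨BK, hBK⟩ := exists_kaehler_basis _ h3
  obtain ⟨ω, hω, hω'⟩ := exists_form htr D' hD'
  refine ⟨(Subtype.val : u → L) ∘ e.symm, e ⟨x, hu1 rfl⟩, by simp, ?_⟩
  have h4 : wedgeD d ((Subtype.val : u → L) ∘ e.symm) ≠ 0 := wedgeD_basis_ne_zero BK hBK
  intro h0
  rw [hω', h0, zero_smul] at h4
  exact h4 rfl

theorem const_of_algebraic {L : Type} [Field L] [Algebra ℂ L] {x : L} (hx : IsAlgebraic ℂ x) :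
    ∃ γ : ℂ, x = algebraMap ℂ L γ := by
  obtain ⟨γ, hγ⟩ := minpoly.mem_range_of_degree_eq_one ℂ x
    (IsAlgClosed.degree_eq_one_of_irreducible ℂ (minpoly.irreducible hx.isIntegral))
  exact ⟨γ, hγ.symm⟩

section Semi

variable {e : ℕ} {L : Type} [Field L] [Algebra ℂ L] {y : Fin (e + 2) → L}
  {f : MvPolynomial (Fin (e + 2)) ℂ} {ι₀ : ℂ →+* ℂ} {ι : L →+* L}
  (hι : ∀ P : MvPolynomial (Fin (e + 2)) ℂ, ι (aeval y P) = aeval y (map ι₀ P))
include hι

/-- The case of a trivial restriction. -/
theorem restr_trivial (H : HypData y f) (hf : map ι₀ f = f)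
    {D' : Fin (e + 1) → Derivation ℂ L L} {h : L} (R : ResForm y f D' h)
    {w : AddValuation L (WithTop ℤ)} (hw : Q.IsDivisorial (e + 1) w) {m : ℤ}
    (hm : Q.FormOrder w D' m) (hz : ∀ z : L, z ≠ 0 → ov w (ι z) = 0) {c : ℂ}
    (hcι : ∀ γ, ι₀ γ ≠ c) {x : L} (hcx : 0 < w (algebraMap ℂ L c - ι x)) :
    ov w (algebraMap ℂ L c - ι x) ≤ 1 + m - ov w h := by
  classical
  haveI := H.ess
  haveI : CharZero L := charZero_of_injective_algebraMap (algebraMap ℂ L).injective
  have hx : Transcendental ℂ x := by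
    intro hx
    obtain ⟨γ, rfl⟩ := const_of_algebraic hx
    rw [semi_C hι, ← map_sub] at hcx
    have h1 : c - ι₀ γ ≠ 0 := fun h => hcι γ (sub_eq_zero.1 h).symm
    rw [hw.const _ h1] at hcx
    exact lt_irrefl _ hcx
  obtain ⟨z, j, hzj, hju⟩ := exists_through H.trdeg R.jac_ne hx
  have hz0 : ∀ i, z i ≠ 0 := by
    intro i h0
    apply hju
    unfold Q.jac
    apply Matrix.det_eq_zero_of_row_eq_zero i
    intro k
    rw [Matrix.of_apply, h0, map_zero]
  have h1 := semi_jac hι H hf R z hz0
  set σ := algebraMap ℂ L c - ι x with hσ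
  let g : Fin (e + 1) → L := fun i => if i = j then σ else ι (z i)
  have hjg : Q.jac D' g = - Q.jac D' (fun i => ι (z i)) := by
    have h2 : Q.jac D' g = (∏ i, if i = j then (-1 : L) else 1) *
        Q.jac D' (fun i => ι (z i)) := by
      unfold Q.jac
      rw [← Matrix.det_mul_column]
      congr 1
      ext i k
      simp only [Matrix.of_apply, g]
      by_cases hi : i = j
      · subst hi
        rw [if_pos rfl, if_pos rfl, hzj, hσ, map_sub, Derivation.map_algebraMap]
        ring
      · rw [if_neg hi, if_neg hi, one_mul]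
    rw [h2, Finset.prod_ite_eq' Finset.univ j (fun _ => (-1 : L)), if_pos (Finset.mem_univ _)]
    ring
  have h2 : ι (h * Q.jac D' z) ≠ 0 := (map_ne_zero ι).2 (mul_ne_zero R.h0 hju)
  have h3 : Q.jac D' (fun i => ι (z i)) ≠ 0 := by
    intro h0
    rw [h0, mul_zero] at h1
    exact h2 h1.symm
  have h4 : Q.jac D' g ≠ 0 := by rw [hjg]; exact neg_ne_zero.2 h3
  have hg0 : ∀ i, g i ≠ 0 := by
    intro i h0
    apply h4
    unfold Q.jac
    apply Matrix.det_eq_zero_of_row_eq_zero i
    intro k
    rw [Matrix.of_apply, h0, map_zero]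
  have h5 := H647.order_log (Nat.succ_pos e) H.trdeg hw hm g hg0 h4
  have h6 : ov w (Q.jac D' g) = ov w (Q.jac D' (fun i => ι (z i))) := by
    rw [hjg]
    apply ov_eq_of
    rw [AddValuation.map_neg, coe_ov w h3]
  have h7 := congrArg (ov w) h1
  rw [ov_mul w R.h0 h3, hz _ (mul_ne_zero R.h0 hju)] at h7
  have h8 : ∑ i, ov w (g i) = ov w σ := by
    rw [Finset.sum_eq_single_of_mem j (Finset.mem_univ j)]
    · simp only [g, if_true]
    · intro i _ hi
      simp only [g]
      rw [if_neg hi, hz _ (hz0 i)]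
  rw [h8, h6] at h5
  linarith

end Semi

variable {N s : ℕ} {e : ℕ} {L : Type} [Field L] [Algebra ℂ L] {v : Fin N → Fin (e + 2) → ℤ}
  {y : Fin (e + 2) → L} {f : MvPolynomial (Fin (e + 2)) ℂ}
  {g : Fin s → MvPolynomial (Fin (e + 2)) ℂ} {S : MvPolynomial (Fin (e + 2)) ℂ}

/-- The theorem of Bertini type for hypersurfaces which may be degenerate. -/
theorem bertiniT (H : HypData y f) {D' : Fin (e + 1) → Derivation ℂ L L} {h : L}
    (R : ResForm y f D' h) (hg : ∀ i, aeval y (g i) ≠ 0) {q : ℕ} {cq : Fin s → ℕ}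
    (hlc : TorLC v y f g D' h q cq) (hS0 : S ≠ 0) (hgen : GenCoeff f g S)
    {w : AddValuation L (WithTop ℤ)} (hw : Q.IsDivisorial (e + 1) w)
    (hcone : Z647.InCone v (wts w y)) {m : ℤ} (hm : Q.FormOrder w D' m) :
    ∑ i, (cq i : ℤ) * (ov w (aeval y (g i)) - minWt (g i) (wts w y)) +
      q * (ov w (aeval y S) - minWt S (wts w y)) ≤
      q * (1 + m - ov w h - ∑ j, wts w y j + minWt f (wts w y)) := by
  classical
  haveI := H.ess
  have hxS := hgen.aeval_ne H hS0
  have hg0 : ∀ i, g i ≠ 0 := fun i h0 => hg i (by rw [h0, map_zero])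
  have hSl := ov_lower hw.const H.x0 hxS (isMinZ_minWt hS0 (wts w y))
  have hqZ : (0 : ℤ) ≤ q := by positivity
  by_cases hex : ov w (aeval y S) = minWt S (wts w y)
  · rw [hex, sub_self, mul_zero, add_zero]
    exact hlc w m hw hcone hm
  have hpos : 0 < ov w (aeval y S) - minWt S (wts w y) := by
    have := lt_of_le_of_ne hSl (Ne.symm hex)
    omega
  set b := wts w y with hbdef
  have hb : ∀ j, w (y j) = (b j : WithTop ℤ) := fun j => (coe_ov w (H.x0 j)).symm
  obtain ⟨⟨e₀, he₀, he₀w⟩, hmin⟩ := isMinZ_minWt hS0 b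
  obtain ⟨δ, hδf, hδg, hδ1, hδS⟩ := hgen e₀ he₀
  set c := S.coeff e₀ with hcdef
  -- the endomorphism of `ℂ`
  let F : Finset ℂ := (f.support.image fun α => f.coeff α) ∪
    ((Finset.univ.biUnion fun i => (g i).support.image fun α => (g i).coeff α) ∪
    ((S.support.erase e₀).image fun α => S.coeff α))
  obtain ⟨ι₀, hι₀, hcι⟩ := exists_endo F c δ (by
    intro a ha
    simp only [F, Finset.mem_union, Finset.mem_image, Finset.mem_biUnion, Finset.mem_univ,
      true_and] at ha
    rcases ha with ⟨α, -, rfl⟩ | ⟨i, α, -, rfl⟩ | ⟨α, hα, rfl⟩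
    · exact hδf α
    · exact hδg i α
    · exact hδS α (Finset.ne_of_mem_erase hα)) (by rw [hδ1]; exact one_ne_zero)
  have hff : map ι₀ f = f := by
    apply map_eq_self
    intro α
    by_cases hα : α ∈ f.support
    · exact hι₀ _ (Finset.mem_union_left _ (Finset.mem_image_of_mem _ hα))
    · rw [notMem_support_iff.1 hα, map_zero]
  have hgf : ∀ i, map ι₀ (g i) = g i := by
    intro i
    apply map_eq_self
    intro α
    by_cases hα : α ∈ (g i).support
    · exact hι₀ _ (Finset.mem_union_right _ (Finset.mem_union_left _ (Finset.mem_biUnion.2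
        ⟨i, Finset.mem_univ _, Finset.mem_image_of_mem _ hα⟩)))
    · rw [notMem_support_iff.1 hα, map_zero]
  set S₁ := S - monomial e₀ c with hS₁
  have hS₁c : ∀ α, S₁.coeff α = if α = e₀ then 0 else S.coeff α := by
    intro α
    rw [hS₁, coeff_sub, coeff_monomial]
    by_cases hα : α = e₀
    · subst hα; rw [if_pos rfl, if_pos rfl, sub_self]
    · rw [if_neg (Ne.symm hα), if_neg hα, sub_zero]
  have hSf : map ι₀ S₁ = S₁ := by
    apply map_eq_self
    intro α
    rw [hS₁c]
    split_ifs with hα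
    · exact map_zero _
    · by_cases hαS : α ∈ S.support
      · exact hι₀ _ (Finset.mem_union_right _ (Finset.mem_union_right _
          (Finset.mem_image_of_mem _ (Finset.mem_erase.2 ⟨hα, hαS⟩))))
      · rw [notMem_support_iff.1 hαS, map_zero]
  obtain ⟨ι, hι⟩ := exists_semi H hff
  have hιy : ∀ k, ι (y k) = y k := semi_y hι
  -- the function `x`
  set Y := ∏ k, y k ^ e₀ k with hY
  have hY0 : Y ≠ 0 := Finset.prod_ne_zero_iff.2 fun k _ => pow_ne_zero _ (H.x0 k)
  have hYι : ι Y = Y := by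
    rw [hY, map_prod]
    exact Finset.prod_congr rfl fun k _ => by rw [map_pow, hιy]
  set x := - aeval y S₁ / Y with hx
  have hxι : ι x = x := by rw [hx, map_div₀, map_neg, semi_fix hι hSf, hYι]
  have hSx : aeval y S = Y * (algebraMap ℂ L c - ι x) := by
    have h1 : S = S₁ + monomial e₀ c := by rw [hS₁]; ring
    have h2 : aeval y (monomial e₀ c) = algebraMap ℂ L c * Y := by
      rw [aeval_monomial, Finsupp.prod_fintype _ _ (by simp)]
    conv_lhs => rw [h1]
    rw [map_add, h2, hxι, hx]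
    field_simp
    ring
  have hYw : ov w Y = minWt S b := by
    apply ov_eq_of
    rw [hY, val_monoZ w hw.const y b hb, he₀w]
  have hcx0 : algebraMap ℂ L c - ι x ≠ 0 := by
    intro h0
    rw [h0, mul_zero] at hSx
    exact hxS hSx
  have hcxv : ov w (algebraMap ℂ L c - ι x) = ov w (aeval y S) - minWt S b := by
    rw [hSx, ov_mul w hY0 hcx0, hYw]; ring
  have hcx : 0 < w (algebraMap ℂ L c - ι x) := by
    rw [pos_iff w hcx0, hcxv]; exact hpos
  by_cases htriv : ∃ z : L, z ≠ 0 ∧ ov (w.comap ι) z ≠ 0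
  · -- the main case
    obtain ⟨v', β, hβ0, hn, hβ'⟩ := exists_normalized (w.comap ι) htriv
    have hβ : ∀ z, w (ι z) = β • v' z := hβ'
    have hβZ : (0 : ℤ) < β := by exact_mod_cast hβ0
    have hc' : ∀ c : ℂ, c ≠ 0 → v' (algebraMap ℂ L c) = 0 := by
      intro c hc
      have h0 : algebraMap ℂ L c ≠ 0 := (map_ne_zero _).2 hc
      have h1 : ov w (ι (algebraMap ℂ L c)) = 0 := by
        rw [semi_C hι]
        exact ov_eq_of w (by rw [hw.const _ ((map_ne_zero ι₀).2 hc)]; rfl)
      rw [ov_comap_mul hβ h0] at h1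
      rw [eq_zero_iff v' h0]
      rcases mul_eq_zero.1 h1 with h | h
      · exact absurd h hβZ.ne'
      · exact h
    have hxv : 0 ≤ v' x := by
      by_cases h0 : x = 0
      · rw [h0, AddValuation.map_zero]; exact le_top
      rw [nonneg_iff v' h0]
      have h1 : 0 ≤ w x := by
        have h2 : (minWt S b : WithTop ℤ) ≤ w (aeval y S₁) := by
          apply val_lowerZ w hw.const y b hb
          intro α hα
          rw [mem_support_iff, hS₁c] at hα
          by_cases hαe : α = e₀
          · rw [if_pos hαe] at hα; exact absurd rfl hα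
          · rw [if_neg hαe] at hα
            exact hmin α (mem_support_iff.2 hα)
        have h3 : aeval y S₁ ≠ 0 := by
          intro h4
          apply h0
          rw [hx, h4, neg_zero, zero_div]
        rw [nonneg_iff w h0, hx, ov_div w (neg_ne_zero.2 h3) hY0, hYw]
        have h4 : ov w (-aeval y S₁) = ov w (aeval y S₁) := by
          apply ov_eq_of
          rw [AddValuation.map_neg, coe_ov w h3]
        rw [h4]
        rw [← coe_ov w h3] at h2
        have h5 : minWt S b ≤ ov w (aeval y S₁) := by exact_mod_cast h2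
        omega
      rw [← hxι, nonneg_iff w ((map_ne_zero ι).2 h0), ov_comap_mul hβ h0] at h1
      exact nonneg_of_mul_nonneg_right h1 hβZ
    obtain ⟨m', hm'⟩ := restr_order hι H hff R hm hβ0 hβ
    obtain ⟨hdiv, hkey⟩ := restr_key hι H hff R hw hm hβ0 hβ hn hc' hm' hcι hxv hcx
    -- the weights
    have hwt : ∀ k, (β : ℤ) * wts v' y k = b k := by
      intro k
      have h1 := ov_comap_mul hβ (H.x0 k)
      rw [hιy k] at h1
      exact h1.symm
    have hcone' : Z647.InCone v (wts v' y) := by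
      obtain ⟨t, ht, htA⟩ := hcone
      have hβQ : (0 : ℚ) < β := by exact_mod_cast hβ0
      refine ⟨fun j => t j / β, fun j => div_nonneg (ht j) hβQ.le, fun k => ?_⟩
      have h2 : (b k : ℚ) = β * (wts v' y k : ℚ) := by rw [← hwt k]; push_cast; ring
      have h3 : (wts v' y k : ℚ) = b k / β := by rw [h2]; field_simp
      rw [h3, htA, Finset.sum_div]
      exact Finset.sum_congr rfl fun j _ => by ring
    have h1 := hlc v' m' hdiv hcone' hm'
    have h2 := mul_le_mul_of_nonneg_left h1 hβZ.le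
    have h3 : (β : ℤ) * ∑ i, (cq i : ℤ) * (ov v' (aeval y (g i)) - minWt (g i) (wts v' y)) =
        ∑ i, (cq i : ℤ) * (ov w (aeval y (g i)) - minWt (g i) b) := by
      rw [Finset.mul_sum]
      refine Finset.sum_congr rfl fun i _ => ?_
      have h4 := ov_comap_mul hβ (hg i)
      rw [semi_fix hι (hgf i)] at h4
      have h5 := minWt_smul (hg0 i) (wts v' y) b β hwt
      rw [h4, h5]; ring
    have h4 := minWt_smul H.f0 (wts v' y) b β hwt
    have h5 : ∑ j, b j = β * ∑ j, wts v' y j := by
      rw [Finset.mul_sum]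
      exact Finset.sum_congr rfl fun j _ => (hwt j).symm
    rw [h3] at h2
    rw [hcxv] at hkey
    rw [h4, h5]
    have h6 := mul_le_mul_of_nonneg_left hkey hqZ
    have h7 : (β : ℤ) * (q * (1 + m' - ov v' h - ∑ j, wts v' y j + minWt f (wts v' y))) =
        q * (β * (1 + m' - ov v' h)) - q * (β * ∑ j, wts v' y j) +
        q * (β * minWt f (wts v' y)) := by ring
    rw [h7] at h2
    linarith
  · -- the restriction is trivial
    push Not at htriv
    have hz : ∀ z : L, z ≠ 0 → ov w (ι z) = 0 := htriv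
    have hb0 : b = 0 := by
      funext k
      have h1 := hz (y k) (H.x0 k)
      rw [hιy k] at h1
      exact h1
    have h1 : ∑ i, (cq i : ℤ) * (ov w (aeval y (g i)) - minWt (g i) b) = 0 := by
      refine Finset.sum_eq_zero fun i _ => ?_
      have h2 := hz _ (hg i)
      rw [semi_fix hι (hgf i)] at h2
      rw [h2, hb0, minWt_zero (hg0 i)]; ring
    rw [h1, zero_add]
    refine mul_le_mul_of_nonneg_left ?_ hqZ
    have h2 := restr_trivial hι H hff R hw hm hz hcι hcx
    rw [hcxv] at h2
    rw [hb0] at h2 ⊢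
    rw [minWt_zero H.f0]
    simp only [Pi.zero_apply, Finset.sum_const_zero]
    linarith

end Vale.Agent.P283.H108
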