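import Vale.Agent.P283.H108.Alg
import Vale.Agent.P283.Z647.Minor

/-!
Bounds for values at a point of the centre.
-/

set_option linter.all false

namespace Vale.Agent.P283.H108

open MvPolynomial Finset
open Vale.Agent.P283.Z647
open Vale.Agent.P283.H647 (ResForm order_log ov_lt_of)

section Weights

variable {N : ℕ} {b : Fin N → ℤ}

theorem wtZ_single (k : Fin N) : wtZ b (Finsupp.single k 1) = b k := by
  classical
  unfold wtZ
  rw [Finset.sum_eq_single k]
  · rw [Finsupp.single_eq_same]; simp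
  · intro j _ hj
    rw [Finsupp.single_eq_of_ne hj]; simp
  · intro h; exact absurd (Finset.mem_univ _) h

theorem wt_of_pderiv {P : MvPolynomial (Fin N) ℂ} {k : Fin N} {α : Fin N →₀ ℕ}
    (hα : α ∈ (pderiv k P).support) : Finsupp.single k 1 + α ∈ P.support ∧
      wtZ b (Finsupp.single k 1 + α) = b k + wtZ b α := by
  refine ⟨?_, by rw [wtZ_add, wtZ_single]⟩
  rw [mem_support_iff] at hα ⊢
  intro h0
  apply hα
  have h1 : coeff (Finsupp.single k 1 + α) (X k * pderiv k P) = coeff α (pderiv k P) := by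
    rw [coeff_X_mul]
  rw [← h1, H647.coeff_logd, h0, mul_zero]

theorem pderiv_homog {P : MvPolynomial (Fin N) ℂ} {μ : ℤ} (h : HomogZ b P μ) (k : Fin N) :
    HomogZ b (pderiv k P) (μ - b k) := by
  intro α hα
  obtain ⟨h1, h2⟩ := wt_of_pderiv (b := b) hα
  have h3 := h _ h1
  omega

theorem pderiv_atLeast {P : MvPolynomial (Fin N) ℂ} {μ : ℤ} (h : AtLeastZ b P μ) (k : Fin N) :
    AtLeastZ b (pderiv k P) (μ - b k) := by
  intro α hα
  obtain ⟨h1, h2⟩ := wt_of_pderiv (b := b) hα
  have h3 := h _ h1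
  omega

theorem atLeast_mul {P Q : MvPolynomial (Fin N) ℂ} {m n : ℤ} (h : AtLeastZ b P m)
    (h' : AtLeastZ b Q n) : AtLeastZ b (P * Q) (m + n) := by
  classical
  intro α hα
  obtain ⟨β, hβ, γ, hγ, rfl⟩ := Finset.mem_add.1 (support_mul P Q hα)
  rw [wtZ_add]
  exact add_le_add (h β hβ) (h' γ hγ)

theorem atLeast_add {P Q : MvPolynomial (Fin N) ℂ} {m : ℤ} (h : AtLeastZ b P m)
    (h' : AtLeastZ b Q m) : AtLeastZ b (P + Q) m := by
  classical
  intro α hα
  rcases Finset.mem_union.1 (support_add hα) with h1 | h1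
  · exact h α h1
  · exact h' α h1

theorem atLeast_sub {P Q : MvPolynomial (Fin N) ℂ} {m : ℤ} (h : AtLeastZ b P m)
    (h' : AtLeastZ b Q m) : AtLeastZ b (P - Q) m := by
  classical
  intro α hα
  rcases Finset.mem_union.1 (support_sub _ P Q hα) with h1 | h1
  · exact h α h1
  · exact h' α h1

theorem homog_sub {P Q : MvPolynomial (Fin N) ℂ} {m : ℤ} (h : HomogZ b P m)
    (h' : HomogZ b Q m) : HomogZ b (P - Q) m := by
  classical
  intro α hα
  rcases Finset.mem_union.1 (support_sub _ P Q hα) with h1 | h1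
  · exact h α h1
  · exact h' α h1

theorem tang_homog {F P : MvPolynomial (Fin N) ℂ} {m μ : ℤ} (hF : HomogZ b F m)
    (hP : HomogZ b P μ) (p : Fin N × Fin N) :
    HomogZ b (tang F p P) (m + μ - b p.1 - b p.2) := by
  unfold tang
  refine homog_sub ?_ ?_
  · have h1 := (pderiv_homog hF p.1).mul (pderiv_homog hP p.2)
    have h2 : m - b p.1 + (μ - b p.2) = m + μ - b p.1 - b p.2 := by ring
    rwa [h2] at h1
  · have h1 := (pderiv_homog hF p.2).mul (pderiv_homog hP p.1)
    have h2 : m - b p.2 + (μ - b p.1) = m + μ - b p.1 - b p.2 := by ring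
    rwa [h2] at h1

theorem tang_atLeast {F P : MvPolynomial (Fin N) ℂ} {m μ : ℤ} (hF : AtLeastZ b F m)
    (hP : AtLeastZ b P μ) (p : Fin N × Fin N) :
    AtLeastZ b (tang F p P) (m + μ - b p.1 - b p.2) := by
  unfold tang
  refine atLeast_sub ?_ ?_
  · have h1 := atLeast_mul (pderiv_atLeast hF p.1) (pderiv_atLeast hP p.2)
    have h2 : m - b p.1 + (μ - b p.2) = m + μ - b p.1 - b p.2 := by ring
    rwa [h2] at h1
  · have h1 := atLeast_mul (pderiv_atLeast hF p.2) (pderiv_atLeast hP p.1)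
    have h2 : m - b p.2 + (μ - b p.1) = m + μ - b p.1 - b p.2 := by ring
    rwa [h2] at h1

theorem tang_diff {f F G G₀ : MvPolynomial (Fin N) ℂ} {m μ : ℤ} (hF : HomogZ b F m)
    (hf : AtLeastZ b (f - F) (m + 1)) (hG₀ : HomogZ b G₀ μ) (hG : AtLeastZ b (G - G₀) (μ + 1))
    (p : Fin N × Fin N) :
    AtLeastZ b (tang f p G - tang F p G₀) (m + μ - b p.1 - b p.2 + 1) := by
  have h1 : tang f p G - tang F p G₀ = tang (f - F) p G + tang F p (G - G₀) := by
    unfold tang; simp only [map_sub]; ring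
  have hG' : AtLeastZ b G μ := by
    have h2 : G = G₀ + (G - G₀) := by ring
    rw [h2]
    refine atLeast_add hG₀.atLeast fun α hα => ?_
    have := hG α hα
    omega
  rw [h1]
  refine atLeast_add ?_ ?_
  · have h2 := tang_atLeast hf hG' p
    have h3 : m + 1 + μ - b p.1 - b p.2 = m + μ - b p.1 - b p.2 + 1 := by ring
    rwa [h3] at h2
  · have h2 := tang_atLeast hF.atLeast hG p
    have h3 : m + (μ + 1) - b p.1 - b p.2 = m + μ - b p.1 - b p.2 + 1 := by ring
    rwa [h3] at h2

end Weights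

/-- A point of the torus at which all weighted homogeneous polynomials of too large value
vanish. -/
theorem exists_point {N : ℕ} {L : Type} [Field L] [Algebra ℂ L] (w : AddValuation L (WithTop ℤ))
    (hc : ∀ c : ℂ, c ≠ 0 → w (algebraMap ℂ L c) = 0) (x : Fin N → L) (b : Fin N → ℤ)
    (hb : ∀ j, w (x j) = (b j : WithTop ℤ)) (hn : ∃ t, w t = 1) :
    ∃ ξ : Fin N → ℂ, (∀ i, ξ i ≠ 0) ∧ ∀ (P : MvPolynomial (Fin N) ℂ) (μ : ℤ), HomogZ b P μ →
      eval ξ P ≠ 0 → w (aeval x P) = (μ : WithTop ℤ) := by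
  classical
  by_contra hno
  push Not at hno
  obtain ⟨k, hk⟩ := init_existsZ w hc x b hb hn
    (κ := {p : MvPolynomial (Fin N) ℂ × ℤ // HomogZ b p.1 p.2 ∧
      w (aeval x p.1) ≠ (p.2 : WithTop ℤ)}) (fun k => k.1.1) (fun k => k.1.2)
    (fun k => k.2.1) (by
      intro ξ hξ
      obtain ⟨P, μ, h1, h2, h3⟩ := hno ξ hξ
      exact ⟨⟨(P, μ), h1, h3⟩, h2⟩)
  exact k.2.2 hk

section Step

variable {d : ℕ} {L : Type} [Field L] [Algebra ℂ L]

theorem tang_swap (F P : MvPolynomial (Fin (d + 1)) ℂ) (k l : Fin (d + 1)) :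
    tang F (l, k) P = - tang F (k, l) P := by
  unfold tang; ring

/-- A tangent derivation costs at most the logarithmic discrepancy. -/
theorem tang_step_aux [Algebra.EssFiniteType ℂ L] (hd : 0 < d)
    (htr : Algebra.trdeg ℂ L = (d : ℕ)) {x : Fin (d + 1) → L}
    {f : MvPolynomial (Fin (d + 1)) ℂ} {D' : Fin d → Derivation ℂ L L} {h : L}
    (H : ResForm x f D' h) {w : AddValuation L (WithTop ℤ)} (hw : Q.IsDivisorial d w) {m' : ℤ}
    (hm' : Q.FormOrder w D' m') {b : Fin (d + 1) → ℤ} (hb : ∀ j, w (x j) = (b j : WithTop ℤ))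
    (k l : Fin (d + 1)) (G : MvPolynomial (Fin (d + 1)) ℂ)
    (hne : aeval x (tang f (k, l) G) ≠ 0) (hk : aeval x (pderiv k f) ≠ 0) :
    aeval x G ≠ 0 ∧ ov w (aeval x G) + ov w h + ∑ j, b j - b k - b l ≤
      1 + m' + ov w (aeval x (tang f (k, l) G)) := by
  classical
  have hkl : l ≠ k := by
    rintro rfl
    apply hne
    unfold tang
    simp
  obtain ⟨i₀, hi₀⟩ := Fin.exists_succAbove_eq hkl
  set t : Fin d → L := x ∘ k.succAbove with ht
  set g : Fin d → L := Function.update t i₀ (aeval x G) with hg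
  set fk := aeval x (pderiv k f) with hfk
  let a : Fin d → L := fun i => aeval x (pderiv (k.succAbove i) G) -
    aeval x (pderiv (k.succAbove i) f) / fk * aeval x (pderiv k G)
  have hD : ∀ j, D' j (aeval x G) = ∑ i, a i * D' j (t i) := by
    intro j
    have h1 := H647.der_aeval (D' j) x G
    have h2 := H647.der_aeval (D' j) x f
    rw [H.eqn, map_zero, Fin.sum_univ_succAbove _ k] at h2
    rw [Fin.sum_univ_succAbove _ k] at h1
    have h3 : D' j (x k) = - ∑ i, aeval x (pderiv (k.succAbove i) f) / fk * D' j (t i) := by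
      have h4 : fk * D' j (x k) = - ∑ i, aeval x (pderiv (k.succAbove i) f) * D' j (t i) := by
        have h5 : ∑ i, aeval x (pderiv (k.succAbove i) f) * D' j (x (k.succAbove i)) =
          ∑ i, aeval x (pderiv (k.succAbove i) f) * D' j (t i) := rfl
        rw [h5] at h2
        linear_combination -h2
      have h6 : ∑ i, aeval x (pderiv (k.succAbove i) f) / fk * D' j (t i) =
          fk⁻¹ * ∑ i, aeval x (pderiv (k.succAbove i) f) * D' j (t i) := by
        rw [Finset.mul_sum]
        exact Finset.sum_congr rfl fun i _ => by ring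
      rw [h6]
      field_simp
      linear_combination h4
    rw [h1, h3]
    have h4 : ∑ i, a i * D' j (t i) =
        ∑ i, aeval x (pderiv (k.succAbove i) G) * D' j (x (k.succAbove i)) -
        aeval x (pderiv k G) * ∑ i, aeval x (pderiv (k.succAbove i) f) / fk * D' j (t i) := by
      rw [Finset.mul_sum, ← Finset.sum_sub_distrib]
      refine Finset.sum_congr rfl fun i _ => ?_
      simp only [a, ht, Function.comp]
      ring
    rw [h4]; ring
  have hjac : Q.jac D' g = a i₀ * Q.jac D' t := by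
    unfold Q.jac
    have h1 : (Matrix.of fun i j => D' j (g i)) = (Matrix.of fun i j => D' j (t i)).updateRow i₀
        (∑ i, a i • (Matrix.of fun i j => D' j (t i)) i) := by
      ext i j
      rw [Matrix.updateRow_apply]
      by_cases hi : i = i₀
      · subst hi
        rw [if_pos rfl, Matrix.of_apply, hg, Function.update_self, hD, Finset.sum_apply]
        exact Finset.sum_congr rfl fun i _ => by
          rw [Pi.smul_apply, Matrix.of_apply, smul_eq_mul]
      · rw [if_neg hi, Matrix.of_apply, Matrix.of_apply, hg, Function.update_of_ne hi]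
    rw [h1, Matrix.det_updateRow_sum, smul_eq_mul]
  have hres := H.res k
  have ha : fk * a i₀ = aeval x (tang f (k, l) G) := by
    simp only [a, hi₀, tang, map_sub, map_mul, ← hfk]
    field_simp
  have hform : h * Q.jac D' g = (-1) ^ (k : ℕ) * aeval x (tang f (k, l) G) := by
    rw [hjac, ← ha]
    linear_combination (a i₀) * hres
  have hj : Q.jac D' g ≠ 0 := by
    intro h0
    rw [h0, mul_zero] at hform
    exact mul_ne_zero (pow_ne_zero _ (by norm_num)) hne hform.symm
  have hG : aeval x G ≠ 0 := by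
    intro h0
    apply hj
    unfold Q.jac
    apply Matrix.det_eq_zero_of_row_eq_zero i₀
    intro j
    rw [Matrix.of_apply, hg, Function.update_self, h0, map_zero]
  refine ⟨hG, ?_⟩
  have hg0 : ∀ i, g i ≠ 0 := by
    intro i
    by_cases hi : i = i₀
    · subst hi; rw [hg, Function.update_self]; exact hG
    · rw [hg, Function.update_of_ne hi]; exact H.x0 _
  have h1 := order_log hd htr hw hm' g hg0 hj
  have h2 : ∑ i, ov w (g i) = ov w (aeval x G) + ∑ j, b j - b k - b l := by
    have hbx : ∀ j, ov w (x j) = b j := fun j => ov_eq_of w (hb j)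
    have h3 : ∑ i, ov w (g i) = ov w (g i₀) + ∑ i ∈ Finset.univ.erase i₀, ov w (g i) :=
      (Finset.add_sum_erase _ _ (Finset.mem_univ i₀)).symm
    have h4 : ∑ i ∈ Finset.univ.erase i₀, ov w (g i) =
        ∑ i ∈ Finset.univ.erase i₀, b (k.succAbove i) := by
      refine Finset.sum_congr rfl fun i hi => ?_
      rw [hg, Function.update_of_ne (Finset.ne_of_mem_erase hi)]
      exact hbx _
    have h5 : ∑ i, b (k.succAbove i) = b (k.succAbove i₀) +
        ∑ i ∈ Finset.univ.erase i₀, b (k.succAbove i) :=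
      (Finset.add_sum_erase _ _ (Finset.mem_univ i₀)).symm
    have h6 := Fin.sum_univ_succAbove b k
    have h7 : g i₀ = aeval x G := by rw [hg, Function.update_self]
    rw [h3, h4, h7]
    rw [hi₀] at h5
    omega
  have h3 := congrArg (ov w) hform
  have hs : ((-1 : L) ^ (k : ℕ)) ≠ 0 := pow_ne_zero _ (by norm_num)
  have hsv : ov w ((-1 : L) ^ (k : ℕ)) = 0 := by
    rw [ov_pow w (by norm_num)]
    have h5 : ov w (-1 : L) = 0 := by
      apply ov_eq_of
      rw [AddValuation.map_neg, AddValuation.map_one]; rfl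
    rw [h5, mul_zero]
  rw [ov_mul w H.h0 hj, ov_mul w hs hne, hsv, zero_add] at h3
  omega

theorem tang_step [Algebra.EssFiniteType ℂ L] (hd : 0 < d)
    (htr : Algebra.trdeg ℂ L = (d : ℕ)) {x : Fin (d + 1) → L}
    {f : MvPolynomial (Fin (d + 1)) ℂ} {D' : Fin d → Derivation ℂ L L} {h : L}
    (H : ResForm x f D' h) {w : AddValuation L (WithTop ℤ)} (hw : Q.IsDivisorial d w) {m' : ℤ}
    (hm' : Q.FormOrder w D' m') {b : Fin (d + 1) → ℤ} (hb : ∀ j, w (x j) = (b j : WithTop ℤ))
    (k l : Fin (d + 1)) (G : MvPolynomial (Fin (d + 1)) ℂ)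
    (hne : aeval x (tang f (k, l) G) ≠ 0) :
    aeval x G ≠ 0 ∧ ov w (aeval x G) + ov w h + ∑ j, b j - b k - b l ≤
      1 + m' + ov w (aeval x (tang f (k, l) G)) := by
  by_cases hk : aeval x (pderiv k f) = 0
  · have hl : aeval x (pderiv l f) ≠ 0 := by
      intro hl
      apply hne
      unfold tang
      simp only [map_sub, map_mul, hk, hl, zero_mul, sub_zero]
    have hne' : aeval x (tang f (l, k) G) ≠ 0 := by
      rw [tang_swap, map_neg]; exact neg_ne_zero.2 hne
    obtain ⟨h1, h2⟩ := tang_step_aux hd htr H hw hm' hb l k G hne' hl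
    refine ⟨h1, ?_⟩
    have h3 : ov w (aeval x (tang f (l, k) G)) = ov w (aeval x (tang f (k, l) G)) := by
      rw [tang_swap, map_neg]
      apply ov_eq_of
      rw [AddValuation.map_neg, coe_ov w hne]
    rw [h3] at h2
    omega
  · exact tang_step_aux hd htr H hw hm' hb k l G hne hk

/-- The multiplicity bound. -/
theorem tangs_bound [Algebra.EssFiniteType ℂ L] (hd : 0 < d)
    (htr : Algebra.trdeg ℂ L = (d : ℕ)) {x : Fin (d + 1) → L}
    {f : MvPolynomial (Fin (d + 1)) ℂ} {D' : Fin d → Derivation ℂ L L} {h : L}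
    (H : ResForm x f D' h) {w : AddValuation L (WithTop ℤ)} (hw : Q.IsDivisorial d w) {m' : ℤ}
    (hm' : Q.FormOrder w D' m') {b : Fin (d + 1) → ℤ} (hb : ∀ j, w (x j) = (b j : WithTop ℤ))
    {m : ℤ} (hm : IsMinZ f b m) {ξ : Fin (d + 1) → ℂ}
    (hξ : ∀ (P : MvPolynomial (Fin (d + 1)) ℂ) (μ : ℤ), HomogZ b P μ → eval ξ P ≠ 0 →
      w (aeval x P) = (μ : WithTop ℤ)) (l : List (Fin (d + 1) × Fin (d + 1))) :
    ∀ (G G₀ : MvPolynomial (Fin (d + 1)) ℂ) (μ : ℤ), HomogZ b G₀ μ →
      AtLeastZ b (G - G₀) (μ + 1) → eval ξ (tangs (inFormZ f b) l G₀) ≠ 0 →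
      aeval x G ≠ 0 ∧ ov w (aeval x G) - μ ≤
        l.length * (1 + m' - ov w h - ∑ j, b j + m) := by
  induction l with
  | nil =>
    intro G G₀ μ h1 h2 h3
    have h4 := hξ G₀ μ h1 h3
    have h5 := val_lowerZ w hw.const x b hb h2
    have h6 := ov_lt_of h4 h5
    have h7 : aeval x G₀ + aeval x (G - G₀) = aeval x G := by
      rw [← map_add, add_sub_cancel]
    rw [h7] at h6
    have h8 := ov_eq_of w h6
    refine ⟨ne_zero_of_eq w h6, ?_⟩
    rw [h8]; simp
  | cons p l ih =>
    intro G G₀ μ h1 h2 h3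
    have h4 := ih (tang f p G) (tang (inFormZ f b) p G₀) (m + μ - b p.1 - b p.2)
      (tang_homog (inFormZ_homog hm) h1 p)
      (tang_diff (inFormZ_homog hm) (diff_atLeastZ hm) h1 h2 p) h3
    obtain ⟨h5, h6⟩ := tang_step hd htr H hw hm' hb p.1 p.2 G h4.1
    refine ⟨h5, ?_⟩
    have h7 := h4.2
    rw [List.length_cons]
    push_cast
    have h8 : tang f (p.1, p.2) G = tang f p G := rfl
    rw [h8] at h6
    have h9 : ((l.length : ℤ) + 1) * (1 + m' - ov w h - ∑ j, b j + m) =
        l.length * (1 + m' - ov w h - ∑ j, b j + m) + (1 + m' - ov w h - ∑ j, b j + m) := by ring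
    rw [h9]
    linarith

end Step

end Vale.Agent.P283.H108
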