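import Vale.Agent.P283.H108.TorusVal

/-!
Polynomials which are coprime to a component of the initial form.
-/

set_option linter.all false

namespace Vale.Agent.P283.H108

open MvPolynomial Finset
open Vale.Agent.P283.H647 (HypData red red_X0 red_X sub_red_dvd coeff_red coeff_pderiv' red_pderiv
  not_dvd_pderiv)

/-- Elimination of one variable. -/
theorem exists_elim {e : ℕ} {i : Fin (e + 2)} (hi : i ≠ 0) {h u : MvPolynomial (Fin (e + 2)) ℂ}
    (redh : red e h = h) (redu : red e u = u) (irr : Irreducible h) (hi' : pderiv i h ≠ 0)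
    (nomon : ∀ t : Fin (e + 2) →₀ ℕ, ¬ h ∣ monomial t 1) (hu : ¬ h ∣ u) :
    ∃ (r : MvPolynomial (Fin e) ℂ) (A B : MvPolynomial (Fin (e + 2)) ℂ), r ≠ 0 ∧
      rename (fun k => i.succAbove (Fin.succ k)) r = u * A + h * B := by
  classical
  obtain ⟨i', rfl⟩ := Fin.exists_succ_eq.2 hi
  let S := MvPolynomial (Fin (e + 2)) ℂ
  let S₁ := MvPolynomial (Fin (e + 1)) ℂ
  let φ : S₁ →ₐ[ℂ] S := rename Fin.succ
  let κ : S →ₐ[ℂ] S₁ := aeval (Fin.cases 0 (fun k => X k) : Fin (e + 2) → S₁)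
  have hκφ : ∀ P, κ (φ P) = P := by
    intro P
    have h1 : κ.comp φ = AlgHom.id ℂ S₁ := by
      apply MvPolynomial.algHom_ext
      intro k
      show aeval (Fin.cases 0 (fun k => X k) : Fin (e + 2) → S₁) (rename Fin.succ (X k)) = X k
      rw [rename_X, aeval_X]
      rfl
    exact DFunLike.congr_fun h1 P
  have hφκ : ∀ P, φ (κ P) = red e P := by
    intro P
    have h1 : φ.comp κ = red e := by
      apply MvPolynomial.algHom_ext
      intro k
      refine Fin.cases ?_ (fun k => ?_) k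
      · rw [red_X0]
        show rename Fin.succ (aeval (Fin.cases 0 (fun k => X k) : Fin (e + 2) → S₁) (X 0)) = 0
        rw [aeval_X]
        exact map_zero _
      · rw [red_X (Fin.succ_ne_zero k)]
        show rename Fin.succ (aeval (Fin.cases 0 (fun k => X k) : Fin (e + 2) → S₁)
          (X k.succ)) = X k.succ
        rw [aeval_X]
        exact rename_X _ _
    exact DFunLike.congr_fun h1 P
  set h₁ := κ h with hh₁
  set u₁ := κ u with hu₁
  have hφh : φ h₁ = h := by rw [hh₁, hφκ, redh]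
  have hφu : φ u₁ = u := by rw [hu₁, hφκ, redu]
  have hp : Prime h := irr.prime
  have hdvd : ∀ P, h₁ ∣ P ↔ h ∣ φ P := by
    intro P
    constructor
    · rintro ⟨Q, rfl⟩
      rw [map_mul, hφh]
      exact dvd_mul_right _ _
    · rintro ⟨Q, hQ⟩
      refine ⟨κ Q, ?_⟩
      rw [← hκφ P, hQ, map_mul]
  have h₁0 : h₁ ≠ 0 := by
    intro h0
    apply hp.ne_zero
    rw [← hφh, h0, map_zero]
  have hp₁ : Prime h₁ := by
    refine ⟨h₁0, fun hun => ?_, fun a b hab => ?_⟩
    · apply hp.not_unit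
      rw [← hφh]
      exact hun.map φ
    · rw [hdvd, map_mul] at hab
      rcases hp.dvd_or_dvd hab with h1 | h1
      · exact Or.inl ((hdvd a).2 h1)
      · exact Or.inr ((hdvd b).2 h1)
  let I : Ideal S₁ := Ideal.span {h₁}
  haveI : I.IsPrime := (Ideal.span_singleton_prime h₁0).2 hp₁
  let T := S₁ ⧸ I
  let L₁ := FractionRing T
  let x₁ : Fin (e + 1) → L₁ := fun k => algebraMap T L₁ (Ideal.Quotient.mk I (X k))
  have hx₁ : ∀ P : S₁, aeval x₁ P = algebraMap T L₁ (Ideal.Quotient.mk I P) := by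
    intro P
    have h1 : (aeval x₁ : S₁ →ₐ[ℂ] L₁) =
        (IsScalarTower.toAlgHom ℂ T L₁).comp (Ideal.Quotient.mkₐ ℂ I) := by
      apply MvPolynomial.algHom_ext
      intro k
      rw [aeval_X]
      rfl
    exact DFunLike.congr_fun h1 P
  have hinj : Function.Injective (algebraMap T L₁) := IsFractionRing.injective T L₁
  have hker : ∀ P : S₁, aeval x₁ P = 0 ↔ h₁ ∣ P := by
    intro P
    rw [hx₁, map_eq_zero_iff _ hinj, Ideal.Quotient.eq_zero_iff_mem, Ideal.mem_span_singleton]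
  have H₁ : HypData x₁ h₁ :=
    { gen := by
        intro g
        obtain ⟨a, b, hb, rfl⟩ := IsFractionRing.div_surjective (A := T) g
        obtain ⟨P, rfl⟩ := Ideal.Quotient.mk_surjective a
        obtain ⟨Q, rfl⟩ := Ideal.Quotient.mk_surjective b
        refine ⟨P, Q, ?_, ?_⟩
        · rw [hx₁, Ne, map_eq_zero_iff _ hinj]
          exact nonZeroDivisors.ne_zero hb
        · rw [hx₁, hx₁]
      ker := hker
      f0 := h₁0
      x0 := by
        intro k h0
        have h1 : aeval x₁ (X k : S₁) = 0 := by rw [aeval_X, h0]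
        rw [hker, hdvd] at h1
        apply nomon (Finsupp.single k.succ 1)
        have h2 : φ (X k) = X k.succ := rename_X _ _
        rw [h2] at h1
        exact h1 }
  have hpd : pderiv i' h₁ ≠ 0 := by
    intro h0
    apply hi'
    have h1 := MvPolynomial.pderiv_rename (R := ℂ) (Fin.succ_injective (e + 1)) i' h₁
    rw [← hφh]
    show pderiv (Fin.succ i') (rename Fin.succ h₁) = 0
    rw [h1, h0, map_zero]
  have hpd' : aeval x₁ (pderiv i' h₁) ≠ 0 := fun h0 => not_dvd_pderiv hpd ((hker _).1 h0)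
  have hb : IsTranscendenceBasis ℂ (x₁ ∘ i'.succAbove) := H₁.basis hpd'
  letI : Algebra (MvPolynomial (Fin e) ℂ) L₁ := algP (x₁ ∘ i'.succAbove)
  haveI : Algebra.IsAlgebraic (MvPolynomial (Fin e) ℂ) L₁ := isAlgebraic_algP _ hb
  have hu₁0 : aeval x₁ u₁ ≠ 0 := by
    intro h0
    rw [hker, hdvd, hφu] at h0
    exact hu h0
  obtain ⟨p, hp0, hpu⟩ := (Algebra.IsAlgebraic.isAlgebraic (R := MvPolynomial (Fin e) ℂ)
    (aeval x₁ u₁)).exists_nonzero_coeff_and_aeval_eq_zero
      (mem_nonZeroDivisors_of_ne_zero hu₁0)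
  let ρ : MvPolynomial (Fin e) ℂ →ₐ[ℂ] S₁ := rename i'.succAbove
  let A₁ : S₁ := Polynomial.eval₂ (ρ : MvPolynomial (Fin e) ℂ →+* S₁) u₁ p.divX
  have hρ : ∀ P, aeval x₁ (ρ P) = algebraMap (MvPolynomial (Fin e) ℂ) L₁ P := by
    intro P
    show aeval x₁ (rename i'.succAbove P) = _
    rw [aeval_rename]
    rfl
  have hA₁ : aeval x₁ A₁ = Polynomial.aeval (aeval x₁ u₁) p.divX := by
    have h1 := Polynomial.hom_eval₂ p.divX (ρ : MvPolynomial (Fin e) ℂ →+* S₁)
      ((aeval x₁ : S₁ →ₐ[ℂ] L₁) : S₁ →+* L₁) u₁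
    have h2 : ((aeval x₁ : S₁ →ₐ[ℂ] L₁) : S₁ →+* L₁).comp (ρ : MvPolynomial (Fin e) ℂ →+* S₁) =
        algebraMap (MvPolynomial (Fin e) ℂ) L₁ := RingHom.ext hρ
    rw [h2] at h1
    exact h1
  have h1 : aeval x₁ (ρ (p.coeff 0) + u₁ * A₁) = 0 := by
    rw [map_add, map_mul, hρ, hA₁]
    rw [← Polynomial.divX_mul_X_add p, map_add, map_mul, Polynomial.aeval_X,
      Polynomial.aeval_C] at hpu
    rw [← hpu]; ring
  rw [hker] at h1
  obtain ⟨B₁, hB₁⟩ := h1
  refine ⟨p.coeff 0, -φ A₁, φ B₁, hp0, ?_⟩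
  have h2 := congrArg φ hB₁
  rw [map_add, map_mul, map_mul, hφu, hφh] at h2
  have h3 : φ (ρ (p.coeff 0)) = rename (fun k => (Fin.succ i').succAbove (Fin.succ k))
      (p.coeff 0) := by
    have h4 : (fun k => (Fin.succ i').succAbove (Fin.succ k)) =
        (Fin.succ ∘ i'.succAbove : Fin e → Fin (e + 2)) := by
      funext k
      rw [Function.comp_apply, Fin.succ_succAbove_succ]
    rw [h4]
    exact rename_rename _ _ _
  rw [← h3]
  linear_combination h2

end Vale.Agent.P283.H108
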