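import Vale.Agent.P283.H108.FinDown
import Vale.Agent.P283.Z647.Main
import Vale.Agent.P283.O647.F2
import Vale.Agent.P283.O647.F5

/-!
Bounded klt complements for pairs with a common finite cover with a hypersurface in a toric
variety: from Galois closures to all finite extensions.
-/

set_option linter.all false

namespace Vale.Agent.P283.H108

open MvPolynomial Finset
open Vale.Agent.P283.Z647
open Vale.Agent.P283.H647 (ResForm HypData order_exists order_unique exists_ext jac_map
  ov_algebraMap)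

/-- The function field of the hypersurface in a larger field. -/
theorem finData_up {d : ℕ} {L L' : Type} [Field L] [Field L'] [Algebra ℂ L] [Algebra ℂ L']
    [Algebra L L'] [IsScalarTower ℂ L L'] [FiniteDimensional L L'] {y : Fin (d + 1) → L}
    {f : MvPolynomial (Fin (d + 1)) ℂ} (H : FinData y f) :
    FinData (fun k => algebraMap L L' (y k)) f where
  fin := (O647.f2 (d + 1) L L' y H.fin).1
  ker := by
    intro P
    rw [aeval_map, ← H.ker P]
    exact map_eq_zero _
  f0 := H.f0
  x0 := fun k => (map_ne_zero _).2 (H.x0 k)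

/-- Monomial ideals in a larger field. -/
theorem gen_up {d s M : ℕ} (hd : 0 < d) {K L L' : Type} [Field K] [Field L] [Field L']
    [Algebra ℂ K] [Algebra ℂ L] [Algebra ℂ L'] [Algebra K L] [Algebra K L'] [Algebra L L']
    [IsScalarTower ℂ K L] [IsScalarTower ℂ K L'] [IsScalarTower ℂ L L'] [IsScalarTower K L L']
    [FiniteDimensional K L] [FiniteDimensional K L'] {y : Fin (d + 1) → L}
    {f : MvPolynomial (Fin (d + 1)) ℂ} {g : Fin s → MvPolynomial (Fin (d + 1)) ℂ} {c : Fin s → ℚ}
    (HL : FinData y f) (hg : ∀ i, aeval y (g i) ≠ 0) {E : Fin (M + 1) → Fin (d + 1) → ℤ}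
    {D : Fin d → Derivation ℂ K K} (hD : ∃ z, Q.jac D z ≠ 0) {𝒞 : Set (Subalgebra ℂ K)} {r : ℕ}
    {ψ : Subalgebra ℂ K → K} (hgen : IsGeneratedM y f g c E D 𝒞 r ψ) :
    IsGeneratedM (fun k => algebraMap L L' (y k)) f g c E D 𝒞 r ψ := by
  haveI : FiniteDimensional L L' := FiniteDimensional.right K L L'
  haveI : Algebra.IsAlgebraic K L := Algebra.IsAlgebraic.of_finite K L
  haveI : Algebra.IsAlgebraic L L' := Algebra.IsAlgebraic.of_finite L L'
  haveI : Algebra.IsAlgebraic K L' := Algebra.IsAlgebraic.of_finite K L'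
  have HL' : FinData (fun k => algebraMap L L' (y k)) f := finData_up HL
  intro D'' h' hD'' hh' C hC u w' e' l b' α' β' hu hover he' hw'1 hw'u hl hb' hα' hβ'
  have R' := HL'.res_of hh'
  -- the derivations on `L`
  obtain ⟨D₁, hD₁⟩ := exists_ext (K := K) (L := L) HL.trdeg D
  obtain ⟨D₂, hD₂⟩ := exists_ext (K := L) (L := L') HL'.trdeg D₁
  have hD₂'' : D'' = D₂ := by
    funext i
    refine O647.f5 K L' (D'' i) (D₂ i) fun x => ?_
    rw [hD'', IsScalarTower.algebraMap_apply K L L' x, hD₂, hD₁, ← IsScalarTower.algebraMap_apply]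
  subst hD₂''
  have hj₁ : ∃ z, Q.jac D₁ z ≠ 0 := by
    obtain ⟨z, hz⟩ := hD
    exact ⟨_, by rw [jac_map hD₁]; exact (map_ne_zero _).2 hz⟩
  obtain ⟨h, R⟩ := HL.exists_resForm hj₁
  have hh'eq : h' = algebraMap L L' h := by
    obtain ⟨i, hi⟩ := HL.exists_pd
    have hj : Q.jac D₁ (y ∘ i.succAbove) ≠ 0 := HL.jac_ne hi hj₁
    have h1 := hh' i
    have h2 := congrArg (algebraMap L L') (R.res i)
    rw [map_mul, map_mul, map_pow, map_neg, map_one, ← jac_map hD₂, ← aeval_map] at h2
    have h3 : Q.jac D'' (fun l => algebraMap L L' ((y ∘ i.succAbove) l)) ≠ 0 := by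
      rw [jac_map hD₂]; exact (map_ne_zero _).2 hj
    refine mul_right_cancel₀ h3 ?_
    rw [h2]
    exact h1
  -- the valuation on `L`
  have hw'div : IsDivisorial d w' :=
    isDivisorial_of_ext (divisorial_iff.1 hu) hw'1 hw'u
  obtain ⟨w, e'', he'', hw, hw'w⟩ := exists_restriction (K := L) d w' hw'div
  obtain ⟨x₁, hx₁⟩ := hu.normalized
  have hx₁0 : x₁ ≠ 0 := ne_zero_of_eq u (n := 1) (by simpa using hx₁)
  have hcomp : ∀ x : K, e'' • w (algebraMap K L x) = e' • u x := by
    intro x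
    rw [← hw'w, ← IsScalarTower.algebraMap_apply, hw'u]
  have hcomp' : ∀ x : K, x ≠ 0 → (e'' : ℤ) * ov w (algebraMap K L x) = e' * ov u x := by
    intro x hx
    have h6 := hcomp x
    rw [← coe_ov w ((map_ne_zero (algebraMap K L)).2 hx), ← coe_ov u hx, ← WithTop.coe_nsmul,
      ← WithTop.coe_nsmul, WithTop.coe_inj, nsmul_eq_mul, nsmul_eq_mul] at h6
    exact h6
  have hux₁ : ov u x₁ = 1 := ov_eq_of u (by simpa using hx₁)
  have h7 := hcomp' x₁ hx₁0
  rw [hux₁, mul_one] at h7
  have he''Z : (0 : ℤ) < e'' := by exact_mod_cast he''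
  have he'Z : (0 : ℤ) < e' := by exact_mod_cast he'
  have h8 : 0 < ov w (algebraMap K L x₁) := by
    by_contra hneg
    push Not at hneg
    have := mul_nonpos_of_nonneg_of_nonpos he''Z.le hneg
    omega
  obtain ⟨e, he⟩ := Int.eq_ofNat_of_zero_le h8.le
  rw [he] at h7 h8
  have he0 : 0 < e := by exact_mod_cast h8
  have hwu : ∀ x : K, w (algebraMap K L x) = e • u x := by
    intro x
    by_cases hx : x = 0
    · subst hx
      obtain ⟨m, rfl⟩ := Nat.exists_eq_succ_of_ne_zero he0.ne'
      rw [map_zero, AddValuation.map_zero, AddValuation.map_zero, succ_nsmul, WithTop.add_top]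
    · rw [← coe_ov w ((map_ne_zero (algebraMap K L)).2 hx), ← coe_ov u hx, ← WithTop.coe_nsmul,
        WithTop.coe_inj, nsmul_eq_mul]
      have h9 := hcomp' x hx
      rw [← h7, mul_assoc] at h9
      exact mul_left_cancel₀ he''Z.ne' h9
  have hfin := hgen D₁ h hD₁ R.res C hC u w e l (ov w h) (fun k => ov w (y k))
    (fun i => ov w (aeval y (g i))) hu hover he0 hw.normalized hwu hl (coe_ov w R.h0).symm
    (fun k => (coe_ov w (HL.x0 k)).symm) (fun i => (coe_ov w (hg i)).symm)
  have hb : (b' : ℤ) = e'' * ov w h := by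
    rw [← ov_algebraMap hw'w R.h0, ← hh'eq]
    exact (ov_eq_of w' hb').symm
  have hα : ∀ k, (e'' : ℤ) * ov w (y k) = α' k := by
    intro k
    rw [← ov_algebraMap hw'w (HL.x0 k)]
    exact ov_eq_of w' (hα' k)
  have hβ : ∀ i, (β' i : ℤ) = e'' * ov w (aeval y (g i)) := by
    intro i
    rw [← ov_algebraMap hw'w (hg i), ← aeval_map]
    exact (ov_eq_of w' (hβ' i)).symm
  have h11 := ordMono_smul E (fun k => ov w (y k)) α' e'' hα
  have h12 : ∑ i, c i * (β' i : ℚ) = e'' * ∑ i, c i * (ov w (aeval y (g i)) : ℚ) := by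
    rw [Finset.mul_sum]
    exact Finset.sum_congr rfl fun i _ => by rw [hβ]; push_cast; ring
  have h13 : (e' : ℚ) = e'' * e := by
    have : (e' : ℤ) = e'' * e := h7.symm
    exact_mod_cast this
  rw [h11, h12, hb, h13]
  push_cast
  calc (e'' : ℚ) * e * l = e'' * (e * l) := by ring
    _ = _ := by rw [hfin]; ring

end Vale.Agent.P283.H108
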