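import Vale.Agent.P283.Z647.Defs

/-!
Pairs `(X', B')` with a proper morphism `X' → Z = Spec A` with a Galois cover by a hypersurface in a
toric variety which is log canonical together with the toric boundary and the other components of
the boundary.
-/

namespace Vale.Agent.P283.H108

open MvPolynomial Vale.Agent.P283.Q Vale.Agent.P283.Z647

variable {d N s : ℕ}

/-- The irreducible hypersurface `{f = 0}`, together with the toric boundary and
`∑ c_i div(g_i)`, is log canonical over the affine toric variety of the cone `τ` spanned by the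
`v j`. Here `Ω = (-1)^i dy_0 ∧ ⋯ (without dy_i) ⋯ ∧ dy_d / (∂f / ∂y_i)` is the residue form,
`ω = h • Ω` for the form `ω` given by the derivations `D`, and `w` is a prime divisor over the
hypersurface with the orders `a k` of the coordinates `y k`, where the vector `a` lies in `τ`. By
adjunction, the log discrepancy of the closure of the hypersurface in a toric variety, together with
the toric boundary, along `w` is `1 + ord_w Ω - ∑ a k + minWt f a`; and `w (g_i) - minWt (g_i) a` is
the order along `w` of the closure of `{g_i = 0}` in the toric varieties. -/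
def IsToricallyLC {L : Type} [Field L] [Algebra ℂ L] (y : Fin (d + 1) → L)
    (f : MvPolynomial (Fin (d + 1)) ℂ) (g : Fin s → MvPolynomial (Fin (d + 1)) ℂ) (c : Fin s → ℚ)
    (v : Fin N → Fin (d + 1) → ℤ) : Prop :=
  ∀ (D : Fin d → Derivation ℂ L L) (h : L),
    (∀ i : Fin (d + 1), h * jac D (y ∘ i.succAbove) = (-1) ^ (i : ℕ) * aeval y (pderiv i f)) →
    ∀ (w : AddValuation L (WithTop ℤ)) (m b : ℤ) (a : Fin (d + 1) → ℤ) (a' : Fin s → ℤ),
      IsDivisorial d w → FormOrder w D m → w h = (b : WithTop ℤ) →
      (∀ k, w (y k) = (a k : WithTop ℤ)) → (∀ i, w (aeval y (g i)) = (a' i : WithTop ℤ)) →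
      Z647.InCone v a →
        ∑ i, c i * (a' i - minWt (g i) a) ≤ 1 + m - b - ∑ k, (a k : ℚ) + minWt f a

/-- `Z = Spec A` and the irreducible hypersurface `{f = 0}` in the torus with the coordinates `y_k`:
`L` is the function field of the hypersurface, `K = L^G` for a group `G` of at most `J`
automorphisms of `L`, and `A ⊆ K` has the same integral closure in `L` as the ring
`ℂ[y^u : u ∈ τ^∨]`, where the cone `τ` is spanned by the vectors `v j`. So `Z` has the same
normalization in `L` as the closure of the image of the hypersurface in the affine toric variety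
`Spec ℂ[y^u : u ∈ τ^∨]`. The cone `τ` may contain lines; then `dim Z` may be smaller than the
transcendence degree of `K`, and `Z` is a point if `τ` is the whole space. And the hypersurface,
which may be degenerate, is log canonical together with the toric boundary and
`∑ c_i div(g_i)`. -/
structure IsLcCover (J : ℕ) {K L : Type} [Field K] [Field L] [Algebra ℂ K] [Algebra ℂ L]
    [Algebra K L] (y : Fin (d + 1) → L) (f : MvPolynomial (Fin (d + 1)) ℂ)
    (g : Fin s → MvPolynomial (Fin (d + 1)) ℂ) (c : Fin s → ℚ) (v : Fin N → Fin (d + 1) → ℤ)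
    (G : Subgroup (L ≃ₐ[ℂ] L)) (A : Subalgebra ℂ K) : Prop where
  generate : IntermediateField.adjoin ℂ (Set.range y) = ⊤
  equation : ∀ P : MvPolynomial (Fin (d + 1)) ℂ, aeval y P = 0 ↔ f ∣ P
  nonzero : f ≠ 0
  coordinate : ∀ k, y k ≠ 0
  divisor : ∀ i, aeval y (g i) ≠ 0
  toricallyLC : IsToricallyLC y f g c v
  finite : Finite G
  card : Nat.card G ≤ J
  field : ∀ z : L, z ∈ Set.range (algebraMap K L) ↔ ∀ τ ∈ G, τ z = z
  cover : ∀ a ∈ A, IsIntegral (Algebra.adjoin ℂ {z : L | ∃ u : Fin (d + 1) → ℤ,
    (∀ j, 0 ≤ ∑ k, v j k * u k) ∧ z = ∏ k, y k ^ u k}) (algebraMap K L a)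
  finiteCover : ∀ u : Fin (d + 1) → ℤ, (∀ j, 0 ≤ ∑ k, v j k * u k) →
    IsIntegral A (∏ k, y k ^ u k)

end Vale.Agent.P283.H108
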