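import Vale.Agent.P283.H108.Klt
import Vale.Agent.P283.H108.DefsLc

/-!
A criterion for log canonicity together with the toric boundary.
-/

set_option linter.all false

namespace Vale.Agent.P283.H108

open MvPolynomial Finset
open Vale.Agent.P283.Z647
open Vale.Agent.P283.H647 (ResForm HypData order_exists order_unique ov_monoT ov_lt_of)

variable {N s : ℕ}

/-- The excess of the boundary for a single coefficient vector. -/
theorem tor_nonneg {e : ℕ} {L : Type} [Field L] [Algebra ℂ L] {v : Fin N → Fin (e + 2) → ℤ}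
    {y : Fin (e + 2) → L} {f : MvPolynomial (Fin (e + 2)) ℂ}
    {g : Fin s → MvPolynomial (Fin (e + 2)) ℂ} (H : HypData y f) {c : Fin s → ℚ}
    (hsm : SmallMult v f g c) {D' : Fin (e + 1) → Derivation ℂ L L} {h : L}
    (R : ResForm y f D' h) {w : AddValuation L (WithTop ℤ)} (hw : Q.IsDivisorial (e + 1) w)
    (hcone : Z647.InCone v (wts w y)) {m' : ℤ} (hm' : Q.FormOrder w D' m') :
    0 ≤ 1 + m' - ov w h - ∑ j, wts w y j + minWt f (wts w y) := by
  classical
  haveI := H.ess
  have hb : ∀ j, w (y j) = (wts w y j : WithTop ℤ) := fun j => (coe_ov w (H.x0 j)).symm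
  obtain ⟨ξ, hξ0, hξ⟩ := exists_point w hw.const y (wts w y) hb hw.normalized
  have hm := isMinZ_minWt H.f0 (wts w y)
  have hfξ : eval ξ (inFormZ f (wts w y)) = 0 := by
    by_contra hne
    have hk := hξ _ _ (inFormZ_homog hm) hne
    have h1 := val_lowerZ w hw.const y (wts w y) hb (diff_atLeastZ hm)
    have h2 : aeval y (inFormZ f (wts w y)) + aeval y (f - inFormZ f (wts w y)) = 0 := by
      rw [← map_add, add_sub_cancel, H.eqn]
    have h3 := ov_lt_of hk h1
    rw [h2, AddValuation.map_zero] at h3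
    exact WithTop.top_ne_coe h3
  obtain ⟨k, hk⟩ := hsm.reg hcone ξ hξ0 hfξ
  have h1 := indep_bound (Nat.succ_pos e) H.trdeg R hw hm' hb hm g ∅ (fun i => minWt (g i) (wts w y))
    (fun i hi => absurd hi (Finset.notMem_empty i)) (fun i hi => absurd hi (Finset.notMem_empty i))
    hξ0 hξ (by
      intro t₀ t hrel
      refine ⟨?_, fun i hi => absurd hi (Finset.notMem_empty i)⟩
      have h2 := hrel k
      rw [Finset.sum_empty, add_zero] at h2
      exact (mul_eq_zero.1 h2).resolve_right hk)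
  rw [Finset.sum_empty, add_zero] at h1
  linarith

theorem exists_common {s : ℕ} (c : Fin s → ℚ) (hc : ∀ i, 0 ≤ c i) :
    ∃ q : ℕ, 0 < q ∧ ∃ cq : Fin s → ℕ, ∀ i, (cq i : ℚ) = q * c i := by
  classical
  refine ⟨∏ i, (c i).den, Finset.prod_pos fun i _ => (c i).den_pos, ?_⟩
  have key : ∀ i, ∃ n : ℕ, (n : ℚ) = (∏ i, (c i).den : ℕ) * c i := by
    intro i
    refine ⟨(∏ j ∈ Finset.univ.erase i, (c j).den) * (c i).num.toNat, ?_⟩
    have h1 : (((c i).num.toNat : ℤ) : ℚ) = (c i).num := by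
      rw [Int.toNat_of_nonneg (Rat.num_nonneg.2 (hc i))]
    have h2 : (c i) = (c i).num / (c i).den := (Rat.num_div_den (c i)).symm
    have h3 : ((c i).den : ℚ) ≠ 0 := by exact_mod_cast (c i).den_ne_zero
    have h4 : (∏ i, (c i).den : ℕ) = (c i).den * ∏ j ∈ Finset.univ.erase i, (c j).den :=
      (Finset.mul_prod_erase _ _ (Finset.mem_univ i)).symm
    rw [h4]
    push_cast
    have h5 : ((c i).num.toNat : ℚ) = (c i).den * c i := by
      have h6 : ((c i).num.toNat : ℚ) = (c i).num := by exact_mod_cast h1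
      rw [h6, mul_comm, Rat.mul_den_eq_num]
    rw [h5]; ring
  choose cq hcq using key
  exact ⟨cq, hcq⟩

/-- Small multiplicities imply log canonicity. -/
theorem smallMult_lc {d : ℕ} (hd : 0 < d) {L : Type} [Field L] [Algebra ℂ L]
    {v : Fin N → Fin (d + 1) → ℤ} {y : Fin (d + 1) → L} {f : MvPolynomial (Fin (d + 1)) ℂ}
    {g : Fin s → MvPolynomial (Fin (d + 1)) ℂ} {c : Fin s → ℚ}
    (hgen : IntermediateField.adjoin ℂ (Set.range y) = ⊤)
    (hker : ∀ P : MvPolynomial (Fin (d + 1)) ℂ, aeval y P = 0 ↔ f ∣ P) (hf0 : f ≠ 0)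
    (hy : ∀ k, y k ≠ 0) (hg : ∀ i, aeval y (g i) ≠ 0) (hc : ∀ i, 0 ≤ c i)
    (hsm : SmallMult v f g c) : IsToricallyLC y f g c v := by
  classical
  obtain ⟨e, rfl⟩ : ∃ e, d = e + 1 := ⟨d - 1, by omega⟩
  have H : HypData y f :=
    { gen := by
        intro g
        have h1 : g ∈ IntermediateField.adjoin ℂ (Set.range y) := by rw [hgen]; trivial
        rw [IntermediateField.mem_adjoin_range_iff] at h1
        obtain ⟨P, Q, h2⟩ := h1
        by_cases hQ : aeval y Q = 0
        · exact ⟨0, 1, by simp, by rw [h2, hQ]; simp⟩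
        · exact ⟨P, Q, hQ, h2⟩
      ker := hker
      f0 := hf0
      x0 := hy }
  obtain ⟨q, hq, cq, hcq⟩ := exists_common c hc
  intro D h hres w m b a a' hw hm hb ha ha' hcone
  obtain ⟨i₀, hi₀⟩ := H.exists_pd
  have R : ResForm y f D h :=
    { x0 := hy
      eqn := H.eqn
      smooth := ⟨i₀, hi₀⟩
      h0 := by
        rintro rfl
        have h1 := hres i₀
        rw [zero_mul] at h1
        exact hi₀ ((mul_eq_zero.1 h1.symm).resolve_left (pow_ne_zero _ (neg_ne_zero.2 one_ne_zero)))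
      res := hres }
  have ha0 : wts w y = a := by
    funext k
    exact ov_eq_of w (ha k)
  have hb0 : ov w h = b := ov_eq_of w hb
  have ha0' : ∀ i, ov w (aeval y (g i)) = a' i := fun i => ov_eq_of w (ha' i)
  subst ha0
  have hA := tor_nonneg H hsm R hw hcone hm
  have h1 := excess_bound H hsm R hg hcq hq hw hcone hm hA
  simp only [ha0', hb0] at h1 hA
  have hqQ : (0 : ℚ) < q := by exact_mod_cast hq
  have h2 : ∑ i, (cq i : ℤ) * (a' i - minWt (g i) (wts w y)) ≤
      q * (1 + m - b - ∑ j, wts w y j + minWt f (wts w y)) := by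
    refine h1.trans ?_
    have : (q : ℤ) * (1 + m - b - ∑ j, wts w y j + minWt f (wts w y)) =
      (q - 1) * (1 + m - b - ∑ j, wts w y j + minWt f (wts w y)) +
      (1 + m - b - ∑ j, wts w y j + minWt f (wts w y)) := by ring
    rw [this]
    linarith
  have h3 : (q : ℚ) * ∑ i, c i * ((a' i : ℚ) - minWt (g i) (wts w y)) ≤
      q * (1 + m - b - ∑ j, (wts w y j : ℚ) + minWt f (wts w y)) := by
    have h4 : (q : ℚ) * ∑ i, c i * ((a' i : ℚ) - minWt (g i) (wts w y)) =
        ∑ i, (cq i : ℚ) * ((a' i : ℚ) - minWt (g i) (wts w y)) := by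
      rw [Finset.mul_sum]
      exact Finset.sum_congr rfl fun i _ => by rw [hcq]; ring
    rw [h4]
    exact_mod_cast h2
  exact le_of_mul_le_mul_left h3 hqQ

end Vale.Agent.P283.H108
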