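import Vale.Agent.P283.H108.DefsLoc

/-!
Toric log discrepancies, and finite covers of the closure of the hypersurface in an affine toric
variety.
-/

namespace Vale.Agent.P283.H108

open MvPolynomial Vale.Agent.P283.Q Vale.Agent.P283.Z647

variable {d N M s : ℕ}

/-- The toric log discrepancies are at least `ε`: the log discrepancy `toricDisc` of the pull-back
of `(X', B')` is at least `ε` for all weights `a ≠ 0` in the cone `τ` for which the initial form of
`f` is not a monomial. These are the weights of the toric divisors over the affine toric variety of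
`τ` which meet the closure of the hypersurface. -/
def IsToricallyEpsLC (v : Fin N → Fin (d + 1) → ℤ) (f : MvPolynomial (Fin (d + 1)) ℂ)
    (g : Fin s → MvPolynomial (Fin (d + 1)) ℂ) (c : Fin s → ℚ) (r : ℕ)
    (E : Fin (M + 1) → Fin (d + 1) → ℤ) (ε : ℝ) : Prop :=
  ∀ a : Fin (d + 1) → ℤ, Z647.InCone v a → a ≠ 0 → (inFormZ f a).support.Nontrivial →
    ε ≤ toricDisc f g c r E a

/-- The degree of `L` over `ℂ(y_0, …, y_d)` is at most `J`, and `A` is integral over the ring
`ℂ[y^u : u ∈ τ^∨]`. So, if the monomials `y^u` with `u ∈ τ^∨` are integral over `A`, the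
normalization of `Z = Spec A` in `L` is finite of degree at most `J` over the closure of the image
of the hypersurface in the affine toric variety `Spec ℂ[y^u : u ∈ τ^∨]`. -/
def IsFiniteOverToric (J : ℕ) {K L : Type} [Field K] [Field L] [Algebra ℂ K] [Algebra ℂ L]
    [Algebra K L] (y : Fin (d + 1) → L) (v : Fin N → Fin (d + 1) → ℤ)
    (A : Subalgebra ℂ K) : Prop :=
  Module.finrank (IntermediateField.adjoin ℂ (Set.range y)) L ≤ J ∧
    ∀ a ∈ A, IsIntegral (Algebra.adjoin ℂ {z : L | ∃ u : Fin (d + 1) → ℤ,
      (∀ j, 0 ≤ ∑ k, v j k * u k) ∧ z = ∏ k, y k ^ u k}) (algebraMap K L a)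

end Vale.Agent.P283.H108
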