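import Vale.Agent.P283.H108.DefsEps

/-!
Pairs `(X', B')` with a proper morphism `X' → Z = Spec A` such that a finite cover of `X'` has a
rational map to a hypersurface in a torus, which is log canonical and log Calabi-Yau over it.
-/

namespace Vale.Agent.P283.H108

open MvPolynomial Vale.Agent.P283.Q Vale.Agent.P283.Z647

variable {d p N M s : ℕ}

/-- The piecewise linear function `λ(a) = ∑ a_k - minWt f a - ∑ c_i minWt (g_i) a` on the weights.
So `toricDisc f g c r E a = λ(a) - ordMono E a / r`. -/
noncomputable def tropDisc {m : ℕ} (f : MvPolynomial (Fin m) ℂ) (g : Fin s → MvPolynomial (Fin m) ℂ)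
    (c : Fin s → ℚ) (a : Fin m → ℤ) : ℚ :=
  ∑ k, (a k : ℚ) - minWt f a - ∑ i, c i * minWt (g i) a

/-- `K` is the function field of a variety `X'` of dimension `d` and `L` is an extension of `K` of
degree at most `J`, the function field of a finite cover `Y` of `X'`. The nonzero functions
`y_0, …, y_p` on `Y` define a rational map from `Y` to the hypersurface `{f = 0}` in the torus; it
does not have to be dominant or generically finite. `Z = Spec A` is an affine variety such that the
monomials `y^u` with `u ∈ τ^∨` are regular on the normalization `Z'` of `Z` in `L`, where the cone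
`τ` is spanned by the vectors `v j`. So there is a morphism from `Z'` to the affine toric variety
`Spec ℂ[y^u : u ∈ τ^∨]`.

Over the open subset `{b ≠ 0}` of `Z`, the pair `(Y, Δ)` with `q (K_Y + Δ) = div(G) + q λ` is sub-log
canonical, where the function `λ` (`tropDisc`) is applied to the orders of the coordinates `y_k`:
the log discrepancy of every prime divisor `w` over `Y` whose centre on `Z` is contained in
`{b ≠ 0}` is not negative. Here `K_Y` is the divisor of the pull-back of the rational form `ω` on
`X'` which is given by the derivations `D`; the pull-back is given by the extension `D'` of `D`. -/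
structure IsLcModelOn (J q : ℕ) {K L : Type} [Field K] [Field L] [Algebra ℂ K] [Algebra ℂ L]
    [Algebra K L] (y : Fin (p + 1) → L) (f : MvPolynomial (Fin (p + 1)) ℂ)
    (g : Fin s → MvPolynomial (Fin (p + 1)) ℂ) (c : Fin s → ℚ) (v : Fin N → Fin (p + 1) → ℤ)
    (A : Subalgebra ℂ K) (b : K) (D : Fin d → Derivation ℂ K K) (G : L) : Prop where
  functionField : Algebra.EssFiniteType ℂ K
  dimension : Algebra.trdeg ℂ K = (d : ℕ)
  finite : FiniteDimensional K L
  degree : Module.finrank K L ≤ J
  coordinate : ∀ k, y k ≠ 0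
  equation : aeval y f = 0
  nonzero : f ≠ 0
  nonzero' : ∀ i, g i ≠ 0
  function : G ≠ 0
  finiteType : A.FG
  monomials : ∀ u : Fin (p + 1) → ℤ, (∀ j, 0 ≤ ∑ k, v j k * u k) →
    IsIntegral A (∏ k, y k ^ u k)
  logCanonical : ∀ D' : Fin d → Derivation ℂ L L,
    (∀ (i : Fin d) (z : K), D' i (algebraMap K L z) = algebraMap K L (D i z)) →
    ∀ (w : AddValuation L (WithTop ℤ)) (m l : ℤ) (a : Fin (p + 1) → ℤ), IsDivisorial d w →
      (∀ z ∈ A, 0 ≤ w (algebraMap K L z)) → w (algebraMap K L b) = 0 → FormOrder w D' m →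
      (∀ k, w (y k) = (a k : WithTop ℤ)) → w G = (l : WithTop ℤ) →
        (l : ℚ) / q ≤ 1 + m - tropDisc f g c a

/-- `π'^* (r (K_{X'} + B')) = (r / q) div(G) + F` on the normalization `π' : Y' → X'` of `X'` in
`L`, where the fractional ideal generated by the monomials `y^{E i}` becomes the invertible sheaf
`𝒪_{Y'}(-F)`. So `-q (K_{X'} + B')` is, up to a multiple and the principal divisor of `G`, generated
by monomials over `Z`; `ψ` is the local equation of `r (K_{X'} + B')`. The equality is tested along
every prime divisor `w` over `Y'`, which lies over the prime divisor `u` over `X'` with ramification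
index `e`. -/
def IsGeneratedG (d q : ℕ) {K L : Type} [Field K] [Field L] [Algebra ℂ K] [Algebra ℂ L]
    [Algebra K L] (y : Fin (p + 1) → L) (G : L) (E : Fin (M + 1) → Fin (p + 1) → ℤ)
    (𝒞 : Set (Subalgebra ℂ K)) (r : ℕ) (ψ : Subalgebra ℂ K → K) : Prop :=
  ∀ C ∈ 𝒞, ∀ (u : AddValuation K (WithTop ℤ)) (w : AddValuation L (WithTop ℤ)) (e : ℕ) (k l : ℤ)
    (a : Fin (p + 1) → ℤ), IsDivisorial d u → IsOver C u → 0 < e → (∃ z, w z = 1) →
    (∀ z : K, w (algebraMap K L z) = e • u z) → u (ψ C) = (k : WithTop ℤ) →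
    w G = (l : WithTop ℤ) → (∀ j, w (y j) = (a j : WithTop ℤ)) →
      (e : ℚ) * k = r * ((l : ℚ) / q) + ordMono E a

/-- Every weight `a ≠ 0` of the cone `τ` for which the initial form of `f` is not a monomial is
realized by a log canonical place of `(Y, Δ)` over `Z`, where `q (K_Y + Δ) = div(G) + q λ`: there is
a prime divisor `w` over `Y`, with a centre on `Z`, along which the coordinates `y_j` have the
orders `k a_j`, where `1 ≤ k ≤ J`, and along which the log discrepancy of `(Y, Δ)` is zero. -/
def HasLcPlaces (J q : ℕ) {K L : Type} [Field K] [Field L] [Algebra ℂ K] [Algebra ℂ L]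
    [Algebra K L] (y : Fin (p + 1) → L) (f : MvPolynomial (Fin (p + 1)) ℂ)
    (g : Fin s → MvPolynomial (Fin (p + 1)) ℂ) (c : Fin s → ℚ) (v : Fin N → Fin (p + 1) → ℤ)
    (A : Subalgebra ℂ K) (D : Fin d → Derivation ℂ K K) (G : L) : Prop :=
  ∀ a : Fin (p + 1) → ℤ, Z647.InCone v a → a ≠ 0 → (inFormZ f a).support.Nontrivial →
    ∃ (k : ℕ) (D' : Fin d → Derivation ℂ L L) (w : AddValuation L (WithTop ℤ)) (m l : ℤ),
      0 < k ∧ k ≤ J ∧ (∀ (i : Fin d) (z : K), D' i (algebraMap K L z) = algebraMap K L (D i z)) ∧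
      IsDivisorial d w ∧ (∀ z ∈ A, 0 ≤ w (algebraMap K L z)) ∧ FormOrder w D' m ∧
      (∀ j, w (y j) = ((k * a j : ℤ) : WithTop ℤ)) ∧ w G = (l : WithTop ℤ) ∧
        (l : ℚ) / q = 1 + m - tropDisc f g c fun j => k * a j

end Vale.Agent.P283.H108
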