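import Vale.Agent.P283.H108.DefsLc

/-!
Pairs `(X', B')` with a proper morphism `X' → Z = Spec A` and with a common finite cover with a
hypersurface in a toric variety which is log canonical together with the toric boundary over an open
subset of `Z`; klt complements over an open subset of `Z`.
-/

namespace Vale.Agent.P283.H108

open MvPolynomial Vale.Agent.P283.Q Vale.Agent.P283.Z647

variable {d N s : ℕ}

/-- The irreducible hypersurface `{f = 0}`, together with the toric boundary and
`∑ c_i div(g_i)`, is log canonical over the affine toric variety of the cone `τ` spanned by the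
`v j`, where the rational functions `σ i` are regular. Here
`Ω = (-1)^i dy_0 ∧ ⋯ (without dy_i) ⋯ ∧ dy_d / (∂f / ∂y_i)` is the residue form,
`ω = h • Ω` for the form `ω` given by the derivations `D`, and `w` is a prime divisor over the
hypersurface with `w (σ i) ≥ 0` and with the orders `a k` of the coordinates `y k`, where the vector
`a` lies in `τ`. By adjunction, the log discrepancy of the closure of the hypersurface in a toric
variety, together with the toric boundary, along `w` is `1 + ord_w Ω - ∑ a k + minWt f a`; and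
`w (g_i) - minWt (g_i) a` is the order along `w` of the closure of `{g_i = 0}` in the toric
varieties. -/
def IsToricallyLCOn {t : ℕ} {L : Type} [Field L] [Algebra ℂ L] (y : Fin (d + 1) → L)
    (f : MvPolynomial (Fin (d + 1)) ℂ) (g : Fin s → MvPolynomial (Fin (d + 1)) ℂ) (c : Fin s → ℚ)
    (v : Fin N → Fin (d + 1) → ℤ) (σ : Fin t → L) : Prop :=
  ∀ (D : Fin d → Derivation ℂ L L) (h : L),
    (∀ i : Fin (d + 1), h * jac D (y ∘ i.succAbove) = (-1) ^ (i : ℕ) * aeval y (pderiv i f)) →
    ∀ (w : AddValuation L (WithTop ℤ)) (m b : ℤ) (a : Fin (d + 1) → ℤ) (a' : Fin s → ℤ),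
      IsDivisorial d w → FormOrder w D m → w h = (b : WithTop ℤ) →
      (∀ k, w (y k) = (a k : WithTop ℤ)) → (∀ i, w (aeval y (g i)) = (a' i : WithTop ℤ)) →
      Z647.InCone v a → (∀ i, 0 ≤ w (σ i)) →
        ∑ i, c i * (a' i - minWt (g i) a) ≤ 1 + m - b - ∑ k, (a k : ℚ) + minWt f a

/-- The varieties `X' → Z = Spec A` with the function field `K ⊇ A` and the irreducible
hypersurface `V = {f = 0}` in the torus with the coordinates `y_k`: `L` is a finite extension of the
function field `ℂ(y_0, …, y_d)` of `V`, of any degree, and a finite extension of `K` of degree at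
most `J`. So the normalization `Y'` of `X'` in `L` is finite of degree at most `J` over `X'` and
generically finite over `V`. The cone `τ` is spanned by the vectors `v j`; the monomials `y^u` with
`u ∈ τ^∨` are regular on the normalization `Z'` of `Z` in `L`. So there is a morphism from `Z'` to
the affine toric variety `Spec ℂ[y^u : u ∈ τ^∨]`. The cone `τ` may contain lines; it is the whole
space if `Z` is a point.

Over the open subset `{b ≠ 0}` of `Z`, the hypersurface `V`, which may be degenerate, is log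
canonical together with the toric boundary and `∑ c_i div(g_i)`: there are rational functions `σ i`
on `V` which are regular on the preimage of `{b ≠ 0}` in `Z'`, such that this holds where the
`σ i` are regular. -/
structure IsLcCorrOn (J : ℕ) {K L : Type} [Field K] [Field L] [Algebra ℂ K] [Algebra ℂ L]
    [Algebra K L] (y : Fin (d + 1) → L) (f : MvPolynomial (Fin (d + 1)) ℂ)
    (g : Fin s → MvPolynomial (Fin (d + 1)) ℂ) (c : Fin s → ℚ) (v : Fin N → Fin (d + 1) → ℤ)
    (A : Subalgebra ℂ K) (b : K) : Prop where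
  finite : FiniteDimensional K L
  degree : Module.finrank K L ≤ J
  finiteDim : FiniteDimensional (IntermediateField.adjoin ℂ (Set.range y)) L
  equation : ∀ P : MvPolynomial (Fin (d + 1)) ℂ, aeval y P = 0 ↔ f ∣ P
  nonzero : f ≠ 0
  coordinate : ∀ k, y k ≠ 0
  divisor : ∀ i, aeval y (g i) ≠ 0
  monomials : ∀ u : Fin (d + 1) → ℤ, (∀ j, 0 ≤ ∑ k, v j k * u k) →
    IsIntegral A (∏ k, y k ^ u k)
  toricallyLC : ∃ (t : ℕ) (σ : Fin t → L), (∀ i, σ i ∈ IntermediateField.adjoin ℂ (Set.range y)) ∧
    (∀ w : AddValuation L (WithTop ℤ), IsDivisorial d w → (∀ a ∈ A, 0 ≤ w (algebraMap K L a)) →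
      w (algebraMap K L b) = 0 → ∀ i, 0 ≤ w (σ i)) ∧ IsToricallyLCOn y f g c v σ

/-- The multiplicities of `∑ c_i div(g_i)` along the initial hypersurface `{in_a f = 0}` are small at
its point `ξ`. There is a set `S` of indices such that the gradients of the initial forms of `f` and
of the `g_i` with `i ∈ S` are linearly independent at `ξ`; for the other indices with `c_i ≠ 0`, the
restriction of the initial form of `g_i` to the smooth hypersurface `{in_a f = 0}` has multiplicity
at most `μ i` at `ξ`, that is, it does not lie in the power `μ i + 1` of the maximal ideal of the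
point; and `β + ∑_{i ∉ S} c_i μ_i < 1`, where `β ≥ 0` and `c_i ≤ β` for `i ∈ S`. -/
def SmallMultAt (f : MvPolynomial (Fin N) ℂ) (g : Fin s → MvPolynomial (Fin N) ℂ) (c : Fin s → ℚ)
    (a : Fin N → ℤ) (ξ : Fin N → ℂ) : Prop :=
  ∃ (S : Finset (Fin s)) (μ : Fin s → ℕ) (β : ℚ),
    (∀ (t₀ : ℂ) (t : Fin s → ℂ), (∀ k, t₀ * eval ξ (pderiv k (inFormZ f a)) +
      ∑ i ∈ S, t i * eval ξ (pderiv k (inFormZ (g i) a)) = 0) → t₀ = 0 ∧ ∀ i ∈ S, t i = 0) ∧
    (∀ i ∉ S, c i ≠ 0 → inFormZ (g i) a ∉
      RingHom.ker (eval ξ) ^ (μ i + 1) ⊔ Ideal.span {inFormZ f a}) ∧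
    0 ≤ β ∧ (∀ i ∈ S, c i ≤ β) ∧ β + ∑ i ∈ Sᶜ, c i * μ i < 1

/-- The multiplicities are small (`SmallMultAt`) at all zeros `ξ` in the torus of the initial forms
of `f` for the weights `a` in the cone `τ`, at which the Laurent polynomial `P · y^u` does not
vanish: its terms of weight `0` for `a` are the terms of least weight, and they do not vanish
at `ξ`. -/
def SmallMultOn {M : ℕ} (v : Fin N → Fin M → ℤ) (f : MvPolynomial (Fin M) ℂ)
    (g : Fin s → MvPolynomial (Fin M) ℂ) (c : Fin s → ℚ) (P : MvPolynomial (Fin M) ℂ)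
    (u : Fin M → ℤ) : Prop :=
  ∀ a : Fin M → ℤ, Z647.InCone v a → minWt P a + ∑ k, a k * u k = 0 → ∀ ξ : Fin M → ℂ,
    (∀ k, ξ k ≠ 0) → eval ξ (inFormZ f a) = 0 → eval ξ (inFormZ P a) ≠ 0 → SmallMultAt f g c a ξ

/-- `(X', B')` has a klt `n`-complement over all closed points of the open subset `{b ≠ 0}` of `Z`:
there is a rational function `φ` such that, over `{b ≠ 0}`, the `ℚ`-divisor `Λ` on `X'` with
`n (K_{X'} + Λ) = div φ` satisfies `Λ ≥ 0` and `Λ ≥ B'`, and `(X', Λ)` is klt. The coefficient of
`Λ` along the prime divisor `u` is `u(φ) / n - ord_u ω`, and the log discrepancy of `(X', Λ)` along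
a prime divisor `v` over `X'` is `1 + ord_v ω - v(φ) / n`. For `b = 1` this is
`HasGlobalKltComplement`. -/
def HasKltComplementOn {K : Type} [Field K] [Algebra ℂ K] (D : Fin d → Derivation ℂ K K)
    (𝒞 : Set (Subalgebra ℂ K)) (B : ∀ C : Subalgebra ℂ K, QDivisor C) (n : ℕ) (b : K) : Prop :=
  ∃ φ : K, φ ≠ 0 ∧ ∀ C ∈ 𝒞,
    (∀ (u : AddValuation K (WithTop ℤ)) (p : Ideal C) (m k : ℤ),
      IsPrimeDivisorOn C d u p → u b = 0 → FormOrder u D m → u φ = (k : WithTop ℤ) →
        0 ≤ (k : ℚ) / n - m ∧ (B C).coeff p ≤ (k : ℚ) / n - m) ∧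
    ∀ (v : AddValuation K (WithTop ℤ)) (m k : ℤ), IsDivisorial d v → IsOver C v → v b = 0 →
      FormOrder v D m → v φ = (k : WithTop ℤ) → 0 < 1 + (m : ℚ) - (k : ℚ) / n

end Vale.Agent.P283.H108
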