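import Vale.Agent.P283.Bdl.B1

/-!
Extensions of a discrete valuation with a pole of a given function.
-/

set_option linter.all false

namespace Vale.Agent.P283.H108

open WithZero

theorem exists_extension_pole {K L : Type} [Field K] [Field L] [Algebra K L]
    [FiniteDimensional K L] [CharZero K] (v : AddValuation K (WithTop ℤ)) (hv : ∃ f, v f = 1)
    (z : L) (hz : ∀ p : Polynomial K, p.Monic → (∀ i, 0 ≤ v (p.coeff i)) →
      Polynomial.aeval z p ≠ 0) :
    ∃ (w : AddValuation L (WithTop ℤ)) (e : ℕ), 0 < e ∧ (∃ f, w f = 1) ∧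
      (∀ f : K, w (algebraMap K L f) = e • v f) ∧ w z < 0 := by
  classical
  have hdvr : IsDiscreteValuationRing (vRing v) := vRing_dvr v hv
  obtain ⟨t, ht⟩ := hv
  have ht0 : t ≠ 0 := ne_zero_of_eq v (n := 1) (by simpa using ht)
  have hto : ov v t = 1 := ov_eq_of v (n := 1) (by simpa using ht)
  let _ : Algebra (vRing v) L := ((algebraMap K L).comp (algebraMap (vRing v) K)).toAlgebra
  have _ : IsScalarTower (vRing v) K L := IsScalarTower.of_algebraMap_eq fun x => rfl
  let C := integralClosure (vRing v) L
  have hded : IsDedekindDomain C := integralClosure.isDedekindDomain (vRing v) K L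
  have hfrac : IsFractionRing C L := integralClosure.isFractionRing_of_finite_extension K L
  have hint : Algebra.IsIntegral (vRing v) C := integralClosure.AlgebraIsIntegral
  have hzC : z ∉ (algebraMap C L).range := by
    rintro ⟨c, hc⟩
    have h1 : IsIntegral (vRing v) z := by
      rw [← hc]; exact c.2
    obtain ⟨p, hp, hpz⟩ := h1
    refine hz (p.map (algebraMap (vRing v) K)) (hp.map _) (fun i => ?_) ?_
    · rw [Polynomial.coeff_map]
      exact (p.coeff i).2
    · rw [Polynomial.aeval_map_algebraMap]
      exact hpz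
  obtain ⟨Q, hQz⟩ : ∃ Q : IsDedekindDomain.HeightOneSpectrum C, 1 < Q.valuation L z := by
    by_contra hno
    push Not at hno
    exact hzC (IsDedekindDomain.HeightOneSpectrum.mem_integers_of_valuation_le_one L z hno)
  set P : Ideal C := Q.asIdeal with hPdef
  have hP : P.IsMaximal := Q.isMaximal
  have hPA : (P.comap (algebraMap (vRing v) C)).IsMaximal :=
    Ideal.isMaximal_comap_of_isIntegral_of_isMaximal P
  have hPA' : P.comap (algebraMap (vRing v) C) = IsLocalRing.maximalIdeal (vRing v) :=
    IsLocalRing.eq_maximalIdeal hPA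
  let T : vRing v := ⟨t, by rw [mem_vRing, ht]; exact zero_le_one⟩
  have hTP : algebraMap (vRing v) C T ∈ P := by
    have h1 : T ∈ IsLocalRing.maximalIdeal (vRing v) := by
      rw [IsLocalRing.mem_maximalIdeal, mem_nonunits_iff, isUnit_vRing_iff]
      show ¬ v t = 0
      rw [ht]; exact one_ne_zero
    rw [← hPA'] at h1
    exact h1
  have hTL : ∀ x : vRing v, algebraMap C L (algebraMap (vRing v) C x) = algebraMap K L x :=
    fun x => rfl
  let w := addOf (Q.valuation L)
  have htL : algebraMap K L t ≠ 0 := (map_ne_zero _).mpr ht0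
  have hlt : Q.valuation L (algebraMap K L t) < 1 := by
    have h1 : Q.valuation L (algebraMap C L (algebraMap (vRing v) C T)) < 1 :=
      (Q.valuation_lt_one_iff_mem _).mpr hTP
    rwa [hTL] at h1
  have hQt : Q.valuation L (algebraMap K L t) ≠ 0 := (Valuation.ne_zero_iff _).mpr htL
  have hpos : 0 < -(log (Q.valuation L (algebraMap K L t))) := by
    have h1 : log (Q.valuation L (algebraMap K L t)) < log (1 : ℤᵐ⁰) :=
      (log_lt_log hQt one_ne_zero).mpr hlt
    rw [log_one] at h1
    omega
  obtain ⟨e, he⟩ := Int.eq_ofNat_of_zero_le hpos.le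
  have he' : ov w (algebraMap K L t) = e := by
    refine ov_eq_of w ?_
    rw [addOf_apply _ htL, he]
  have hunit : ∀ x : K, v x = 0 → w (algebraMap K L x) = 0 := by
    intro x hx
    have hx0 : x ≠ 0 := ne_zero_of_val_zero v hx
    let X : vRing v := ⟨x, hx.ge⟩
    have hXu : IsUnit X := (isUnit_vRing_iff v X).mpr hx
    have hXP : algebraMap (vRing v) C X ∉ P := by
      intro h
      have h1 : X ∈ P.comap (algebraMap (vRing v) C) := h
      rw [hPA'] at h1
      exact (IsLocalRing.mem_maximalIdeal _).mp h1 hXu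
    have h1 : Q.valuation L (algebraMap C L (algebraMap (vRing v) C X)) = 1 :=
      (Q.valuation_eq_one_iff_notMem (K := L)).mpr hXP
    rw [hTL] at h1
    rw [addOf_apply _ ((map_ne_zero _).mpr hx0)]
    show (((-(log (Q.valuation L (algebraMap K L X))) : ℤ)) : WithTop ℤ) = 0
    rw [h1, log_one]
    rfl
  refine ⟨w, e, ?_, ?_, ?_, ?_⟩
  · have : (0 : ℤ) < e := by rw [← he]; exact hpos
    exact_mod_cast this
  · obtain ⟨π, hπ⟩ := Q.valuation_exists_uniformizer L
    have hπ0 : π ≠ 0 := by
      intro h
      rw [h, map_zero] at hπ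
      exact (exp_ne_zero hπ.symm).elim
    refine ⟨π, ?_⟩
    rw [addOf_apply _ hπ0, hπ, log_exp]
    rfl
  · intro f
    by_cases hf : f = 0
    · subst hf
      rw [map_zero, AddValuation.map_zero, AddValuation.map_zero]
      have : (e : ℕ) ≠ 0 := by
        intro h0
        rw [h0] at he
        have := hpos
        rw [he] at this
        exact lt_irrefl _ this
      obtain ⟨e', rfl⟩ := Nat.exists_eq_succ_of_ne_zero this
      rw [succ_nsmul]; simp
    · have hfL : algebraMap K L f ≠ 0 := (map_ne_zero _).mpr hf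
      have hu : v (f / t ^ ov v f) = 0 := by
        rw [eq_zero_iff v (div_ne_zero hf (zpow_ne_zero _ ht0)), ov_div v hf (zpow_ne_zero _ ht0),
          ov_zpow v ht0, hto]
        ring
      have hu' := hunit _ hu
      have hne : algebraMap K L (f / t ^ ov v f) ≠ 0 :=
        (map_ne_zero _).mpr (div_ne_zero hf (zpow_ne_zero _ ht0))
      rw [eq_zero_iff w hne, map_div₀, map_zpow₀, ov_div w hfL (zpow_ne_zero _ htL),
        ov_zpow w htL, he'] at hu'
      rw [← coe_ov w hfL, ← coe_ov v hf, ← WithTop.coe_nsmul, WithTop.coe_inj, nsmul_eq_mul]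
      linarith only [hu']
  · have hz0 : z ≠ 0 := by
      rintro rfl
      rw [map_zero] at hQz
      exact absurd hQz (not_lt.2 zero_le_one)
    rw [addOf_apply _ hz0]
    have h1 : log (1 : ℤᵐ⁰) < log (Q.valuation L z) :=
      (log_lt_log one_ne_zero ((Valuation.ne_zero_iff _).mpr hz0)).mpr hQz
    rw [log_one] at h1
    exact_mod_cast (by omega : -(log (Q.valuation L z)) < 0)

end Vale.Agent.P283.H108
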