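import Vale.Agent.P283.H108.FibMain

/-!
Bounded klt complements for pairs with a Galois cover with a rational map to a hypersurface in a
torus: the complement.
-/

set_option linter.all false

namespace Vale.Agent.P283.H108

open MvPolynomial Finset
open Vale.Agent.P283.Z647
open Vale.Agent.P283.H647 (ResForm HypData order_exists order_unique order_transfer exists_ext
  isAlgebraic_of_fix toE toE_apply exists_shift ov_algebraMap)

section Pair

variable {J q d p N s M : ℕ} {K L : Type} [Field K] [Field L] [Algebra ℂ K] [Algebra ℂ L]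
  [Algebra K L] [IsScalarTower ℂ K L] {y : Fin (p + 1) → L} {f : MvPolynomial (Fin (p + 1)) ℂ}
  {g : Fin s → MvPolynomial (Fin (p + 1)) ℂ} {c : Fin s → ℚ} {v : Fin N → Fin (p + 1) → ℤ}
  {A : Subalgebra ℂ K} {b : K} {D : Fin d → Derivation ℂ K K} {G : L}

theorem IsLcModelOn.ess (H : IsLcModelOn J q y f g c v A b D G) : Algebra.EssFiniteType ℂ L := by
  haveI := H.functionField
  haveI := H.finite
  exact Algebra.EssFiniteType.comp ℂ K L

theorem IsLcModelOn.trdegL (H : IsLcModelOn J q y f g c v A b D G) :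
    Algebra.trdeg ℂ L = (d : ℕ) := by
  haveI := H.finite
  haveI : Algebra.IsAlgebraic K L := Algebra.IsAlgebraic.of_finite K L
  rw [← gen_trdeg (inferInstance : Algebra.IsAlgebraic K L)]
  exact H.dimension

theorem IsLcModelOn.inCone (H : IsLcModelOn J q y f g c v A b D G)
    {w : AddValuation L (WithTop ℤ)} (hA : ∀ a ∈ A, 0 ≤ w (algebraMap K L a)) :
    Z647.InCone v (wts w y) := by
  apply cone_dual
  intro u hu
  have h1 := nonneg_of_integral hA (H.monomials u hu)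
  have h2 : (∏ k, y k ^ u k) = monoT y u := rfl
  rw [h2, ← coe_ov w (monoT_ne_zero H.coordinate u), H647.ov_monoT w H.coordinate] at h1
  have h3 : 0 ≤ ∑ j, u j * ov w (y j) := by exact_mod_cast h1
  refine le_trans h3 (le_of_eq (Finset.sum_congr rfl fun j _ => ?_))
  unfold wts; ring

variable {D' : Fin d → Derivation ℂ L L}
  (hD' : ∀ (i : Fin d) (g : K), D' i (algebraMap K L g) = algebraMap K L (D i g))
  {𝒞 : Set (Subalgebra ℂ K)} {B : ∀ C : Subalgebra ℂ K, Q.QDivisor C} {r : ℕ}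
  {ψ : Subalgebra ℂ K → K} (hP : H207.IsPair D A 𝒞 B r ψ)
  {E : Fin (M + 1) → Fin (p + 1) → ℤ}
  (hgen : IsGeneratedG d q y G E 𝒞 r ψ)
include hD' hP hgen

theorem lcG (H : IsLcModelOn J q y f g c v A b D G) (hd : 0 < d) (hD : ∃ z, Q.jac D z ≠ 0) {ε : ℝ}
    (hε : 0 < ε) (hlc : ∀ C ∈ 𝒞, Q.IsEpsLC D (B C) ε) {w : AddValuation L (WithTop ℤ)} {m' : ℤ}
    (hw : Q.IsDivisorial d w) (hA : ∀ a ∈ A, 0 ≤ w (algebraMap K L a))
    (hm' : Q.FormOrder w D' m') : ε ≤ 1 + m' - (ov w G : ℝ) / q -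
      (ordMono E (wts w y) : ℝ) / r := by
  haveI := H.finite
  haveI : Algebra.IsAlgebraic K L := Algebra.IsAlgebraic.of_finite K L
  haveI := H.ess
  haveI := H.functionField
  obtain ⟨u, e, he, hu', huw⟩ := exists_restriction (K := K) d w (divisorial_iff.1 hw)
  have hu : Q.IsDivisorial d u := divisorial_iff.2 hu'
  obtain ⟨m, hm⟩ := order_exists hd H.dimension D hD hu
  have htr := order_transfer hd H.dimension H.trdegL hD hD' hu hw.normalized he huw hm hm'
  have hover : Q.IsOver A u := by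
    intro a
    have h1 := hA a a.2
    rw [huw] at h1
    exact nonneg_of_nsmul he h1
  obtain ⟨C, hC, hoverC⟩ := hP.proper u hu hover
  have hcart := hP.cartier C hC
  have hr : 0 < r := hcart.1
  have hψ : ψ C ≠ 0 := hcart.2.1
  have h1 := (hlc C hC).2 u (centreIdeal C u hoverC) r (ψ C) m (ov u (ψ C)) hu hoverC
    (fun _ => Iff.rfl) ⟨hr, hψ, fun u' p m k h1 _ h3 h4 => hcart.2.2 u' p m k h1 le_top h3 h4⟩
    hm (coe_ov u hψ).symm
  have h2 := hgen C hC u w e (ov u (ψ C)) (ov w G) (wts w y) hu hoverC he hw.normalized huw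
    (coe_ov u hψ).symm (coe_ov w H.function).symm (fun k => (coe_ov w (H.coordinate k)).symm)
  have heR : (1 : ℝ) ≤ e := by exact_mod_cast he
  have hrR : (0 : ℝ) < r := by exact_mod_cast hr
  have h3 : (e : ℝ) * ov u (ψ C) = r * ((ov w G : ℝ) / q) + ordMono E (wts w y) := by
    have := congrArg (Rat.cast : ℚ → ℝ) h2
    push_cast at this
    exact this
  have h4 : (1 : ℝ) + m' = e * (1 + m) := by exact_mod_cast htr
  have h5 : (e : ℝ) * ε ≤ e * (1 + (m : ℝ) - (ov u (ψ C) : ℝ) / r) :=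
    mul_le_mul_of_nonneg_left h1 (by linarith)
  have h6 : (e : ℝ) * (1 + (m : ℝ) - (ov u (ψ C) : ℝ) / r) =
      1 + m' - (ov w G : ℝ) / q - (ordMono E (wts w y) : ℝ) / r := by
    have h7 : (e : ℝ) * ((ov u (ψ C) : ℝ) / r) =
        (ov w G : ℝ) / q + (ordMono E (wts w y) : ℝ) / r := by
      rw [← mul_div_assoc, h3]
      field_simp
    rw [mul_sub, h7, ← h4]; ring
  rw [h6] at h5
  have h7 : ε ≤ e * ε := by nlinarith
  linarith

end Pair

theorem goal_pos {k q m' wG wS mS Λa sa : ℤ} (hk : 2 ≤ k) (hq : 1 ≤ q) (h0 : mS ≤ wS)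
    (hb : wG + q * (wS - mS) ≤ q * (1 + m') + Λa) (hlt : mS - sa < -(k * Λa)) :
    k * wG + wS - sa < k * q * (1 + m') := by
  have hkq : 2 ≤ k * q := by nlinarith
  have hX : 0 ≤ wS - mS := by linarith
  have h1 : wS - mS ≤ (k * q) * (wS - mS) := by nlinarith
  have h2 := mul_le_mul_of_nonneg_left hb (by linarith : (0 : ℤ) ≤ k)
  have h3 : k * (wG + q * (wS - mS)) = k * wG + (k * q) * (wS - mS) := by ring
  have h4 : k * (q * (1 + m') + Λa) = k * q * (1 + m') + k * Λa := by ring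
  rw [h3, h4] at h2
  linarith

theorem lt_of_div {q : ℕ} (hq : 0 < q) {δ : ℝ} (hδ : 0 < δ) {l m' : ℤ}
    {r' : ℕ} (h : δ ≤ 1 + m' - (l : ℝ) / q - ((0 : ℤ) : ℝ) / r') : l < q * (1 + m') := by
  have hqR : (0 : ℝ) < q := by exact_mod_cast hq
  have h3 : (l : ℝ) / q < 1 + m' := by
    simp only [Int.cast_zero, zero_div, sub_zero] at h
    linarith
  rw [div_lt_iff₀ hqR] at h3
  have h5 : (l : ℝ) < q * (1 + m') := by linarith
  exact_mod_cast h5

theorem goal_zero {k q m' wG wS : ℤ} (hk : 2 ≤ k) (hq : 1 ≤ q) (h0 : 0 ≤ wS)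
    (hb : wG + q * wS ≤ q * (1 + m')) (hs : wG < q * (1 + m')) :
    k * wG + wS < k * q * (1 + m') := by
  have hkq : 2 ≤ k * q := by nlinarith
  have h2 := mul_le_mul_of_nonneg_left hb (by linarith : (0 : ℤ) ≤ k)
  have h3 : k * (wG + q * wS) = k * wG + (k * q) * wS := by ring
  have h4 : k * (q * (1 + m')) = k * q * (1 + m') := by ring
  have h5 := mul_lt_mul_of_pos_left hs (by linarith : (0 : ℤ) < k)
  rw [h3, h4] at h2
  rw [h4] at h5
  rcases eq_or_lt_of_le h0 with h | h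
  · rw [← h]; linarith
  · have h6 : wS < (k * q) * wS := by nlinarith
    linarith

theorem coreG (p : ℕ) (hp : 0 < p) (J q : ℕ) (hq : 0 < q) (ε : ℝ) (hε : 0 < ε) :
    ∃ c₀ : ℕ, 0 < c₀ ∧ ∀ n : ℕ, 0 < n → c₀ ∣ n →
    ∀ (K L : Type) [Field K] [Field L] [Algebra ℂ K] [Algebra ℂ L] [Algebra K L]
      [IsScalarTower ℂ K L] (J' d s M N : ℕ) (hd : 0 < d) (y : Fin (p + 1) → L)
      (f : MvPolynomial (Fin (p + 1)) ℂ)
      (g : Fin s → MvPolynomial (Fin (p + 1)) ℂ) (c : Fin s → ℚ) (v : Fin N → Fin (p + 1) → ℤ)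
      (A : Subalgebra ℂ K) (b₀ : K) (D : Fin d → Derivation ℂ K K) (G : L)
      (Γ : Subgroup (L ≃ₐ[ℂ] L)) (hΓ : Finite Γ) (hcard : Nat.card Γ ≤ J)
      (hfield : ∀ z : L, z ∈ Set.range (algebraMap K L) ↔ ∀ τ ∈ Γ, τ z = z),
      IsLcModelOn J' q y f g c v A b₀ D G →
      (∀ i, 0 ≤ c i ∧ ∃ z : ℤ, (q : ℚ) * c i = z) → (∃ z, Q.jac D z ≠ 0) →
    ∀ (𝒞 : Set (Subalgebra ℂ K)) (B : ∀ C : Subalgebra ℂ K, Q.QDivisor C) (r : ℕ)
      (ψ : Subalgebra ℂ K → K), H207.IsPair D A 𝒞 B r ψ →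
    ∀ (E : Fin (M + 1) → Fin (p + 1) → ℤ), IsGeneratedG d q y G E 𝒞 r ψ →
      IsSubdivision v E →
      (∀ j, 0 ≤ toricDisc f g c r E (v j) ∧ toricDisc f g c r E (v j) ≤ 1 ∧
        ∃ z : ℤ, (q : ℚ) * toricDisc f g c r E (v j) = z) →
      (∃ δ : ℝ, 0 < δ ∧ ∀ C ∈ 𝒞, Q.IsEpsLC D (B C) δ) → PsiBound v f g c r E ε →
      HasKltComplementOn D 𝒞 B n b₀ := by
  classical
  obtain ⟨e, rfl⟩ : ∃ e, p = e + 1 := ⟨p - 1, by omega⟩
  obtain ⟨k₀, hk₀, hmain⟩ := exists_exposT e q hq hε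
  have hJ : 0 < J.factorial := J.factorial_pos
  refine ⟨2 * k₀ * q * J.factorial, by positivity, ?_⟩
  rintro n hn ⟨t₁, rfl⟩ K L _ _ _ _ _ _ J' d s M N hd y f g c v A b₀ D G Γ hΓ hcard hfield H hc hD
    𝒞 B r ψ hP E hgen hsub hdisc ⟨δ, hδ, hlc⟩ hpsi
  by_cases hb0 : b₀ = 0
  · refine ⟨1, one_ne_zero, fun C hC => ⟨?_, ?_⟩⟩
    · intro u p m k' _ hub
      rw [hb0, AddValuation.map_zero] at hub
      exact absurd hub (by simp)
    · intro u m k' _ _ hub
      rw [hb0, AddValuation.map_zero] at hub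
      exact absurd hub (by simp)
  have ht : 0 < t₁ := by
    rcases Nat.eq_zero_or_pos t₁ with h | h
    · rw [h, mul_zero] at hn
      exact absurd hn (lt_irrefl 0)
    · exact h
  set k : ℕ := 2 * k₀ * t₁ with hk
  have hk0 : 0 < k := by positivity
  have hk2 : 2 ≤ k := by
    have : 1 ≤ k₀ * t₁ := Nat.mul_pos hk₀ ht
    have h2 : k = 2 * (k₀ * t₁) := by rw [hk]; ring
    omega
  have hkd : k₀ ∣ k := ⟨2 * t₁, by rw [hk]; ring⟩
  have hnn : 2 * k₀ * q * J.factorial * t₁ = k * q * J.factorial := by rw [hk]; ring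
  rw [hnn]
  have hqQ : (0 : ℚ) < q := by exact_mod_cast hq
  have hqZ : (1 : ℤ) ≤ q := by exact_mod_cast hq
  have hkZ : (2 : ℤ) ≤ k := by exact_mod_cast hk2
  -- the coefficients
  have hcqex : ∀ i, ∃ cq : ℕ, (cq : ℚ) = q * c i := by
    intro i
    obtain ⟨h1, z, hz⟩ := hc i
    have hz0 : 0 ≤ z := by
      have h3 : (0 : ℚ) ≤ z := by rw [← hz]; exact mul_nonneg hqQ.le h1
      exact_mod_cast h3
    refine ⟨z.toNat, ?_⟩
    rw [hz]
    have : ((z.toNat : ℤ) : ℚ) = z := by rw [Int.toNat_of_nonneg hz0]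
    rw [← this, Int.cast_natCast]
  choose cq hcq using hcqex
  have hκex : ∀ j, ∃ κ : ℕ, (κ : ℚ) = q * toricDisc f g c r E (v j) ∧ κ ≤ q := by
    intro j
    obtain ⟨h1, h2, z, hz⟩ := hdisc j
    have hz0 : 0 ≤ z := by
      have h3 : (0 : ℚ) ≤ z := by rw [← hz]; exact mul_nonneg hqQ.le h1
      exact_mod_cast h3
    refine ⟨z.toNat, ?_, ?_⟩
    · rw [hz]
      have : ((z.toNat : ℤ) : ℚ) = z := by rw [Int.toNat_of_nonneg hz0]
      rw [← this, Int.cast_natCast]
    · have h3 : (z : ℚ) ≤ q := by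
        rw [← hz]
        calc (q : ℚ) * toricDisc f g c r E (v j) ≤ q * 1 := mul_le_mul_of_nonneg_left h2 hqQ.le
          _ = q := mul_one _
      have h4 : z ≤ q := by exact_mod_cast h3
      omega
  choose κ hκ hκq using hκex
  -- the form upstairs
  haveI := H.finite
  haveI : Algebra.IsAlgebraic K L := Algebra.IsAlgebraic.of_finite K L
  haveI := H.ess
  haveI := H.functionField
  haveI : CharZero K := charZero_of_injective_algebraMap (algebraMap ℂ K).injective
  obtain ⟨D', hD'⟩ := exists_ext (K := K) (L := L) H.trdegL D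
  have hj : ∃ g, Q.jac D' g ≠ 0 := by
    obtain ⟨g, hg⟩ := hD
    exact ⟨_, by rw [H647.jac_map hD']; exact (map_ne_zero _).2 hg⟩
  by_cases hne : 𝒞.Nonempty
  swap
  · refine ⟨1, one_ne_zero, fun C hC => absurd ⟨C, hC⟩ hne⟩
  obtain ⟨C₀, hC₀⟩ := hne
  have hr : 0 < r := (hP.cartier C₀ hC₀).1
  have hrQ : (0 : ℚ) < r := by exact_mod_cast hr
  -- a model of the function field and the functions to be fixed
  obtain ⟨e', rfl⟩ : ∃ e', d = e' + 1 := ⟨d - 1, by omega⟩
  obtain ⟨x, F, HX⟩ := exists_model H.trdegL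
  obtain ⟨h, R⟩ := HX.exists_resForm hj
  obtain ⟨t, sg, hsg⟩ := exists_sigma (L := L) H.finiteType hb0
  let I := Option (Option (Fin (e + 2) ⊕ Fin t))
  let zz : I → L := fun o => o.elim h fun o => o.elim G fun o => Sum.elim y sg o
  obtain ⟨gx, hgx⟩ := exists_fixes HX (fun i => zz ((Fintype.equivFin I).symm i))
  have hfix : ∀ o : I, Fixes x gx (zz o) := by
    intro o
    have h1 := hgx (Fintype.equivFin I o)
    rwa [Equiv.symm_apply_apply] at h1
  have hhF : Fixes x gx h := hfix none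
  have hGF : Fixes x gx G := hfix (some none)
  have hyF : ∀ k, Fixes x gx (y k) := fun k => hfix (some (some (Sum.inl k)))
  have hsgF : ∀ i, Fixes x gx (sg i) := fun i => hfix (some (some (Sum.inr i)))
  -- the piecewise linear function
  let Λ : (Fin (e + 2) → ℤ) → ℤ := fun a =>
    -(q * ∑ k, a k) + q * minWt f a + ∑ i, cq i * minWt (g i) a
  have hΛ : ∀ (β : ℕ) (a a' : Fin (e + 2) → ℤ), (∀ k, (β : ℤ) * a' k = a k) →
      Λ a = β * Λ a' := by
    intro β a a' haa
    simp only [Λ]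
    rw [minWt_smul H.nonzero a' a β haa]
    have h1 : ∑ k, a k = β * ∑ k, a' k := by
      rw [Finset.mul_sum]
      exact Finset.sum_congr rfl fun k _ => (haa k).symm
    have h2 : ∑ i, (cq i : ℤ) * minWt (g i) a = β * ∑ i, (cq i : ℤ) * minWt (g i) a' := by
      rw [Finset.mul_sum]
      refine Finset.sum_congr rfl fun i _ => ?_
      rw [minWt_smul (H.nonzero' i) a' a β haa]; ring
    rw [h1, h2]; ring
  have hΛ0 : Λ 0 = 0 := by
    simp only [Λ, minWt_zero H.nonzero, minWt_zero (H.nonzero' _), Pi.zero_apply,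
      Finset.sum_const_zero, mul_zero, neg_zero, add_zero]
  have hΛq : ∀ a, (q : ℚ) * tropDisc f g c a = -(Λ a : ℚ) := by
    intro a
    simp only [Λ]
    unfold tropDisc
    push_cast
    have h2 : ∑ i, (cq i : ℚ) * (minWt (g i) a : ℚ) = q * ∑ i, c i * minWt (g i) a := by
      rw [Finset.mul_sum]
      exact Finset.sum_congr rfl fun i _ => by rw [hcq]; ring
    rw [h2]; ring
  have hΛk : ∀ a, (k : ℤ) * (q * (∑ i, a i - minWt f a) - ∑ i, cq i * minWt (g i) a) =
      -(k * Λ a) := by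
    intro a
    simp only [Λ]
    ring
  have hlcX : ∀ (w : AddValuation L (WithTop ℤ)) (m : ℤ), Q.IsDivisorial (e' + 1) w →
      (∀ i, 0 ≤ w (sg i)) → Q.FormOrder w D' m → ov w G ≤ q * (1 + m) + Λ (wts w y) := by
    intro w m hw hsw hm
    obtain ⟨hA, hb⟩ := (hsg w hw.const).1 hsw
    have h1 := H.logCanonical D' hD' w m (ov w G) (wts w y) hw hA hb hm
      (fun k => (coe_ov w (H.coordinate k)).symm) (coe_ov w H.function).symm
    rw [div_le_iff₀ hqQ] at h1
    have h2 : (1 + (m : ℚ) - tropDisc f g c (wts w y)) * q = q * (1 + m) + Λ (wts w y) := by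
      have := hΛq (wts w y)
      linear_combination -this
    rw [h2] at h1
    exact_mod_cast h1
  obtain ⟨Ee, hEe, hE1, hE2⟩ := hmain f g v H.nonzero H.nonzero' c cq hcq r hr E hsub κ hκ hκq
    hpsi k hkd hk0
  obtain ⟨σ, -, hσ⟩ := exists_shift Ee (fun γ => γ)
  obtain ⟨S, hS1, hSg⟩ := exists_genS (coeffs F gx) (Ee.image fun γ => toE (σ + γ))
  have hS0 : S ≠ 0 := by
    intro h0
    rw [h0, support_zero] at hS1
    exact (hEe.image _).ne_empty hS1.symm
  have hwt : ∀ a, ∀ γ ∈ Ee, wtZ a (toE (σ + γ)) - ∑ i, σ i * a i = ∑ i, γ i * a i := by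
    intro a γ hγ
    unfold wtZ
    rw [← Finset.sum_sub_distrib]
    refine Finset.sum_congr rfl fun i _ => ?_
    rw [toE_apply (hσ γ hγ) i, Pi.add_apply]; ring
  have hxS : aeval y S ≠ 0 := genS_aeval_ne HX H.coordinate hyF hS0 hSg
  set φ₁ : L := phiOne y G (fun i : Fin 0 => (0 : MvPolynomial (Fin (e + 2)) ℂ)) k 1 (fun _ => 0)
    S σ with hφ₁
  have hφ₁0 : φ₁ ≠ 0 := phiOne_ne H.coordinate H.function (fun i => i.elim0) hxS σ
  have hov : ∀ w : AddValuation L (WithTop ℤ), ov w φ₁ =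
      k * ov w G + ov w (aeval y S) - ∑ i, σ i * wts w y i := by
    intro w
    rw [hφ₁, ov_phiOne H.coordinate H.function (fun i => i.elim0) hxS σ w]
    simp
  obtain ⟨φ, hφ0, hφ⟩ := exists_normG hΓ hcard hfield φ₁ hφ₁0
  have hnQ : (0 : ℚ) < ((k * q * J.factorial : ℕ) : ℚ) := by
    have : 0 < k * q * J.factorial := by positivity
    exact_mod_cast this
  have hfixK : ∀ τ ∈ Γ, ∀ z : K, τ (algebraMap K L z) = algebraMap K L z := fun τ hτ z =>
    (hfield _).1 ⟨z, rfl⟩ τ hτ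
  refine ⟨φ, hφ0, ?_⟩
  intro C hC
  have hψ : ψ C ≠ 0 := (hP.cartier C hC).2.1
  constructor
  · intro u p m k' hup _ hm hk'
    have hu := hup.1
    have hoverC := hup.2.1
    obtain ⟨w, e₁, he₁, hw1, hvw⟩ := exists_extension (L := L) u hu.normalized
    have he₁Q : (0 : ℚ) < e₁ := by exact_mod_cast he₁
    have hloc := (hP.cartier C hC).2.2 u p m (ov u (ψ C)) hup le_top hm (coe_ov u hψ).symm
    have h1 := (hφ w u e₁ hvw).1 ((k : ℚ) * q * (e₁ * ov u (ψ C) / r)) (by
      intro τ hτ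
      have hvw' : ∀ g : K, (w.comap (τ : L →+* L)) (algebraMap K L g) = e₁ • u g := by
        intro g
        rw [comap_apply', hfixK τ hτ, hvw]
      have hw1' := comap_normalized hw1 τ
      have hw' : Q.IsDivisorial (e' + 1) (w.comap (τ : L →+* L)) :=
        divisorial_iff.2 (isDivisorial_of_ext (divisorial_iff.1 hu) hw1' hvw')
      have hcone : Z647.InCone v (wts (w.comap (τ : L →+* L)) y) := by
        apply H.inCone
        intro a ha
        rw [hvw']
        exact nsmul_nonneg (hoverC ⟨a, hP.le C hC ha⟩) _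
      have h2 := hov (w.comap (τ : L →+* L))
      rw [ov_comap' w τ φ₁] at h2
      have h3 := hgen C hC u (w.comap (τ : L →+* L)) e₁ (ov u (ψ C)) _ _ hu hoverC he₁ hw1' hvw'
        (coe_ov u hψ).symm (coe_ov _ H.function).symm
        (fun k => (coe_ov (w.comap (τ : L →+* L)) (H.coordinate k)).symm)
      obtain ⟨γ', hγ', hγ''⟩ := (isMinZ_minWt hS0 (wts (w.comap (τ : L →+* L)) y)).1
      have hSl := ov_lower hw'.const H.coordinate hxS
        (isMinZ_minWt hS0 (wts (w.comap (τ : L →+* L)) y))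
      rw [hS1] at hγ'
      obtain ⟨γ, hγ, rfl⟩ := Finset.mem_image.1 hγ'
      have h4 := hwt (wts (w.comap (τ : L →+* L)) y) γ hγ
      have h5 := hE1 γ hγ _ hcone (nonMono_of_zeroZ hw'.const H.nonzero H.equation
        (fun j => (coe_ov _ (H.coordinate j)).symm))
      rw [← h4, hγ''] at h5
      rw [h2, h3]
      have h6 : (k : ℚ) * q * ((r * ((ov (w.comap (τ : L →+* L)) G : ℚ) / q) +
          ordMono E (fun k => ov (w.comap (τ : L →+* L)) (y k))) / r) =
          k * ov (w.comap (τ : L →+* L)) G +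
          k * q * ((ordMono E (wts (w.comap (τ : L →+* L)) y) : ℚ) / r) := by
        show _ = k * ov (w.comap (τ : L →+* L)) G +
          k * q * ((ordMono E (fun k => ov (w.comap (τ : L →+* L)) (y k)) : ℚ) / r)
        field_simp
      rw [h6]
      have h7 : (minWt S (wts (w.comap (τ : L →+* L)) y) : ℚ) ≤
          ov (w.comap (τ : L →+* L)) (aeval y S) := by exact_mod_cast hSl
      push_cast at h5 ⊢
      linarith)
    have h2 : ov u φ = k' := ov_eq_of u hk'
    rw [h2] at h1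
    have h3 : (ov u (ψ C) : ℚ) / r ≤ (k' : ℚ) / ((k * q * J.factorial : ℕ) : ℚ) := by
      rw [div_le_div_iff₀ hrQ hnQ]
      have h4 : (J.factorial : ℚ) * ((k : ℚ) * q * (e₁ * ov u (ψ C) / r)) * r =
          e₁ * (ov u (ψ C) * ((k * q * J.factorial : ℕ) : ℚ)) := by
        push_cast
        field_simp
      have h5 := mul_le_mul_of_nonneg_right h1 hrQ.le
      rw [h4] at h5
      have h6 : (e₁ : ℚ) * (ov u (ψ C) * ((k * q * J.factorial : ℕ) : ℚ)) ≤ e₁ * (k' * r) := by
        linarith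
      exact le_of_mul_le_mul_left h6 he₁Q
    have h4 : (ov u (ψ C) : ℚ) / r = m + (B C).coeff p := by
      rw [hloc]; field_simp
    rw [h4] at h3
    have h5 := hP.effective C hC p
    constructor <;> linarith
  · intro u m k' hu hoverC hub hm hk'
    obtain ⟨w, e₁, he₁, hw1, hvw⟩ := exists_extension (L := L) u hu.normalized
    have he₁Q : (0 : ℚ) < e₁ := by exact_mod_cast he₁
    have h1 := (hφ w u e₁ hvw).2 ((k : ℚ) * q * (e₁ * (1 + m))) (by
      intro τ hτ
      have hvw' : ∀ g : K, (w.comap (τ : L →+* L)) (algebraMap K L g) = e₁ • u g := by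
        intro g
        rw [comap_apply', hfixK τ hτ, hvw]
      have hw1' := comap_normalized hw1 τ
      have hw' : Q.IsDivisorial (e' + 1) (w.comap (τ : L →+* L)) :=
        divisorial_iff.2 (isDivisorial_of_ext (divisorial_iff.1 hu) hw1' hvw')
      obtain ⟨m', hm'⟩ := order_exists hd H.trdegL D' hj hw'
      have htr := order_transfer hd H.dimension H.trdegL hD hD' hu hw1' he₁ hvw' hm hm'
      have hA : ∀ a ∈ A, 0 ≤ (w.comap (τ : L →+* L)) (algebraMap K L a) := by
        intro a ha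
        rw [hvw']
        exact nsmul_nonneg (hoverC ⟨a, hP.le C hC ha⟩) _
      have hcone : Z647.InCone v (wts (w.comap (τ : L →+* L)) y) := H.inCone hA
      have hsw : ∀ i, 0 ≤ (w.comap (τ : L →+* L)) (sg i) :=
        (hsg _ hw'.const).2 ⟨hA, by rw [hvw', hub, nsmul_zero]⟩
      have hbert := bertiniX HX R hhF H.coordinate hyF H.function hGF hsgF (q := q) hΛ hΛ0 hlcX hS0
        hSg hw' hsw hm'
      have hSl := ov_lower hw'.const H.coordinate hxS
        (isMinZ_minWt hS0 (wts (w.comap (τ : L →+* L)) y))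
      have hlcw := lcG hD' hP hgen H hd hD hδ hlc hw' hA hm'
      have h2 := hov (w.comap (τ : L →+* L))
      rw [ov_comap' w τ φ₁] at h2
      have hgoal : ov w (τ φ₁) < k * q * (1 + m') := by
        rw [h2]
        by_cases ha0 : wts (w.comap (τ : L →+* L)) y = 0
        · rw [ha0, ordMono_zero] at hlcw
          rw [ha0, hΛ0, minWt_zero hS0, sub_zero, add_zero] at hbert
          rw [ha0, minWt_zero hS0] at hSl
          have h3 : ∑ i, σ i * wts (w.comap (τ : L →+* L)) y i = 0 := by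
            rw [ha0]; simp
          rw [h3, sub_zero]
          refine goal_zero hkZ hqZ hSl hbert (lt_of_div hq hδ hlcw)
        · obtain ⟨γ, hγ, hγ'⟩ := hE2 _ hcone ha0 (nonMono_of_zeroZ hw'.const H.nonzero
            H.equation (fun j => (coe_ov _ (H.coordinate j)).symm))
          refine goal_pos hkZ hqZ hSl hbert (lt_of_le_of_lt ?_ (lt_of_lt_of_eq hγ' (hΛk _)))
          rw [← hwt _ γ hγ]
          exact sub_le_sub_right ((isMinZ_minWt hS0 _).2 (toE (σ + γ)) (by
            rw [hS1]; exact Finset.mem_image_of_mem _ hγ)) _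
      have h3 : ((ov w (τ φ₁) : ℤ) : ℚ) < ((k * q * (1 + m') : ℤ) : ℚ) := by exact_mod_cast hgoal
      rw [htr] at h3
      push_cast at h3
      exact h3)
    have h2 : ov u φ = k' := ov_eq_of u hk'
    rw [h2] at h1
    have h3 : (e₁ : ℚ) * k' < e₁ * (((k * q * J.factorial : ℕ) : ℚ) * (1 + m)) := by
      push_cast
      calc (e₁ : ℚ) * k' < _ := h1
        _ = _ := by ring
    have h4 := lt_of_mul_lt_mul_left h3 he₁Q.le
    have h6 : (k' : ℚ) / ((k * q * J.factorial : ℕ) : ℚ) < 1 + m := by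
      rw [div_lt_iff₀ hnQ, mul_comm]; exact h4
    linarith

end Vale.Agent.P283.H108
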