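import Vale.Agent.P283.H108.LocMain

/-!
The toric log discrepancies of a pair which is `ε`-lc.
-/

set_option linter.all false

namespace Vale.Agent.P283.H108

open MvPolynomial Finset
open Vale.Agent.P283.Z647
open Vale.Agent.P283.H647 (ResForm HypData order_exists order_unique order_transfer exists_ext
  isAlgebraic_of_fix toE toE_apply exists_shift ov_algebraMap)

theorem nonneg_of_cover {d N : ℕ} {K L : Type} [Field K] [Field L] [Algebra ℂ K]
    [Algebra ℂ L] [Algebra K L] {y : Fin (d + 1) → L} {v : Fin N → Fin (d + 1) → ℤ}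
    {A : Subalgebra ℂ K} (hy : ∀ k, y k ≠ 0)
    (hcover : ∀ a ∈ A, IsIntegral (Algebra.adjoin ℂ {z : L | ∃ u : Fin (d + 1) → ℤ,
      (∀ j, 0 ≤ ∑ k, v j k * u k) ∧ z = ∏ k, y k ^ u k}) (algebraMap K L a))
    {w : AddValuation L (WithTop ℤ)} (hc : ∀ c : ℂ, c ≠ 0 → w (algebraMap ℂ L c) = 0)
    (hx : Z647.InCone v (wts w y)) : ∀ a ∈ A, 0 ≤ w (algebraMap K L a) := by
  intro a ha
  have h1 := hcover a ha
  refine nonneg_of_integral (K := L) (L := L) ?_ h1
  intro b hb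
  show 0 ≤ w b
  induction hb using Algebra.adjoin_induction with
  | mem z hz =>
    obtain ⟨u, hu, rfl⟩ := hz
    have h2 : (∏ k, y k ^ u k) = monoT y u := rfl
    rw [h2, ← coe_ov w (monoT_ne_zero hy u), H647.ov_monoT w hy]
    have h3 := hx.pair hu
    have h4 : 0 ≤ ∑ j, u j * ov w (y j) := by
      refine le_trans h3 (le_of_eq (Finset.sum_congr rfl fun j _ => ?_))
      unfold wts; ring
    exact_mod_cast h4
  | algebraMap c =>
    by_cases h0 : c = 0
    · rw [h0, map_zero, AddValuation.map_zero]; exact le_top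
    · rw [hc c h0]
  | add x z _ _ hx hz => exact le_trans (le_min hx hz) (AddValuation.map_add w _ _)
  | mul x z _ _ hx hz => rw [AddValuation.map_mul]; exact add_nonneg hx hz

/-- The log discrepancies of the pull-back. -/
theorem lcAt {d s M : ℕ} {K L : Type} [Field K] [Field L] [Algebra ℂ K] [Algebra ℂ L]
    [Algebra K L] [IsScalarTower ℂ K L] [FiniteDimensional K L] {y : Fin (d + 1) → L}
    {f : MvPolynomial (Fin (d + 1)) ℂ} {g : Fin s → MvPolynomial (Fin (d + 1)) ℂ} {c : Fin s → ℚ}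
    {A : Subalgebra ℂ K} (H : FinData y f) (hg : ∀ i, aeval y (g i) ≠ 0)
    {D : Fin d → Derivation ℂ K K} {D' : Fin d → Derivation ℂ L L}
    (hD' : ∀ (i : Fin d) (g : K), D' i (algebraMap K L g) = algebraMap K L (D i g))
    {h : L} (R : ResForm y f D' h) {𝒞 : Set (Subalgebra ℂ K)}
    {B : ∀ C : Subalgebra ℂ K, Q.QDivisor C} {r : ℕ} {ψ : Subalgebra ℂ K → K}
    (hP : H207.IsPair D A 𝒞 B r ψ) {E : Fin (M + 1) → Fin (d + 1) → ℤ}
    (hgen : IsGeneratedM y f g c E D 𝒞 r ψ) (hd : 0 < d) (hD : ∃ z, Q.jac D z ≠ 0) {ε : ℝ}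
    (hε : 0 < ε) (hlc : ∀ C ∈ 𝒞, Q.IsEpsLC D (B C) ε) {w : AddValuation L (WithTop ℤ)} {m' : ℤ}
    (hw : Q.IsDivisorial d w) (hA : ∀ a ∈ A, 0 ≤ w (algebraMap K L a))
    (hm' : Q.FormOrder w D' m') : ε ≤ 1 + m' - ov w h -
      ∑ i, (c i : ℝ) * ov w (aeval y (g i)) - (ordMono E (wts w y) : ℝ) / r := by
  haveI : Algebra.IsAlgebraic K L := Algebra.IsAlgebraic.of_finite K L
  haveI := H.ess
  haveI : Algebra.EssFiniteType ℂ K := essFiniteType_sub (L := L)
  have htrK : Algebra.trdeg ℂ K = (d : ℕ) := by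
    rw [gen_trdeg (inferInstance : Algebra.IsAlgebraic K L), H.trdeg]
  obtain ⟨u, e, he, hu', huw⟩ := exists_restriction (K := K) d w (divisorial_iff.1 hw)
  have hu : Q.IsDivisorial d u := divisorial_iff.2 hu'
  obtain ⟨m, hm⟩ := order_exists hd htrK D hD hu
  have htr := order_transfer hd htrK H.trdeg hD hD' hu hw.normalized he huw hm hm'
  have hover : Q.IsOver A u := by
    intro a
    have h1 := hA a a.2
    rw [huw] at h1
    exact nonneg_of_nsmul he h1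
  obtain ⟨C, hC, hoverC⟩ := hP.proper u hu hover
  have hcart := hP.cartier C hC
  have hr : 0 < r := hcart.1
  have hψ : ψ C ≠ 0 := hcart.2.1
  have h1 := (hlc C hC).2 u (centreIdeal C u hoverC) r (ψ C) m (ov u (ψ C)) hu hoverC
    (fun _ => Iff.rfl) ⟨hr, hψ, fun u' p m k h1 _ h3 h4 => hcart.2.2 u' p m k h1 le_top h3 h4⟩
    hm (coe_ov u hψ).symm
  have h2 : (e : ℚ) * ov u (ψ C) =
      r * (ov w h + ∑ i, c i * ov w (aeval y (g i))) + ordMono E (wts w y) :=
    hgen D' h hD' R.res C hC u w e _ _ _ _ hu hoverC he hw.normalized huw (coe_ov u hψ).symm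
      (coe_ov w R.h0).symm (fun k => (coe_ov w (H.x0 k)).symm)
      (fun i => (coe_ov w (hg i)).symm)
  have heR : (1 : ℝ) ≤ e := by exact_mod_cast he
  have hrR : (0 : ℝ) < r := by exact_mod_cast hr
  have h3 : (e : ℝ) * ov u (ψ C) =
      r * (ov w h + ∑ i, (c i : ℝ) * ov w (aeval y (g i))) + ordMono E (wts w y) := by
    have := congrArg (Rat.cast : ℚ → ℝ) h2
    push_cast at this
    exact this
  have h4 : (1 : ℝ) + m' = e * (1 + m) := by exact_mod_cast htr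
  have h5 : (e : ℝ) * ε ≤ e * (1 + (m : ℝ) - (ov u (ψ C) : ℝ) / r) :=
    mul_le_mul_of_nonneg_left h1 (by linarith)
  have h6 : (e : ℝ) * (1 + (m : ℝ) - (ov u (ψ C) : ℝ) / r) =
      1 + m' - ov w h - ∑ i, (c i : ℝ) * ov w (aeval y (g i)) - (ordMono E (wts w y) : ℝ) / r := by
    have h7 : (e : ℝ) * ((ov u (ψ C) : ℝ) / r) =
        ov w h + ∑ i, (c i : ℝ) * ov w (aeval y (g i)) + (ordMono E (wts w y) : ℝ) / r := by
      rw [← mul_div_assoc, h3]
      field_simp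
    rw [mul_sub, h7, ← h4]; ring
  rw [h6] at h5
  have h7 : ε ≤ e * ε := by nlinarith
  linarith

/-- The toric log discrepancies of an `ε`-lc pair. -/
theorem psi_of_eps {d N s M J : ℕ} {K L : Type} [Field K] [Field L] [Algebra ℂ K] [Algebra ℂ L]
    [Algebra K L] [IsScalarTower ℂ K L] [FiniteDimensional K L] {y : Fin (d + 1) → L}
    {f : MvPolynomial (Fin (d + 1)) ℂ} {g : Fin s → MvPolynomial (Fin (d + 1)) ℂ} {c : Fin s → ℚ}
    {v : Fin N → Fin (d + 1) → ℤ} {A : Subalgebra ℂ K} (H : FinData y f)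
    (hg : ∀ i, aeval y (g i) ≠ 0) (hc : ∀ i, 0 ≤ c i)
    (hcover : ∀ a ∈ A, IsIntegral (Algebra.adjoin ℂ {z : L | ∃ u : Fin (d + 1) → ℤ,
      (∀ j, 0 ≤ ∑ k, v j k * u k) ∧ z = ∏ k, y k ^ u k}) (algebraMap K L a))
    (hJ : Module.finrank (IntermediateField.adjoin ℂ (Set.range y)) L ≤ J)
    {D : Fin d → Derivation ℂ K K} {𝒞 : Set (Subalgebra ℂ K)}
    {B : ∀ C : Subalgebra ℂ K, Q.QDivisor C} {r : ℕ} {ψ : Subalgebra ℂ K → K}
    (hP : H207.IsPair D A 𝒞 B r ψ) {E : Fin (M + 1) → Fin (d + 1) → ℤ}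
    (hgen : IsGeneratedM y f g c E D 𝒞 r ψ) (hd : 0 < d) (hD : ∃ z, Q.jac D z ≠ 0) {ε : ℝ}
    (hε : 0 < ε) (hlc : ∀ C ∈ 𝒞, Q.IsEpsLC D (B C) ε) :
    PsiBound v f g c r E (min (ε / J) (1 / 2)) := by
  haveI : Algebra.IsAlgebraic K L := Algebra.IsAlgebraic.of_finite K L
  haveI := H.ess
  haveI : Algebra.EssFiniteType ℂ K := essFiniteType_sub (L := L)
  haveI : CharZero K := charZero_of_injective_algebraMap (algebraMap ℂ K).injective
  obtain ⟨D', hD'⟩ := exists_ext (K := K) (L := L) H.trdeg D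
  have hj : ∃ g, Q.jac D' g ≠ 0 := by
    obtain ⟨g, hg⟩ := hD
    exact ⟨_, by rw [H647.jac_map hD']; exact (map_ne_zero _).2 hg⟩
  obtain ⟨h, R⟩ := H.exists_resForm hj
  have hlcZ : LcZ v y D' h g c r E ε := by
    intro w m' hw hcone hm'
    exact lcAt H hg hD' R hP hgen hd hD hε hlc hw (nonneg_of_cover H.x0 hcover hw.const hcone) hm'
  haveI := H.fin
  obtain ⟨e, rfl⟩ : ∃ e, d = e + 1 := ⟨d - 1, by omega⟩
  have H₀ : HypData (base y) f := H.hyp₀
  have F₀ := finData_base H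
  have hg₀ : ∀ i, aeval (base y) (g i) ≠ 0 := fun i h0 => hg i (by
    rw [← base_aeval, h0, map_zero])
  obtain ⟨D₀, h₀, R₀⟩ := exists_der F₀
  have h2 : (0 : ℝ) < (Module.finrank (IntermediateField.adjoin ℂ (Set.range y)) L : ℝ) := by
    exact_mod_cast Module.finrank_pos
  have h3 : (Module.finrank (IntermediateField.adjoin ℂ (Set.range y)) L : ℝ) ≤ J := by
    exact_mod_cast hJ
  have hJ0 : (0 : ℝ) < J := lt_of_lt_of_le h2 h3
  have hlcZ₀ : LcZ v (base y) D₀ h₀ g c r E (ε / J) := by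
    have h1 := lcZ_down F₀ H hd hg₀ R₀ R hε hlcZ
    intro w m hw hcone hm
    exact le_trans (div_le_div_of_nonneg_left hε.le h2 h3) (h1 w m hw hcone hm)
  exact psi_bound2 H₀ R₀ hg₀ hc (div_pos hε hJ0) hlcZ₀

end Vale.Agent.P283.H108
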