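import Vale.Agent.P283.H108.FibCore
import Vale.Agent.P283.H108.CorrUp
import Vale.Agent.P283.H108.LocFinal
import Vale.Agent.P283.O647.F1
import Vale.Agent.P283.O647.F3

/-!
Bounded klt complements for pairs with a finite cover with a rational map to a hypersurface in a
torus: from Galois covers to all finite covers.
-/

set_option linter.all false

namespace Vale.Agent.P283.H108

open MvPolynomial Finset
open Vale.Agent.P283.Z647
open Vale.Agent.P283.H647 (ResForm HypData order_exists order_unique order_transfer exists_ext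
  jac_map ov_algebraMap)

theorem tropDisc_smul {m s : ℕ} {f : MvPolynomial (Fin m) ℂ} (hf : f ≠ 0)
    {g : Fin s → MvPolynomial (Fin m) ℂ} (hg : ∀ i, g i ≠ 0) (c : Fin s → ℚ) (β : ℕ)
    {a a' : Fin m → ℤ} (h : ∀ k, a k = β * a' k) :
    tropDisc f g c a = β * tropDisc f g c a' := by
  have h' : ∀ k, (β : ℤ) * a' k = a k := fun k => (h k).symm
  unfold tropDisc
  rw [minWt_smul hf a' a β h']
  have h1 : ∑ k, (a k : ℚ) = β * ∑ k, (a' k : ℚ) := by
    rw [Finset.mul_sum]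
    exact Finset.sum_congr rfl fun k _ => by rw [h k]; push_cast; ring
  have h2 : ∑ i, c i * (minWt (g i) a : ℚ) = β * ∑ i, c i * (minWt (g i) a' : ℚ) := by
    rw [Finset.mul_sum]
    refine Finset.sum_congr rfl fun i _ => ?_
    rw [minWt_smul (hg i) a' a β h']; push_cast; ring
  rw [h1, h2]
  push_cast
  ring

section Up

variable {J q d p N s M : ℕ} {K L L' : Type} [Field K] [Field L] [Field L'] [Algebra ℂ K]
  [Algebra ℂ L] [Algebra ℂ L'] [Algebra K L] [Algebra K L'] [Algebra L L'] [IsScalarTower ℂ K L]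
  [IsScalarTower ℂ K L'] [IsScalarTower ℂ L L'] [IsScalarTower K L L'] [FiniteDimensional K L']
  {y : Fin (p + 1) → L} {f : MvPolynomial (Fin (p + 1)) ℂ}
  {g : Fin s → MvPolynomial (Fin (p + 1)) ℂ} {c : Fin s → ℚ} {v : Fin N → Fin (p + 1) → ℤ}
  {A : Subalgebra ℂ K} {b : K} {D : Fin d → Derivation ℂ K K} {G : L}

theorem model_up (hd : 0 < d) (hq : 0 < q) (hD : ∃ z, Q.jac D z ≠ 0)
    (H : IsLcModelOn J q y f g c v A b D G) :
    IsLcModelOn (Module.finrank K L') q (fun k => algebraMap L L' (y k)) f g c v A b D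
      (algebraMap L L' G) := by
  haveI := H.finite
  haveI : FiniteDimensional L L' := FiniteDimensional.right K L L'
  haveI : Algebra.IsAlgebraic K L := Algebra.IsAlgebraic.of_finite K L
  haveI : Algebra.IsAlgebraic L L' := Algebra.IsAlgebraic.of_finite L L'
  haveI : Algebra.IsAlgebraic K L' := Algebra.IsAlgebraic.of_finite K L'
  haveI := H.functionField
  haveI := H.ess
  haveI : Algebra.EssFiniteType ℂ L' := Algebra.EssFiniteType.comp ℂ K L'
  have htrL' : Algebra.trdeg ℂ L' = (d : ℕ) := by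
    rw [← gen_trdeg (inferInstance : Algebra.IsAlgebraic K L')]
    exact H.dimension
  refine
    { functionField := H.functionField
      dimension := H.dimension
      finite := inferInstance
      degree := le_rfl
      coordinate := fun k => (map_ne_zero _).2 (H.coordinate k)
      equation := by rw [aeval_map, H.equation, map_zero]
      nonzero := H.nonzero
      nonzero' := H.nonzero'
      function := (map_ne_zero _).2 H.function
      finiteType := H.finiteType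
      monomials := ?_
      logCanonical := ?_ }
  · intro u hu
    have h1 := H.monomials u hu
    have h2 : (∏ k, algebraMap L L' (y k) ^ u k) = algebraMap L L' (∏ k, y k ^ u k) := by
      rw [map_prod]
      exact Finset.prod_congr rfl fun k _ => by rw [map_zpow₀]
    rw [h2]
    refine IsIntegral.map_of_comp_eq (RingHom.id A) (algebraMap L L') ?_ h1
    ext x
    exact IsScalarTower.algebraMap_apply K L L' (x : K)
  · intro D'' hD'' w' m' l a hw' hA hb hm' ha hl
    obtain ⟨D₁, hD₁⟩ := exists_ext (K := K) (L := L) H.trdegL D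
    obtain ⟨D₂, hD₂⟩ := exists_ext (K := L) (L := L') htrL' D₁
    have hD₂'' : D'' = D₂ := by
      funext i
      refine O647.f5 K L' (D'' i) (D₂ i) fun x => ?_
      rw [hD'', IsScalarTower.algebraMap_apply K L L' x, hD₂, hD₁,
        ← IsScalarTower.algebraMap_apply]
    subst hD₂''
    have hj₁ : ∃ z, Q.jac D₁ z ≠ 0 := by
      obtain ⟨z, hz⟩ := hD
      exact ⟨_, by rw [jac_map hD₁]; exact (map_ne_zero _).2 hz⟩
    obtain ⟨w, e, he, hw₀, hww⟩ := exists_restriction (K := L) d w' (divisorial_iff.1 hw')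
    have hw : Q.IsDivisorial d w := divisorial_iff.2 hw₀
    obtain ⟨m₀, hm₀⟩ := order_exists hd H.trdegL D₁ hj₁ hw
    have htr := order_transfer hd H.trdegL htrL' hj₁ hD₂ hw hw'.normalized he hww hm₀ hm'
    have hA₀ : ∀ z ∈ A, 0 ≤ w (algebraMap K L z) := by
      intro z hz
      have h1 := hA z hz
      rw [IsScalarTower.algebraMap_apply K L L', hww] at h1
      exact nonneg_of_nsmul he h1
    have hb₀ : w (algebraMap K L b) = 0 := by
      rw [IsScalarTower.algebraMap_apply K L L', hww] at hb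
      exact zero_of_nsmul he hb
    have h1 := H.logCanonical D₁ hD₁ w m₀ (ov w G) (fun k => ov w (y k)) hw hA₀ hb₀ hm₀
      (fun k => (coe_ov w (H.coordinate k)).symm) (coe_ov w H.function).symm
    have ha' : ∀ k, a k = e * ov w (y k) := by
      intro k
      rw [← ov_algebraMap hww (H.coordinate k)]
      exact (ov_eq_of w' (ha k)).symm
    have hl' : l = e * ov w G := by
      rw [← ov_algebraMap hww H.function]
      exact (ov_eq_of w' hl).symm
    have heQ : (0 : ℚ) ≤ e := Nat.cast_nonneg e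
    have h2 := mul_le_mul_of_nonneg_left h1 heQ
    have h3 := tropDisc_smul H.nonzero H.nonzero' c e ha'
    have h4 : (1 : ℚ) + m' = e * (1 + m₀) := by exact_mod_cast htr
    rw [h3, h4, hl']
    push_cast
    have h5 : (e : ℚ) * ((ov w G : ℚ) / q) = (e : ℚ) * ov w G / q := by ring
    rw [h5] at h2
    linarith

/-- Monomial ideals in a larger field. -/
theorem gen_upG (H : IsLcModelOn J q y f g c v A b D G) {E : Fin (M + 1) → Fin (p + 1) → ℤ}
    {𝒞 : Set (Subalgebra ℂ K)} {r : ℕ} {ψ : Subalgebra ℂ K → K}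
    (hgen : IsGeneratedG d q y G E 𝒞 r ψ) :
    IsGeneratedG d q (fun k => algebraMap L L' (y k)) (algebraMap L L' G) E 𝒞 r ψ := by
  haveI := H.finite
  haveI : FiniteDimensional L L' := FiniteDimensional.right K L L'
  haveI : Algebra.IsAlgebraic K L := Algebra.IsAlgebraic.of_finite K L
  haveI : Algebra.IsAlgebraic L L' := Algebra.IsAlgebraic.of_finite L L'
  haveI : Algebra.IsAlgebraic K L' := Algebra.IsAlgebraic.of_finite K L'
  intro C hC u w' e' l b' α' hu hover he' hw'1 hw'u hl hb' hα'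
  -- the valuation on `L`
  have hw'div : IsDivisorial d w' :=
    isDivisorial_of_ext (divisorial_iff.1 hu) hw'1 hw'u
  obtain ⟨w, e'', he'', hw, hw'w⟩ := exists_restriction (K := L) d w' hw'div
  obtain ⟨x₁, hx₁⟩ := hu.normalized
  have hx₁0 : x₁ ≠ 0 := ne_zero_of_eq u (n := 1) (by simpa using hx₁)
  have hcomp : ∀ x : K, e'' • w (algebraMap K L x) = e' • u x := by
    intro x
    rw [← hw'w, ← IsScalarTower.algebraMap_apply, hw'u]
  have hcomp' : ∀ x : K, x ≠ 0 → (e'' : ℤ) * ov w (algebraMap K L x) = e' * ov u x := by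
    intro x hx
    have h6 := hcomp x
    rw [← coe_ov w ((map_ne_zero (algebraMap K L)).2 hx), ← coe_ov u hx, ← WithTop.coe_nsmul,
      ← WithTop.coe_nsmul, WithTop.coe_inj, nsmul_eq_mul, nsmul_eq_mul] at h6
    exact h6
  have hux₁ : ov u x₁ = 1 := ov_eq_of u (by simpa using hx₁)
  have h7 := hcomp' x₁ hx₁0
  rw [hux₁, mul_one] at h7
  have he''Z : (0 : ℤ) < e'' := by exact_mod_cast he''
  have he'Z : (0 : ℤ) < e' := by exact_mod_cast he'
  have h8 : 0 < ov w (algebraMap K L x₁) := by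
    by_contra hneg
    push Not at hneg
    have := mul_nonpos_of_nonneg_of_nonpos he''Z.le hneg
    omega
  obtain ⟨e, he⟩ := Int.eq_ofNat_of_zero_le h8.le
  rw [he] at h7 h8
  have he0 : 0 < e := by exact_mod_cast h8
  have hwu : ∀ x : K, w (algebraMap K L x) = e • u x := by
    intro x
    by_cases hx : x = 0
    · subst hx
      obtain ⟨m, rfl⟩ := Nat.exists_eq_succ_of_ne_zero he0.ne'
      rw [map_zero, AddValuation.map_zero, AddValuation.map_zero, succ_nsmul, WithTop.add_top]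
    · rw [← coe_ov w ((map_ne_zero (algebraMap K L)).2 hx), ← coe_ov u hx, ← WithTop.coe_nsmul,
        WithTop.coe_inj, nsmul_eq_mul]
      have h9 := hcomp' x hx
      rw [← h7, mul_assoc] at h9
      exact mul_left_cancel₀ he''Z.ne' h9
  have hfin := hgen C hC u w e l (ov w G) (fun k => ov w (y k)) hu hover he0 hw.normalized hwu hl
    (coe_ov w H.function).symm (fun k => (coe_ov w (H.coordinate k)).symm)
  have hb : (b' : ℤ) = e'' * ov w G := by
    rw [← ov_algebraMap hw'w H.function]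
    exact (ov_eq_of w' hb').symm
  have hα : ∀ k, (e'' : ℤ) * ov w (y k) = α' k := by
    intro k
    rw [← ov_algebraMap hw'w (H.coordinate k)]
    exact ov_eq_of w' (hα' k)
  have h11 := ordMono_smul E (fun k => ov w (y k)) α' e'' hα
  have h13 : (e' : ℚ) = e'' * e := by
    have : (e' : ℤ) = e'' * e := h7.symm
    exact_mod_cast this
  rw [h11, hb, h13]
  push_cast
  calc (e'' : ℚ) * e * l = e'' * (e * l) := by ring
    _ = _ := by rw [hfin]; ring

end Up

theorem coreFib (p : ℕ) (hp : 0 < p) (J q : ℕ) (hq : 0 < q) (ε : ℝ) (hε : 0 < ε) :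
    ∃ c₀ : ℕ, 0 < c₀ ∧ ∀ n : ℕ, 0 < n → c₀ ∣ n →
    ∀ (K L : Type) [Field K] [Field L] [Algebra ℂ K] [Algebra ℂ L] [Algebra K L]
      [IsScalarTower ℂ K L] (d s M N : ℕ) (y : Fin (p + 1) → L)
      (f : MvPolynomial (Fin (p + 1)) ℂ)
      (g : Fin s → MvPolynomial (Fin (p + 1)) ℂ) (c : Fin s → ℚ) (v : Fin N → Fin (p + 1) → ℤ)
      (A : Subalgebra ℂ K) (b₀ : K) (D : Fin d → Derivation ℂ K K) (G : L), 0 < d →
      IsLcModelOn J q y f g c v A b₀ D G →
      (∀ i, 0 ≤ c i ∧ ∃ z : ℤ, (q : ℚ) * c i = z) → (∃ z, Q.jac D z ≠ 0) →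
    ∀ (𝒞 : Set (Subalgebra ℂ K)) (B : ∀ C : Subalgebra ℂ K, Q.QDivisor C) (r : ℕ)
      (ψ : Subalgebra ℂ K → K), H207.IsPair D A 𝒞 B r ψ →
    ∀ (E : Fin (M + 1) → Fin (p + 1) → ℤ), IsGeneratedG d q y G E 𝒞 r ψ →
      IsSubdivision v E →
      (∀ j, 0 ≤ toricDisc f g c r E (v j) ∧ toricDisc f g c r E (v j) ≤ 1 ∧
        ∃ z : ℤ, (q : ℚ) * toricDisc f g c r E (v j) = z) →
      (∃ δ : ℝ, 0 < δ ∧ ∀ C ∈ 𝒞, Q.IsEpsLC D (B C) δ) → IsToricallyEpsLC v f g c r E ε →
      HasKltComplementOn D 𝒞 B n b₀ := by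
  obtain ⟨c₀, hc₀, hmain⟩ := coreG p hp J.factorial q hq ε hε
  refine ⟨c₀, hc₀, ?_⟩
  intro n hn hdvd K L _ _ _ _ _ _ d s M N y f g c v A b₀ D G hd H hc hD 𝒞 B r ψ hP E hgen hsub
    hdisc hlc hpsi
  haveI := H.finite
  haveI : CharZero K := charZero_of_injective_algebraMap (algebraMap ℂ K).injective
  obtain ⟨L', iF, iK, iL, hT, hGal, hfin, hcard⟩ := O647.f1 K L
  letI : Algebra ℂ L' := ((algebraMap K L').comp (algebraMap ℂ K)).toAlgebra
  haveI : IsScalarTower ℂ K L' := IsScalarTower.of_algebraMap_eq fun _ => rfl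
  haveI : IsScalarTower ℂ L L' := IsScalarTower.of_algebraMap_eq fun c => by
    rw [IsScalarTower.algebraMap_apply ℂ K L, ← IsScalarTower.algebraMap_apply K L L']
    rfl
  have hcard' : Nat.card (L' ≃ₐ[K] L') ≤ J.factorial :=
    le_trans hcard (Nat.factorial_le H.degree)
  exact hmain n hn hdvd K L' _ d s M N hd _ f g c v A b₀ D _ (O647.F3.resHom K L').range
    O647.F3.finite_range (by rw [O647.F3.card_range]; exact hcard') (by
      intro x
      rw [IsGalois.mem_range_algebraMap_iff_fixed]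
      constructor
      · rintro h _ ⟨σ, rfl⟩
        exact h σ
      · intro h σ
        exact h _ ⟨σ, rfl⟩) (model_up hd hq hD H) hc hD 𝒞 B r ψ hP E (gen_upG H hgen) hsub hdisc
    hlc ((psiBound_iff H.nonzero).1 hpsi)

/-- The toric log discrepancies of an `ε`-lc pair. -/
theorem toric_of_places {J q d p N s M : ℕ} {K L : Type} [Field K] [Field L] [Algebra ℂ K]
    [Algebra ℂ L] [Algebra K L] [IsScalarTower ℂ K L] {y : Fin (p + 1) → L}
    {f : MvPolynomial (Fin (p + 1)) ℂ} {g : Fin s → MvPolynomial (Fin (p + 1)) ℂ} {c : Fin s → ℚ}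
    {v : Fin N → Fin (p + 1) → ℤ} {A : Subalgebra ℂ K} {b : K} {D : Fin d → Derivation ℂ K K}
    {G : L} (H : IsLcModelOn J q y f g c v A b D G) (hd : 0 < d)
    (hD : ∃ z, Q.jac D z ≠ 0) {𝒞 : Set (Subalgebra ℂ K)}
    {B : ∀ C : Subalgebra ℂ K, Q.QDivisor C} {r : ℕ} {ψ : Subalgebra ℂ K → K}
    (hP : H207.IsPair D A 𝒞 B r ψ) {E : Fin (M + 1) → Fin (p + 1) → ℤ}
    (hgen : IsGeneratedG d q y G E 𝒞 r ψ) {ε : ℝ} (hε : 0 < ε)
    (hlc : ∀ C ∈ 𝒞, Q.IsEpsLC D (B C) ε) (hpl : HasLcPlaces J q y f g c v A D G) :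
    IsToricallyEpsLC v f g c r E (ε / (J + 1 : ℕ)) := by
  intro a ha ha0 hnt
  obtain ⟨k, D', w, m, l, hk, hkJ, hD', hw, hA, hm, hy, hG, heq⟩ := hpl a ha ha0 hnt
  have h1 := lcG hD' hP hgen H hd hD hε hlc hw hA hm
  have h2 : ov w G = l := ov_eq_of w hG
  have h3 : wts w y = fun j => (k : ℤ) * a j := funext fun j => ov_eq_of w (hy j)
  have h4 : tropDisc f g c (fun j => (k : ℤ) * a j) = k * tropDisc f g c a :=
    tropDisc_smul H.nonzero H.nonzero' c k fun j => rfl
  have h5 : ordMono E (fun j => (k : ℤ) * a j) = k * ordMono E a :=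
    ordMono_smul E a _ k fun j => rfl
  rw [h2, h3, h5] at h1
  rw [h4] at heq
  have h6 : ((l : ℝ) / q) = 1 + m - k * (tropDisc f g c a : ℝ) := by
    have := congrArg (Rat.cast : ℚ → ℝ) heq
    push_cast at this
    exact this
  rw [h6] at h1
  have h7 : ((toricDisc f g c r E a : ℚ) : ℝ) = (tropDisc f g c a : ℝ) - (ordMono E a : ℝ) / r := by
    unfold toricDisc tropDisc
    push_cast
    ring
  rw [h7]
  push_cast at h1
  have hkR : (0 : ℝ) < k := by exact_mod_cast hk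
  have hJR : (k : ℝ) ≤ (J + 1 : ℕ) := by exact_mod_cast hkJ.trans (Nat.le_succ J)
  have hJ0 : (0 : ℝ) < (J + 1 : ℕ) := by positivity
  have h8 : ε ≤ k * ((tropDisc f g c a : ℝ) - (ordMono E a : ℝ) / r) := by
    have : (k : ℝ) * ((tropDisc f g c a : ℝ) - (ordMono E a : ℝ) / r) =
        k * (tropDisc f g c a : ℝ) - k * (ordMono E a : ℝ) / r := by ring
    rw [this]; linarith
  rw [div_le_iff₀ hJ0]
  have h9 : 0 < (tropDisc f g c a : ℝ) - (ordMono E a : ℝ) / r := by
    by_contra hneg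
    push Not at hneg
    have := mul_nonpos_of_nonneg_of_nonpos hkR.le hneg
    linarith
  calc ε ≤ k * ((tropDisc f g c a : ℝ) - (ordMono E a : ℝ) / r) := h8
    _ ≤ (J + 1 : ℕ) * ((tropDisc f g c a : ℝ) - (ordMono E a : ℝ) / r) :=
        mul_le_mul_of_nonneg_right hJR h9.le
    _ = _ := mul_comm _ _

theorem coreFib' (p : ℕ) (hp : 0 < p) (J q : ℕ) (hq : 0 < q) (ε : ℝ) (hε : 0 < ε) :
    ∃ c₀ : ℕ, 0 < c₀ ∧ ∀ n : ℕ, 0 < n → c₀ ∣ n →
    ∀ (K L : Type) [Field K] [Field L] [Algebra ℂ K] [Algebra ℂ L] [Algebra K L]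
      [IsScalarTower ℂ K L] (d s M N : ℕ) (y : Fin (p + 1) → L)
      (f : MvPolynomial (Fin (p + 1)) ℂ)
      (g : Fin s → MvPolynomial (Fin (p + 1)) ℂ) (c : Fin s → ℚ) (v : Fin N → Fin (p + 1) → ℤ)
      (A : Subalgebra ℂ K) (b₀ : K) (D : Fin d → Derivation ℂ K K) (G : L), 0 < d →
      (∃ z, Q.jac D z ≠ 0) → IsLcModelOn J q y f g c v A b₀ D G →
      (∀ i, 0 ≤ c i ∧ ∃ z : ℤ, (q : ℚ) * c i = z) →
    ∀ (𝒞 : Set (Subalgebra ℂ K)) (B : ∀ C : Subalgebra ℂ K, Q.QDivisor C) (r : ℕ)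
      (ψ : Subalgebra ℂ K → K), H207.IsPair D A 𝒞 B r ψ →
    ∀ (E : Fin (M + 1) → Fin (p + 1) → ℤ), IsGeneratedG d q y G E 𝒞 r ψ →
      IsSubdivision v E →
      (∀ j, 0 ≤ toricDisc f g c r E (v j) ∧ toricDisc f g c r E (v j) ≤ 1 ∧
        ∃ z : ℤ, (q : ℚ) * toricDisc f g c r E (v j) = z) →
      ((∃ δ : ℝ, 0 < δ ∧ ∀ C ∈ 𝒞, Q.IsEpsLC D (B C) δ) ∧ IsToricallyEpsLC v f g c r E ε ∨
        (∀ C ∈ 𝒞, Q.IsEpsLC D (B C) ε) ∧ HasLcPlaces J q y f g c v A D G) →
      HasKltComplementOn D 𝒞 B n b₀ := by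
  have hε' : 0 < min ε (ε / (J + 1 : ℕ)) := lt_min hε (div_pos hε (by positivity))
  obtain ⟨c₀, hc₀, hmain⟩ := coreFib p hp J q hq _ hε'
  refine ⟨c₀, hc₀, ?_⟩
  intro n hn hdvd K L _ _ _ _ _ _ d s M N y f g c v A b₀ D G hd hD H hc 𝒞 B r ψ hP E hgen hsub
    hdisc hor
  rcases hor with ⟨hklt, htor⟩ | ⟨hlc, hpl⟩
  · exact hmain n hn hdvd K L d s M N y f g c v A b₀ D G hd H hc hD 𝒞 B r ψ hP E hgen hsub hdisc
      hklt fun a h1 h2 h3 => le_trans (min_le_left _ _) (htor a h1 h2 h3)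
  · have h4 := toric_of_places H hd hD hP hgen hε hlc hpl
    exact hmain n hn hdvd K L d s M N y f g c v A b₀ D G hd H hc hD 𝒞 B r ψ hP E hgen hsub hdisc
      ⟨ε, hε, hlc⟩ fun a h1 h2 h3 => le_trans (min_le_right _ _) (h4 a h1 h2 h3)

end Vale.Agent.P283.H108
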