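import Vale.Agent.P283.H108.FibFinal

/-!
Hypersurfaces which are log canonical together with the toric boundary, and their finite covers.
-/

set_option linter.all false

namespace Vale.Agent.P283.H108

open MvPolynomial Finset
open Vale.Agent.P283.Z647
open Vale.Agent.P283.H647 (ResForm HypData order_exists order_unique order_transfer exists_ext
  jac_map ov_algebraMap)

section Link

variable {J q d N s M : ℕ} {K L : Type} [Field K] [Field L] [Algebra ℂ K] [Algebra ℂ L]
  [Algebra K L] [IsScalarTower ℂ K L] {y : Fin (d + 1) → L} {f : MvPolynomial (Fin (d + 1)) ℂ}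
  {g : Fin s → MvPolynomial (Fin (d + 1)) ℂ} {c : Fin s → ℚ} {v : Fin N → Fin (d + 1) → ℤ}
  {A : Subalgebra ℂ K} {b : K} {D : Fin d → Derivation ℂ K K}

/-- A hypersurface which is log canonical together with the toric boundary gives the data of the
general theorem. -/
theorem link (hd : 0 < d) (hq : 0 < q) (hD : ∃ z, Q.jac D z ≠ 0) (hA : A.FG)
    (H : IsLcCorrOn J y f g c v A b) (hc : ∀ i, 0 ≤ c i ∧ ∃ z : ℤ, (q : ℚ) * c i = z)
    {𝒞 : Set (Subalgebra ℂ K)} {r : ℕ} {ψ : Subalgebra ℂ K → K}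
    {E : Fin (M + 1) → Fin (d + 1) → ℤ} (hgen : IsGeneratedM y f g c E D 𝒞 r ψ) :
    ∃ G : L, IsLcModelOn J q y f g c v A b D G ∧ IsGeneratedG d q y G E 𝒞 r ψ := by
  classical
  haveI := H.finite
  haveI : Algebra.IsAlgebraic K L := Algebra.IsAlgebraic.of_finite K L
  have HL : FinData y f := ⟨H.finiteDim, H.equation, H.nonzero, H.coordinate⟩
  haveI := HL.ess
  haveI : Algebra.EssFiniteType ℂ K := essFiniteType_sub (L := L)
  haveI : CharZero K := charZero_of_injective_algebraMap (algebraMap ℂ K).injective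
  have htrK : Algebra.trdeg ℂ K = (d : ℕ) := by
    rw [gen_trdeg (inferInstance : Algebra.IsAlgebraic K L), HL.trdeg]
  obtain ⟨D₁, hD₁⟩ := exists_ext (K := K) (L := L) HL.trdeg D
  have hj₁ : ∃ z, Q.jac D₁ z ≠ 0 := by
    obtain ⟨z, hz⟩ := hD
    exact ⟨_, by rw [jac_map hD₁]; exact (map_ne_zero _).2 hz⟩
  obtain ⟨h, R⟩ := HL.exists_resForm hj₁
  have hqQ : (0 : ℚ) < q := by exact_mod_cast hq
  have hcqex : ∀ i, ∃ cq : ℕ, (cq : ℚ) = q * c i := by
    intro i
    obtain ⟨h1, z, hz⟩ := hc i
    have hz0 : 0 ≤ z := by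
      have h3 : (0 : ℚ) ≤ z := by rw [← hz]; exact mul_nonneg hqQ.le h1
      exact_mod_cast h3
    refine ⟨z.toNat, ?_⟩
    rw [hz]
    have : ((z.toNat : ℤ) : ℚ) = z := by rw [Int.toNat_of_nonneg hz0]
    rw [← this, Int.cast_natCast]
  choose cq hcq using hcqex
  let G : L := h ^ q * ∏ i, aeval y (g i) ^ cq i
  have hG1 : h ^ q ≠ 0 := pow_ne_zero _ R.h0
  have hG2 : (∏ i, aeval y (g i) ^ cq i) ≠ 0 :=
    Finset.prod_ne_zero_iff.2 fun i _ => pow_ne_zero _ (H.divisor i)
  have hG0 : G ≠ 0 := mul_ne_zero hG1 hG2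
  have hGv : ∀ w : AddValuation L (WithTop ℤ), (ov w G : ℚ) / q =
      ov w h + ∑ i, c i * ov w (aeval y (g i)) := by
    intro w
    have h1 : ov w G = q * ov w h + ∑ i, cq i * ov w (aeval y (g i)) := by
      simp only [G]
      rw [ov_mul w hG1 hG2, ov_pow w R.h0, ov_prod _ _ fun i _ => pow_ne_zero _ (H.divisor i)]
      congr 1
      exact Finset.sum_congr rfl fun i _ => by rw [ov_pow w (H.divisor i)]
    have h2 : ∑ i, (cq i : ℚ) * (ov w (aeval y (g i)) : ℚ) =
        q * ∑ i, c i * (ov w (aeval y (g i)) : ℚ) := by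
      rw [Finset.mul_sum]
      exact Finset.sum_congr rfl fun i _ => by rw [hcq]; ring
    rw [h1]
    push_cast
    rw [h2]
    field_simp
  refine ⟨G, ?_, ?_⟩
  · refine
      { functionField := inferInstance
        dimension := htrK
        finite := H.finite
        degree := H.degree
        coordinate := H.coordinate
        equation := HL.eqn
        nonzero := H.nonzero
        nonzero' := fun i h0 => H.divisor i (by rw [h0, map_zero])
        function := hG0
        finiteType := hA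
        monomials := H.monomials
        logCanonical := ?_ }
    intro D' hD' w m l a hw hwA hwb hm ha hl
    have hDD : D' = D₁ := by
      funext i
      refine O647.f5 K L (D' i) (D₁ i) fun x => ?_
      rw [hD', hD₁]
    subst hDD
    obtain ⟨t, σ, -, hσ, hLC⟩ := H.toricallyLC
    have h1 := hLC D' h R.res w m (ov w h) a (fun i => ov w (aeval y (g i))) hw hm
      (coe_ov w R.h0).symm ha (fun i => (coe_ov w (H.divisor i)).symm) (by
        have h2 : a = wts w y := by
          funext k
          exact (ov_eq_of w (ha k)).symm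
        rw [h2]
        apply cone_dual
        intro u hu
        have h1 := nonneg_of_integral hwA (H.monomials u hu)
        have h2 : (∏ k, y k ^ u k) = monoT y u := rfl
        rw [h2, ← coe_ov w (monoT_ne_zero H.coordinate u), H647.ov_monoT w H.coordinate] at h1
        have h3 : 0 ≤ ∑ j, u j * ov w (y j) := by exact_mod_cast h1
        refine le_trans h3 (le_of_eq (Finset.sum_congr rfl fun j _ => ?_))
        unfold wts; ring) (hσ w hw hwA hwb)
    have hl' : ov w G = l := ov_eq_of w hl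
    rw [← hl', hGv w]
    unfold tropDisc
    have h3 : ∑ i, c i * ((ov w (aeval y (g i)) : ℚ) - minWt (g i) a) =
        ∑ i, c i * (ov w (aeval y (g i)) : ℚ) - ∑ i, c i * (minWt (g i) a : ℚ) := by
      rw [← Finset.sum_sub_distrib]
      exact Finset.sum_congr rfl fun i _ => by ring
    rw [h3] at h1
    linarith
  · intro C hC u w e k l a hu hover he hw1 hwu hk hl ha
    have h1 := hgen D₁ h hD₁ R.res C hC u w e k (ov w h) a (fun i => ov w (aeval y (g i))) hu
      hover he hw1 hwu hk (coe_ov w R.h0).symm ha (fun i => (coe_ov w (H.divisor i)).symm)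
    have hl' : ov w G = l := ov_eq_of w hl
    rw [h1, ← hl', hGv w]

/-- The toric log discrepancies of an `ε`-lc pair. -/
theorem toric_of_finite (hd : 0 < d) (hD : ∃ z, Q.jac D z ≠ 0)
    (H : IsLcCorrOn J y f g c v A b) (hc : ∀ i, 0 ≤ c i)
    {𝒞 : Set (Subalgebra ℂ K)} {B : ∀ C : Subalgebra ℂ K, Q.QDivisor C} {r : ℕ}
    {ψ : Subalgebra ℂ K → K} (hP : H207.IsPair D A 𝒞 B r ψ)
    {E : Fin (M + 1) → Fin (d + 1) → ℤ} (hgen : IsGeneratedM y f g c E D 𝒞 r ψ) {ε : ℝ}
    (hε : 0 < ε) (hlc : ∀ C ∈ 𝒞, Q.IsEpsLC D (B C) ε) (hfin : IsFiniteOverToric J y v A) :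
    IsToricallyEpsLC v f g c r E (min (ε / J) (1 / 2)) := by
  haveI := H.finite
  exact (psiBound_iff H.nonzero).2 (psi_of_eps ⟨H.finiteDim, H.equation, H.nonzero, H.coordinate⟩
    H.divisor hc hfin.2 hfin.1 hP hgen hd hD hε hlc)

end Link

end Vale.Agent.P283.H108
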