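import Vale.Agent.P283.H108.PsiGen
import Vale.Agent.P283.H108.BertiniT
import Vale.Agent.P283.H108.ConcT

/-!
The lower bound for the toric log discrepancies.
-/

set_option linter.all false

namespace Vale.Agent.P283.H108

open MvPolynomial Finset
open Vale.Agent.P283.Z647
open Vale.Agent.P283.H647 hiding Adapted exists_adapted

section Fac

variable {e : ℕ} {K L : Type} [Field K] [Field L] [Algebra ℂ K] [Algebra ℂ L] [Algebra K L]
  [IsScalarTower ℂ K L]
variable {x : Fin (e + 2) → L} {f : MvPolynomial (Fin (e + 2)) ℂ} {G : Subgroup (L ≃ₐ[ℂ] L)}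

/-- A component of the initial form. -/
theorem torusFac {H : DiagData K x f G} {A : Fin (e + 2) → ℤ} {r c : ℕ}
    {b : Module.Basis (Fin (e + 2)) ℤ (AddSubgroup.toIntSubmodule H.lat)}
    (hb : AdaptedZ H A r c b) {α₀ : Fin (e + 2) →₀ ℕ} (hα₀ : α₀ ∈ f.support) {m : ℤ}
    (hm : IsMinZ f A m) {α β : Fin (e + 2) →₀ ℕ} (hα : α ∈ f.support) (hβ : β ∈ f.support)
    (hαm : wtZ A α = m) (hβm : wtZ A β = m) (hαβ : α ≠ β) {y : Fin (e + 2) → K}
    (hy : ∀ k, algebraMap K L (y k) = monoT x (vecs b k)) :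
    ∃ h g₀ : MvPolynomial (Fin (e + 2)) ℂ, TorusFac y (H.eqY b α₀) h g₀ := by
  classical
  set F := H.eqY b α₀ with hF
  have hsupp : ∀ γ ∈ f.support, wtZ A γ = m →
      toE (shf f H.f0 (H.nf b α₀) + H.nf b α₀ γ) ∈ (red e F).support := by
    intro γ hγ hγm
    rw [mem_support_iff, coeff_red, if_pos ((hb.min_iff hα₀ hm hγ).1 hγm), hF,
      H.coeff_eqY b hα₀ hγ]
    exact mem_support_iff.1 hγ
  have hne : toE (shf f H.f0 (H.nf b α₀) + H.nf b α₀ α) ≠
      toE (shf f H.f0 (H.nf b α₀) + H.nf b α₀ β) := by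
    intro h
    apply hαβ
    have h1 := toE_inj (shf_nonneg H.f0 (H.nf b α₀) α hα) (shf_nonneg H.f0 (H.nf b α₀) β hβ) h
    exact H.nf_inj b hα₀ hα hβ (add_left_cancel h1)
  obtain ⟨h, hirr, ⟨g₀, hg₀⟩, hnom⟩ := irr_factor (red e F) (hsupp α hα hαm) (hsupp β hβ hβm) hne
  have hredF0 : red e F ≠ 0 := by
    intro h0
    have h1 := hsupp α hα hαm
    rw [h0, support_zero] at h1
    exact absurd h1 (Finset.notMem_empty _)
  have hg₀0 : g₀ ≠ 0 := by rintro rfl; rw [mul_zero] at hg₀; exact hredF0 hg₀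
  have hdeg : degreeOf 0 (red e F) = degreeOf 0 h + degreeOf 0 g₀ := by
    rw [hg₀, degreeOf_mul_eq hirr.ne_zero hg₀0]
  have hdeg0 : degreeOf 0 (red e F) = 0 := by
    rw [← Nat.le_zero, degreeOf_le_iff]
    intro γ hγ
    rw [mem_support_iff, coeff_red] at hγ
    by_contra hne
    rw [if_neg (by omega)] at hγ
    exact hγ rfl
  have hredid : ∀ p : MvPolynomial (Fin (e + 2)) ℂ, degreeOf 0 p = 0 → red e p = p := by
    intro p hp
    ext γ
    rw [coeff_red]
    split_ifs with h0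
    · rfl
    · by_contra hne
      have h1 := monomial_le_degreeOf 0 (mem_support_iff.2 (Ne.symm hne))
      omega
  refine ⟨h, g₀, ?_, H.gen_y b hy, ?_, H.ker_y b hα₀ hy, hg₀, hredid h (by omega),
    hredid g₀ (by omega), hirr, hnom, hredF0⟩
  · intro k h0
    have h1 := hy k
    rw [h0, map_zero] at h1
    exact monoT_ne_zero H.x0 _ h1.symm
  · apply (algebraMap K L).injective
    rw [map_zero, aeval_map_y hy]
    have h1 := H.f_eq b hα₀ x H.x0
    rw [H.eqn] at h1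
    exact (mul_eq_zero.1 h1.symm).resolve_left (monoT_ne_zero H.x0 _)

end Fac

/-- The partial derivative vanishes along a multiple component. -/
theorem TorusFac.partial_pos {e : ℕ} {K : Type} [Field K] [Algebra ℂ K] {y : Fin (e + 2) → K}
    {F h g₀ : MvPolynomial (Fin (e + 2)) ℂ} (H : TorusFac y F h g₀) (hd : h ∣ g₀)
    {w : AddValuation K (WithTop ℤ)} (hc : ∀ c : ℂ, c ≠ 0 → w (algebraMap ℂ K c) = 0)
    (h0 : 0 < w (y 0)) (hk : ∀ k, 0 ≤ w (y k)) (hh : 0 < w (aeval y h)) {i : Fin (e + 2)}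
    (hi : i ≠ 0) : 0 < w (aeval y (pderiv i F)) := by
  obtain ⟨g₁, rfl⟩ := hd
  obtain ⟨F₁, hF₁⟩ := sub_red_dvd (pderiv i F)
  have h1 : pderiv i F = h * (h * pderiv i g₁ + 2 * g₁ * pderiv i h) + X 0 * F₁ := by
    rw [← hF₁, red_pderiv hi, H.fac]
    simp only [Derivation.leibniz, smul_eq_mul]
    ring
  have hP : ∀ P : MvPolynomial (Fin (e + 2)) ℂ, 0 ≤ w (aeval y P) := fun P =>
    aeval_nonneg' w hc y hk P
  rw [h1, map_add, map_mul, map_mul _ (X 0), aeval_X]
  refine lt_of_lt_of_le (lt_min ?_ ?_) (AddValuation.map_add w _ _)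
  · rw [AddValuation.map_mul]
    exact lt_of_lt_of_le hh (le_add_of_nonneg_right (hP _))
  · rw [AddValuation.map_mul]
    exact lt_of_lt_of_le h0 (le_add_of_nonneg_right (hP _))

variable {N s M : ℕ}

theorem psi_bound {e : ℕ} {L : Type} [Field L] [Algebra ℂ L] {v : Fin N → Fin (e + 2) → ℤ}
    {y : Fin (e + 2) → L} {f : MvPolynomial (Fin (e + 2)) ℂ} (H : HypData y f)
    {D' : Fin (e + 1) → Derivation ℂ L L} {h : L} (R : ResForm y f D' h)
    {g : Fin s → MvPolynomial (Fin (e + 2)) ℂ} (hg : ∀ i, aeval y (g i) ≠ 0) {c : Fin s → ℚ}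
    (hc : ∀ i, 0 ≤ c i) {r : ℕ} {E : Fin (M + 1) → Fin (e + 2) → ℤ} {ε : ℝ} (hε : 0 < ε)
    {q : ℕ} (hq : 0 < q) {cq : Fin s → ℕ} (hlc : LcZ v y D' h g c r E ε)
    (hT : TorLC v y f g D' h q cq) : PsiBound v f g c r E ε := by
  classical
  intro A hA hnm hA0 α hα hmin
  have hg0 : ∀ i, g i ≠ 0 := fun i h0 => hg i (by rw [h0, map_zero])
  have HD : DiagData L y f (⊥ : Subgroup (L ≃ₐ[ℂ] L)) :=
    { gen := H.gen
      ker := H.ker
      f0 := H.f0
      x0 := H.x0
      fin := inferInstance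
      diag := by
        intro τ hτ j
        rw [Subgroup.mem_bot] at hτ
        exact ⟨1, by rw [hτ]; simp⟩
      fix := by
        intro z
        refine ⟨fun _ τ hτ => ?_, fun _ => ⟨z, rfl⟩⟩
        rw [Subgroup.mem_bot] at hτ
        rw [hτ]; rfl }
  obtain ⟨μ, hμ, α', hα', β', hβ', hne, hα'm, hβ'm⟩ := hnm
  have hαm : wtZ A α = μ := le_antisymm (by rw [← hα'm]; exact hmin α' hα') (hμ.2 α hα)
  obtain ⟨c₁, b, hb⟩ := exists_adaptedZ HD A hA0 1 one_pos (fun _ _ => by simp)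
  have hc₁ : 0 < c₁ := hb.c0
  have hc₁Q : (0 : ℚ) < c₁ := by exact_mod_cast hc₁
  have hc₁Z : (0 : ℤ) < c₁ := by exact_mod_cast hc₁
  have hyex : ∀ k, ∃ y' : L, algebraMap L L y' = monoT y (vecs b k) := fun k => ⟨_, rfl⟩
  choose y' hy' using hyex
  obtain ⟨h', g₀, TF⟩ := torusFac hb hα hμ hα' hβ' hα'm hβ'm hne hy'
  haveI := H.ess
  -- the values of the valuations
  have key : ∀ (v' : AddValuation L (WithTop ℤ)) (i : Fin (e + 2)) (ν : ℕ), i ≠ 0 → 0 < ν →
      Q.IsDivisorial (e + 1) v' → v' (y' 0) = ((ν : ℤ) : WithTop ℤ) →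
      (∀ k, k ≠ 0 → v' (y' k) = 0) → (∀ P : MvPolynomial (Fin e) ℂ, P ≠ 0 →
        v' (aeval (fun k => y' (i.succAbove k.succ)) P) = 0) →
      ∃ (w : AddValuation L (WithTop ℤ)) (m' : ℤ), Q.IsDivisorial (e + 1) w ∧
        Q.FormOrder w D' m' ∧ (∀ j, (c₁ : ℤ) * wts w y j = ν * A j) ∧
        Z647.InCone v (wts w y) ∧
        (c₁ : ℤ) * (1 + m' - ov w h) = ν * (∑ j, A j - μ) -
          c₁ * ov v' (aeval y' (pderiv i (HD.eqY b α))) := by
    intro v' i ν hi hν hv' hv0 hvk hres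
    obtain ⟨e₀, w, he₀, hw, hvw, hx, hord⟩ := psi_gen HD A 1 hb hμ hα hαm hy' TF.y0 hi hν hv' hv0
      hvk hres
    have he1 : e₀ = 1 := by
      obtain ⟨t, ht⟩ := hw.normalized
      have ht0 : t ≠ 0 := ne_zero_of_eq w (n := 1) (by simpa using ht)
      have h1 := hvw t
      have h2 : (algebraMap L L t) = t := rfl
      rw [h2, ht, ← coe_ov v' ht0, ← WithTop.coe_nsmul, nsmul_eq_mul] at h1
      have h3 : (1 : ℤ) = e₀ * ov v' t := by exact_mod_cast h1
      have h4 : (e₀ : ℤ) ∣ 1 := ⟨_, h3⟩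
      have h5 := Int.eq_one_of_dvd_one (by positivity) h4
      exact_mod_cast h5
    subst he1
    obtain ⟨m', hm'⟩ := order_exists (Nat.succ_pos e) H.trdeg D' R.jac_ne hw
    have h1 := hord D' h R m' hm'
    have hxA : ∀ j, (c₁ : ℤ) * wts w y j = ν * A j := by
      intro j
      have h2 := hx j
      push_cast at h2
      rw [one_mul, one_mul] at h2
      exact h2
    refine ⟨w, m', hw, hm', hxA, ?_, ?_⟩
    · obtain ⟨t, ht, htA⟩ := hA
      refine ⟨fun j => ν * t j / c₁, fun j => div_nonneg (mul_nonneg (Nat.cast_nonneg _) (ht j))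
        hc₁Q.le, fun k => ?_⟩
      have h2 : (c₁ : ℚ) * (wts w y k : ℚ) = ν * (A k : ℚ) := by exact_mod_cast hxA k
      have h3 : (wts w y k : ℚ) = ν * A k / c₁ := by
        rw [← h2]; field_simp
      rw [h3, htA, Finset.mul_sum, Finset.sum_div]
      exact Finset.sum_congr rfl fun j _ => by ring
    · push_cast at h1
      rw [one_mul, one_mul, one_mul] at h1
      exact h1
  -- the component is reduced
  have hsq : ¬ h' ∣ g₀ := by
    intro hd
    obtain ⟨v', i, ν, hi, hν, hv', hv0, hvk, hvh, hpne, hres, -⟩ := TF.exists_val hd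
    obtain ⟨w, m', hw, hm', hxA, hcone, hval⟩ := key v' i ν hi hν hv' hv0 hvk hres
    have hνZ : (0 : ℤ) < ν := by exact_mod_cast hν
    have hρ : 0 < ov v' (aeval y' (pderiv i (HD.eqY b α))) := by
      have h1 := TF.partial_pos hd hv'.const (by rw [hv0]; exact_mod_cast hνZ) (fun k => by
        by_cases hk : k = 0
        · rw [hk, hv0]; exact_mod_cast hνZ.le
        · rw [hvk k hk]) hvh hi
      rw [pos_iff v' hpne] at h1
      exact h1
    have h1 := hT w m' hw hcone hm'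
    have h2 : 0 ≤ ∑ i, (cq i : ℤ) * (ov w (aeval y (g i)) - minWt (g i) (wts w y)) := by
      refine Finset.sum_nonneg fun i _ => mul_nonneg (by positivity) ?_
      have := ov_lower hw.const H.x0 (hg i) (isMinZ_minWt (hg0 i) (wts w y))
      linarith
    have hqZ : (0 : ℤ) < q := by exact_mod_cast hq
    have h3 : 0 ≤ 1 + m' - ov w h - ∑ j, wts w y j + minWt f (wts w y) := by
      by_contra hneg
      push Not at hneg
      have := mul_neg_of_pos_of_neg hqZ hneg
      linarith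
    have h4 := mul_nonneg hc₁Z.le h3
    have h5 : (c₁ : ℤ) * ∑ j, wts w y j = ν * ∑ j, A j := by
      rw [Finset.mul_sum, Finset.mul_sum]
      exact Finset.sum_congr rfl fun j _ => hxA j
    have h6 : (c₁ : ℤ) * minWt f (wts w y) = ν * μ := by
      have e1 : minWt f A = μ := (isMinZ_minWt H.f0 A).unique hμ
      have e2 := minWt_smul H.f0 (wts w y) (fun j => ν * A j) c₁ hxA
      have e3 := minWt_smul H.f0 A (fun j => (ν : ℤ) * A j) ν (fun j => rfl)
      rw [← e2, e3, e1]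
    have h7 : (c₁ : ℤ) * (1 + m' - ov w h - ∑ j, wts w y j + minWt f (wts w y)) =
        c₁ * (1 + m' - ov w h) - c₁ * ∑ j, wts w y j + c₁ * minWt f (wts w y) := by ring
    rw [h7, hval, h5, h6] at h4
    have h8 := mul_pos hc₁Z hρ
    linarith
  have TH : TorusHyp y' (HD.eqY b α) h' g₀ :=
    { y0 := TF.y0
      gen := TF.gen
      eqn := TF.eqn
      ker := TF.ker
      fac := TF.fac
      redh := TF.redh
      redg := TF.redg
      irr := TF.irr
      nomon := TF.nomon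
      sq := hsq }
  obtain ⟨v', i, hi, hv', hv0, hvk, hvF, hres⟩ := TH.main
  obtain ⟨w, m', hw, hm', hxA, hcone, hval⟩ := key v' i 1 hi one_pos hv'
    (by rw [hv0]; rfl) hvk hres
  have hρ0 : ov v' (aeval y' (pderiv i (HD.eqY b α))) = 0 := ov_eq_of v' (by simpa using hvF)
  rw [hρ0, mul_zero, sub_zero] at hval
  have hxA' : ∀ j, (c₁ : ℤ) * wts w y j = A j := fun j => by
    have := hxA j
    rwa [Nat.cast_one, one_mul] at this
  rw [Nat.cast_one, one_mul] at hval
  have h2 := hlc w m' hw hcone hm'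
  have h3 := Phi_le hw.const H.x0 hg hc r E
  have h4 := Phi_smul hg0 c r E (wts w y) A c₁ hxA'
  have hc₁R : (1 : ℝ) ≤ c₁ := by exact_mod_cast hc₁
  have h5 : (c₁ : ℝ) * (1 + (m' : ℝ) - ov w h) = ∑ j, (A j : ℝ) - μ := by
    have := congrArg (Int.cast : ℤ → ℝ) hval
    push_cast at this
    linarith
  rw [hαm, h4, ← h5]
  have h6 : ε ≤ 1 + (m' : ℝ) - ov w h - Phi g c r E (wts w y) := by linarith
  have h7 : (c₁ : ℝ) * ε ≤ c₁ * (1 + (m' : ℝ) - ov w h - Phi g c r E (wts w y)) :=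
    mul_le_mul_of_nonneg_left h6 (by linarith)
  nlinarith

end Vale.Agent.P283.H108
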