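import Vale.Agent.P283.H108.Cop
import Vale.Agent.P283.H108.PsiG

/-!
The lower bound for the toric log discrepancies, for all hypersurfaces.
-/

set_option linter.all false

namespace Vale.Agent.P283.H108

open MvPolynomial Finset
open Vale.Agent.P283.Z647
open Vale.Agent.P283.H647 hiding Adapted exists_adapted

section Cop

variable {e : ℕ} {K : Type} [Field K] [Algebra ℂ K] {y : Fin (e + 2) → K}
  {F h g₀ : MvPolynomial (Fin (e + 2)) ℂ}

/-- A polynomial which is coprime to the component is a unit along it. -/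
theorem TorusFac.cop_val (H : TorusFac y F h g₀) {w : AddValuation K (WithTop ℤ)}
    (hc : ∀ c : ℂ, c ≠ 0 → w (algebraMap ℂ K c) = 0) (hk : ∀ k, 0 ≤ w (y k))
    (hh : 0 < w (aeval y h)) {i : Fin (e + 2)} (hi : i ≠ 0) (hi' : pderiv i h ≠ 0)
    (hres : ∀ P : MvPolynomial (Fin e) ℂ, P ≠ 0 →
      w (aeval (fun k => y (i.succAbove k.succ)) P) = 0)
    {u : MvPolynomial (Fin (e + 2)) ℂ} (redu : red e u = u) (hu : ¬ h ∣ u) :
    w (aeval y u) = 0 := by
  obtain ⟨r, A, B, hr, hrel⟩ := exists_elim hi H.redh redu H.irr hi' H.nomon hu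
  have hP : ∀ P : MvPolynomial (Fin (e + 2)) ℂ, 0 ≤ w (aeval y P) := fun P =>
    aeval_nonneg' w hc y hk P
  refine le_antisymm (not_lt.1 fun hpos => ?_) (hP u)
  have h1 := congrArg (aeval y) hrel
  rw [aeval_rename, map_add, map_mul, map_mul] at h1
  have h2 := hres r hr
  have h3 : aeval (fun k => y (i.succAbove k.succ)) r =
      aeval (y ∘ fun k => i.succAbove k.succ) r := rfl
  rw [h3, h1] at h2
  have h4 : 0 < w (aeval y u * aeval y A + aeval y h * aeval y B) := by
    refine lt_of_lt_of_le (lt_min ?_ ?_) (AddValuation.map_add w _ _)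
    · rw [AddValuation.map_mul]
      exact lt_of_lt_of_le hpos (le_add_of_nonneg_right (hP _))
    · rw [AddValuation.map_mul]
      exact lt_of_lt_of_le hh (le_add_of_nonneg_right (hP _))
  rw [h2] at h4
  exact lt_irrefl _ h4

/-- The order of the partial derivative along a multiple component. -/
theorem TorusFac.partial_ge (H : TorusFac y F h g₀) (hd : h ∣ g₀)
    {w : AddValuation K (WithTop ℤ)} (hc : ∀ c : ℂ, c ≠ 0 → w (algebraMap ℂ K c) = 0)
    (hk : ∀ k, 0 ≤ w (y k)) {ν : ℕ} (h0 : w (y 0) = ((ν : ℤ) : WithTop ℤ))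
    (hh : 0 < w (aeval y h)) {i : Fin (e + 2)} (hi : i ≠ 0) (hi' : pderiv i h ≠ 0)
    (hpne : aeval y (pderiv i F) ≠ 0)
    (hres : ∀ P : MvPolynomial (Fin e) ℂ, P ≠ 0 →
      w (aeval (fun k => y (i.succAbove k.succ)) P) = 0) :
    (ν : ℤ) ≤ 2 * ov w (aeval y (pderiv i F)) := by
  classical
  have hP : ∀ P : MvPolynomial (Fin (e + 2)) ℂ, 0 ≤ w (aeval y P) := fun P =>
    aeval_nonneg' w hc y hk P
  have hg0 : g₀ ≠ 0 := by
    rintro rfl
    exact H.f0 (by rw [H.fac, mul_zero])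
  obtain ⟨u, hu, hndvd⟩ := (FiniteMultiplicity.of_not_isUnit H.irr.not_isUnit
    hg0).exists_eq_pow_mul_and_not_dvd
  set k := multiplicity h g₀ with hkdef
  have hk1 : 1 ≤ k := by
    by_contra hlt
    have h1 : k = 0 := by omega
    apply hndvd
    rw [h1, pow_zero, one_mul] at hu
    rwa [← hu]
  have redu : red e u = u := by
    have h1 := H.redg
    rw [hu, map_mul, map_pow, H.redh] at h1
    exact mul_left_cancel₀ (pow_ne_zero _ H.irr.ne_zero) h1
  have hu0 := H.cop_val hc hk hh hi hi' hres redu hndvd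
  obtain ⟨F₁, hF₁⟩ := sub_red_dvd F
  have hF : F = h ^ (k + 1) * u + X 0 * F₁ := by
    rw [← hF₁, H.fac, hu, pow_succ]; ring
  -- the order of `h`
  have h1 : ((ν : ℤ) : WithTop ℤ) ≤ (k + 1) • w (aeval y h) := by
    have h2 : aeval y h ^ (k + 1) * aeval y u = - (y 0 * aeval y F₁) := by
      have h3 := H.eqn
      rw [hF, map_add, map_mul, map_mul, map_pow, aeval_X] at h3
      linear_combination h3
    have h3 := congrArg w h2
    rw [AddValuation.map_neg, AddValuation.map_mul, AddValuation.map_pow, hu0, add_zero,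
      AddValuation.map_mul, h0] at h3
    rw [h3]
    exact le_add_of_nonneg_right (hP _)
  have h2 : ((ν : ℤ) : WithTop ℤ) ≤ 2 • (k • w (aeval y h)) := by
    refine h1.trans ?_
    rw [← mul_nsmul']
    exact nsmul_le_nsmul_left hh.le (by omega)
  obtain ⟨F₂, hF₂⟩ := sub_red_dvd (pderiv i F)
  let cc : MvPolynomial (Fin (e + 2)) ℂ := (k : MvPolynomial (Fin (e + 2)) ℂ) + 1
  have h3 : pderiv i F = h ^ k * (cc * u * pderiv i h + h * pderiv i u) + X 0 * F₂ := by
    simp only [cc]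
    rw [← hF₂, red_pderiv hi, H.fac, hu]
    have h4 : h * (h ^ k * u) = h ^ (k + 1) * u := by ring
    rw [h4]
    simp only [Derivation.leibniz, Derivation.leibniz_pow, smul_eq_mul, Nat.add_sub_cancel]
    simp only [nsmul_eq_mul]
    push_cast
    ring
  have h4 : ((ν : ℤ) : WithTop ℤ) ≤ 2 • w (aeval y (pderiv i F)) := by
    rw [h3, map_add, map_mul, map_pow, map_mul _ (X 0), aeval_X]
    have h5 := AddValuation.map_add w (aeval y h ^ k * aeval y (cc * u * pderiv i h +
      h * pderiv i u)) (y 0 * aeval y F₂)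
    rcases le_total (w (aeval y h ^ k * aeval y (cc * u * pderiv i h + h * pderiv i u)))
      (w (y 0 * aeval y F₂)) with h6 | h6
    · rw [min_eq_left h6] at h5
      refine h2.trans (nsmul_le_nsmul_right (le_trans ?_ h5) 2)
      rw [AddValuation.map_mul, AddValuation.map_pow]
      exact le_add_of_nonneg_right (hP _)
    · rw [min_eq_right h6] at h5
      have h7 : ((ν : ℤ) : WithTop ℤ) ≤ w (y 0 * aeval y F₂) := by
        rw [AddValuation.map_mul, h0]
        exact le_add_of_nonneg_right (hP _)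
      refine (h7.trans h5).trans ?_
      rw [two_nsmul]
      exact le_add_of_nonneg_right (le_trans (by exact_mod_cast Int.natCast_nonneg ν) (h7.trans h5))
  rw [← coe_ov w hpne, ← WithTop.coe_nsmul] at h4
  have h5 : (ν : ℤ) ≤ 2 • ov w (aeval y (pderiv i F)) := by exact_mod_cast h4
  simpa using h5

end Cop

variable {N s M : ℕ}

/-- The lower bound for the toric log discrepancies, for all hypersurfaces. -/
theorem psi_bound2 {e : ℕ} {L : Type} [Field L] [Algebra ℂ L] {v : Fin N → Fin (e + 2) → ℤ}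
    {y : Fin (e + 2) → L} {f : MvPolynomial (Fin (e + 2)) ℂ} (H : HypData y f)
    {D' : Fin (e + 1) → Derivation ℂ L L} {h : L} (R : ResForm y f D' h)
    {g : Fin s → MvPolynomial (Fin (e + 2)) ℂ} (hg : ∀ i, aeval y (g i) ≠ 0) {c : Fin s → ℚ}
    (hc : ∀ i, 0 ≤ c i) {r : ℕ} {E : Fin (M + 1) → Fin (e + 2) → ℤ} {ε : ℝ} (hε : 0 < ε)
    (hlc : LcZ v y D' h g c r E ε) : PsiBound v f g c r E (min ε (1 / 2)) := by
  classical
  intro A hA hnm hA0 α hα hmin
  have hg0 : ∀ i, g i ≠ 0 := fun i h0 => hg i (by rw [h0, map_zero])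
  have HD : DiagData L y f (⊥ : Subgroup (L ≃ₐ[ℂ] L)) :=
    { gen := H.gen
      ker := H.ker
      f0 := H.f0
      x0 := H.x0
      fin := inferInstance
      diag := by
        intro τ hτ j
        rw [Subgroup.mem_bot] at hτ
        exact ⟨1, by rw [hτ]; simp⟩
      fix := by
        intro z
        refine ⟨fun _ τ hτ => ?_, fun _ => ⟨z, rfl⟩⟩
        rw [Subgroup.mem_bot] at hτ
        rw [hτ]; rfl }
  obtain ⟨μ, hμ, α', hα', β', hβ', hne, hα'm, hβ'm⟩ := hnm
  have hαm : wtZ A α = μ := le_antisymm (by rw [← hα'm]; exact hmin α' hα') (hμ.2 α hα)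
  obtain ⟨c₁, b, hb⟩ := exists_adaptedZ HD A hA0 1 one_pos (fun _ _ => by simp)
  have hc₁ : 0 < c₁ := hb.c0
  have hc₁Q : (0 : ℚ) < c₁ := by exact_mod_cast hc₁
  have hc₁Z : (0 : ℤ) < c₁ := by exact_mod_cast hc₁
  have hyex : ∀ k, ∃ y' : L, algebraMap L L y' = monoT y (vecs b k) := fun k => ⟨_, rfl⟩
  choose y' hy' using hyex
  obtain ⟨h', g₀, TF⟩ := torusFac hb hα hμ hα' hβ' hα'm hβ'm hne hy'
  haveI := H.ess
  -- the values of the valuations
  have key : ∀ (v' : AddValuation L (WithTop ℤ)) (i : Fin (e + 2)) (ν : ℕ), i ≠ 0 → 0 < ν →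
      Q.IsDivisorial (e + 1) v' → v' (y' 0) = ((ν : ℤ) : WithTop ℤ) →
      (∀ k, k ≠ 0 → v' (y' k) = 0) → (∀ P : MvPolynomial (Fin e) ℂ, P ≠ 0 →
        v' (aeval (fun k => y' (i.succAbove k.succ)) P) = 0) →
      ∃ (w : AddValuation L (WithTop ℤ)) (m' : ℤ), Q.IsDivisorial (e + 1) w ∧
        Q.FormOrder w D' m' ∧ (∀ j, (c₁ : ℤ) * wts w y j = ν * A j) ∧
        Z647.InCone v (wts w y) ∧
        (c₁ : ℤ) * (1 + m' - ov w h) = ν * (∑ j, A j - μ) -
          c₁ * ov v' (aeval y' (pderiv i (HD.eqY b α))) := by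
    intro v' i ν hi hν hv' hv0 hvk hres
    obtain ⟨e₀, w, he₀, hw, hvw, hx, hord⟩ := psi_gen HD A 1 hb hμ hα hαm hy' TF.y0 hi hν hv' hv0
      hvk hres
    have he1 : e₀ = 1 := by
      obtain ⟨t, ht⟩ := hw.normalized
      have ht0 : t ≠ 0 := ne_zero_of_eq w (n := 1) (by simpa using ht)
      have h1 := hvw t
      have h2 : (algebraMap L L t) = t := rfl
      rw [h2, ht, ← coe_ov v' ht0, ← WithTop.coe_nsmul, nsmul_eq_mul] at h1
      have h3 : (1 : ℤ) = e₀ * ov v' t := by exact_mod_cast h1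
      have h4 : (e₀ : ℤ) ∣ 1 := ⟨_, h3⟩
      have h5 := Int.eq_one_of_dvd_one (by positivity) h4
      exact_mod_cast h5
    subst he1
    obtain ⟨m', hm'⟩ := order_exists (Nat.succ_pos e) H.trdeg D' R.jac_ne hw
    have h1 := hord D' h R m' hm'
    have hxA : ∀ j, (c₁ : ℤ) * wts w y j = ν * A j := by
      intro j
      have h2 := hx j
      push_cast at h2
      rw [one_mul, one_mul] at h2
      exact h2
    refine ⟨w, m', hw, hm', hxA, ?_, ?_⟩
    · obtain ⟨t, ht, htA⟩ := hA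
      refine ⟨fun j => ν * t j / c₁, fun j => div_nonneg (mul_nonneg (Nat.cast_nonneg _) (ht j))
        hc₁Q.le, fun k => ?_⟩
      have h2 : (c₁ : ℚ) * (wts w y k : ℚ) = ν * (A k : ℚ) := by exact_mod_cast hxA k
      have h3 : (wts w y k : ℚ) = ν * A k / c₁ := by
        rw [← h2]; field_simp
      rw [h3, htA, Finset.mul_sum, Finset.sum_div]
      exact Finset.sum_congr rfl fun j _ => by ring
    · push_cast at h1
      rw [one_mul, one_mul, one_mul] at h1
      exact h1
  have hc₁R : (1 : ℝ) ≤ c₁ := by exact_mod_cast hc₁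
  by_cases hd : h' ∣ g₀
  · -- a multiple component
    obtain ⟨v', i, ν, hi, hν, hv', hv0, hvk, hvh, hpne, hres, hi'⟩ := TF.exists_val hd
    obtain ⟨w, m', hw, hm', hxA, hcone, hval⟩ := key v' i ν hi hν hv' hv0 hvk hres
    have hνZ : (0 : ℤ) < ν := by exact_mod_cast hν
    have hρ : (ν : ℤ) ≤ 2 * ov v' (aeval y' (pderiv i (HD.eqY b α))) :=
      TF.partial_ge hd hv'.const (fun k => by
        by_cases hk : k = 0
        · rw [hk, hv0]; exact_mod_cast hνZ.le
        · rw [hvk k hk]) hv0 hvh hi hi' hpne hres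
    have h2 := hlc w m' hw hcone hm'
    have h3 := Phi_le hw.const H.x0 hg hc r E
    have h4 := Phi_smul hg0 c r E (wts w y) (fun j => ν * A j) c₁ hxA
    have h4' := Phi_smul hg0 c r E A (fun j => (ν : ℤ) * A j) ν (fun j => rfl)
    have h5 : (c₁ : ℝ) * (1 + (m' : ℝ) - ov w h) = ν * (∑ j, (A j : ℝ) - μ) -
        c₁ * ov v' (aeval y' (pderiv i (HD.eqY b α))) := by
      have := congrArg (Int.cast : ℤ → ℝ) hval
      push_cast at this
      linarith
    rw [hαm]
    have h6 : ε ≤ 1 + (m' : ℝ) - ov w h - Phi g c r E (wts w y) := by linarith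
    have h7 : (c₁ : ℝ) * ε ≤ c₁ * (1 + (m' : ℝ) - ov w h - Phi g c r E (wts w y)) :=
      mul_le_mul_of_nonneg_left h6 (by linarith)
    have h8 : (c₁ : ℝ) * Phi g c r E (wts w y) = ν * Phi g c r E A := by
      rw [← h4, h4']
    have hνR : (0 : ℝ) < ν := by exact_mod_cast hν
    have hρR : (ν : ℝ) ≤ 2 * ov v' (aeval y' (pderiv i (HD.eqY b α))) := by exact_mod_cast hρ
    refine le_trans (min_le_right _ _) ?_
    have h9 : (ν : ℝ) * (1 / 2) ≤ ν * (∑ j, (A j : ℝ) - μ - Phi g c r E A) := by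
      have h10 : (ν : ℝ) * (∑ j, (A j : ℝ) - μ - Phi g c r E A) =
          c₁ * (1 + (m' : ℝ) - ov w h - Phi g c r E (wts w y)) +
          c₁ * ov v' (aeval y' (pderiv i (HD.eqY b α))) := by
        rw [mul_sub, mul_sub (c₁ : ℝ), h8, h5]; ring
      rw [h10]
      have h11 : (ν : ℝ) / 2 ≤ ov v' (aeval y' (pderiv i (HD.eqY b α))) := by linarith
      have h12 : (ov v' (aeval y' (pderiv i (HD.eqY b α))) : ℝ) ≤
          c₁ * ov v' (aeval y' (pderiv i (HD.eqY b α))) :=
        le_mul_of_one_le_left (by linarith) hc₁R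
      have h13 : 0 ≤ (c₁ : ℝ) * ε := by positivity
      linarith
    exact le_of_mul_le_mul_left h9 hνR
  have TH : TorusHyp y' (HD.eqY b α) h' g₀ :=
    { y0 := TF.y0
      gen := TF.gen
      eqn := TF.eqn
      ker := TF.ker
      fac := TF.fac
      redh := TF.redh
      redg := TF.redg
      irr := TF.irr
      nomon := TF.nomon
      sq := hd }
  obtain ⟨v', i, hi, hv', hv0, hvk, hvF, hres⟩ := TH.main
  obtain ⟨w, m', hw, hm', hxA, hcone, hval⟩ := key v' i 1 hi one_pos hv'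
    (by rw [hv0]; rfl) hvk hres
  have hρ0 : ov v' (aeval y' (pderiv i (HD.eqY b α))) = 0 := ov_eq_of v' (by simpa using hvF)
  rw [hρ0, mul_zero, sub_zero] at hval
  have hxA' : ∀ j, (c₁ : ℤ) * wts w y j = A j := fun j => by
    have := hxA j
    rwa [Nat.cast_one, one_mul] at this
  rw [Nat.cast_one, one_mul] at hval
  have h2 := hlc w m' hw hcone hm'
  have h3 := Phi_le hw.const H.x0 hg hc r E
  have h4 := Phi_smul hg0 c r E (wts w y) A c₁ hxA'
  have h5 : (c₁ : ℝ) * (1 + (m' : ℝ) - ov w h) = ∑ j, (A j : ℝ) - μ := by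
    have := congrArg (Int.cast : ℤ → ℝ) hval
    push_cast at this
    linarith
  refine le_trans (min_le_left _ _) ?_
  rw [hαm, h4, ← h5]
  have h6 : ε ≤ 1 + (m' : ℝ) - ov w h - Phi g c r E (wts w y) := by linarith
  have h7 : (c₁ : ℝ) * ε ≤ c₁ * (1 + (m' : ℝ) - ov w h - Phi g c r E (wts w y)) :=
    mul_le_mul_of_nonneg_left h6 (by linarith)
  nlinarith

end Vale.Agent.P283.H108
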