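import Vale.Agent.P283.H108.DefsFib
import Vale.Agent.P283.H108.BertX
import Vale.Agent.P283.H108.LocMain

/-!
Bounded klt complements for pairs with a Galois cover with a rational map to a hypersurface in a
torus.
-/

set_option linter.all false

namespace Vale.Agent.P283.H108

open MvPolynomial Finset
open Vale.Agent.P283.Z647
open Vale.Agent.P283.H647 (ResForm HypData order_exists order_unique order_transfer exists_ext
  isAlgebraic_of_fix toE toE_apply exists_shift ov_algebraMap)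

/-- The norm of a function. -/
theorem exists_normG {J : ℕ} {K L : Type} [Field K] [Field L] [Algebra ℂ K] [Algebra ℂ L]
    [Algebra K L] {Γ : Subgroup (L ≃ₐ[ℂ] L)} (hfin : Finite Γ) (hcard : Nat.card Γ ≤ J)
    (hfield : ∀ z : L, z ∈ Set.range (algebraMap K L) ↔ ∀ τ ∈ Γ, τ z = z) (F : L) (hF0 : F ≠ 0) :
    ∃ φ : K, φ ≠ 0 ∧ ∀ (w : AddValuation L (WithTop ℤ)) (v : AddValuation K (WithTop ℤ)) (e : ℕ),
      (∀ f : K, w (algebraMap K L f) = e • v f) →
      (∀ b : ℚ, (∀ τ ∈ Γ, b ≤ ov w (τ F)) → (J.factorial : ℚ) * b ≤ e * ov v φ) ∧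
      (∀ b : ℚ, (∀ τ ∈ Γ, (ov w (τ F) : ℚ) < b) → (e : ℚ) * ov v φ < (J.factorial : ℚ) * b) := by
  classical
  haveI : Finite Γ := hfin
  letI : Fintype Γ := Fintype.ofFinite _
  let P : L := ∏ τ : Γ, (τ : L ≃ₐ[ℂ] L) F
  have hP0 : P ≠ 0 := Finset.prod_ne_zero_iff.2 fun c _ => by
    simpa using hF0
  have hPinv : ∀ τ ∈ Γ, τ P = P := by
    intro τ hτ
    simp only [P]
    rw [map_prod]
    exact Fintype.prod_equiv (Equiv.mulLeft (⟨τ, hτ⟩ : Γ)) _ _ fun c => rfl
  set j : ℕ := Nat.card Γ with hj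
  have hj0 : 0 < j := Nat.card_pos
  have hjJ : j ≤ J := hcard
  obtain ⟨M, hM⟩ : j ∣ J.factorial := Nat.dvd_factorial hj0 hjJ
  have hM0 : 0 < M := by
    rcases Nat.eq_zero_or_pos M with h | h
    · rw [h, mul_zero] at hM
      exact absurd hM (Nat.factorial_ne_zero J)
    · exact h
  obtain ⟨φ, hφ⟩ := (hfield (P ^ M)).2 fun τ hτ => by rw [map_pow, hPinv τ hτ]
  have hφ0 : φ ≠ 0 := by
    rintro rfl
    rw [map_zero] at hφ
    exact pow_ne_zero M hP0 hφ.symm
  refine ⟨φ, hφ0, ?_⟩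
  intro w v e hvw
  have key : (e : ℚ) * ov v φ = M * ∑ c : Γ, (ov w ((c : L ≃ₐ[ℂ] L) F) : ℚ) := by
    have h1 := hvw φ
    have h2 : ov w (algebraMap K L φ) = e * ov v φ := by
      apply ov_eq_of
      rw [h1, ← coe_ov v hφ0, ← WithTop.coe_nsmul]
      simp
    have h3 : (e : ℤ) * ov v φ = M * ∑ c : Γ, ov w ((c : L ≃ₐ[ℂ] L) F) := by
      rw [← h2, hφ, ov_pow w hP0]
      congr 1
      exact ov_prod _ _ fun c _ => by simpa using hF0
    exact_mod_cast h3
  have hcard' : (Fintype.card Γ : ℚ) = j := by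
    rw [hj, Nat.card_eq_fintype_card]
  have hMJ : (J.factorial : ℚ) = M * j := by
    rw [hM]; push_cast; ring
  constructor
  · intro b hb
    rw [key, hMJ, mul_assoc]
    apply mul_le_mul_of_nonneg_left _ (by positivity)
    rw [← hcard']
    have := Finset.card_nsmul_le_sum (Finset.univ : Finset Γ)
      (fun c => (ov w ((c : L ≃ₐ[ℂ] L) F) : ℚ)) b fun c _ => hb _ c.2
    simpa using this
  · intro b hb
    rw [key, hMJ, mul_assoc]
    apply mul_lt_mul_of_pos_left _ (by exact_mod_cast hM0)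
    rw [← hcard']
    haveI : Nonempty Γ := ⟨1⟩
    have := Finset.sum_lt_sum_of_nonempty (s := (Finset.univ : Finset Γ))
      (f := fun c : Γ => (ov w ((c : L ≃ₐ[ℂ] L) F) : ℚ)) (g := fun _ => b) Finset.univ_nonempty
      fun c _ => hb _ c.2
    simpa using this

/-- Functions which are regular exactly over the open subset `{b ≠ 0}` of `Z`. -/
theorem exists_sigma {K L : Type} [Field K] [Field L] [Algebra ℂ K] [Algebra ℂ L] [Algebra K L]
    [IsScalarTower ℂ K L] {A : Subalgebra ℂ K} (hA : A.FG) {b : K} (hb : b ≠ 0) :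
    ∃ (t : ℕ) (σ : Fin t → L), ∀ w : AddValuation L (WithTop ℤ),
      (∀ c : ℂ, c ≠ 0 → w (algebraMap ℂ L c) = 0) →
      ((∀ i, 0 ≤ w (σ i)) ↔
        (∀ z ∈ A, 0 ≤ w (algebraMap K L z)) ∧ w (algebraMap K L b) = 0) := by
  classical
  obtain ⟨T, hT⟩ := hA
  have hbL : algebraMap K L b ≠ 0 := (map_ne_zero _).2 hb
  refine ⟨T.card + 1 + 1, Fin.cons (algebraMap K L b) (Fin.cons (algebraMap K L b)⁻¹
    (fun i => algebraMap K L ((T.equivFin.symm i : T) : K))), fun w hc => ?_⟩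
  have key : (∀ i, 0 ≤ w ((Fin.cons (algebraMap K L b) (Fin.cons (algebraMap K L b)⁻¹
      (fun i => algebraMap K L ((T.equivFin.symm i : T) : K))) : Fin (T.card + 1 + 1) → L) i)) ↔
      0 ≤ w (algebraMap K L b) ∧ 0 ≤ w (algebraMap K L b)⁻¹ ∧
        ∀ i : Fin T.card, 0 ≤ w (algebraMap K L ((T.equivFin.symm i : T) : K)) := by
    rw [Fin.forall_fin_succ, Fin.forall_fin_succ]
    simp only [Fin.cons_zero, Fin.cons_succ]
  rw [key]
  have hb2 : (0 ≤ w (algebraMap K L b) ∧ 0 ≤ w (algebraMap K L b)⁻¹) ↔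
      w (algebraMap K L b) = 0 := by
    rw [nonneg_iff w hbL, nonneg_iff w (inv_ne_zero hbL), ov_inv, eq_zero_iff w hbL]
    constructor
    · rintro ⟨h1, h2⟩; omega
    · intro h1; omega
  constructor
  · rintro ⟨h1, h2, h3⟩
    refine ⟨?_, hb2.1 ⟨h1, h2⟩⟩
    intro z hz
    rw [← hT] at hz
    induction hz using Algebra.adjoin_induction with
    | mem z hz =>
      have h4 := h3 (T.equivFin ⟨z, hz⟩)
      rwa [Equiv.symm_apply_apply] at h4
    | algebraMap c =>
      rw [← IsScalarTower.algebraMap_apply ℂ K L]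
      by_cases h0 : c = 0
      · rw [h0, map_zero, AddValuation.map_zero]; exact le_top
      · rw [hc c h0]
    | add x z _ _ hx hz =>
      rw [map_add]
      exact le_trans (le_min hx hz) (AddValuation.map_add w _ _)
    | mul x z _ _ hx hz =>
      rw [map_mul, AddValuation.map_mul]; exact add_nonneg hx hz
  · rintro ⟨h1, h2⟩
    obtain ⟨h3, h4⟩ := hb2.2 h2
    refine ⟨h3, h4, fun i => ?_⟩
    apply h1
    rw [← hT]
    exact Algebra.subset_adjoin (T.equivFin.symm i : T).2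

end Vale.Agent.P283.H108
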