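import Vale.Agent.P283.H647.Base
import Vale.Agent.P283.N647.E3

/-!
Finite extensions of the function field of a hypersurface in a torus.
-/

set_option linter.all false

namespace Vale.Agent.P283.H108

open MvPolynomial Finset
open Vale.Agent.P283.H647 (ResForm HypData order_exists order_unique order_transfer exists_ext
  exists_form exists_res jac_map)

variable {d : ℕ} {L : Type} [Field L] [Algebra ℂ L]

/-- `L` is a finite extension of the function field of the hypersurface `{f = 0}`. -/
structure FinData (x : Fin (d + 1) → L) (f : MvPolynomial (Fin (d + 1)) ℂ) : Prop where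
  fin : FiniteDimensional (IntermediateField.adjoin ℂ (Set.range x)) L
  ker : ∀ P : MvPolynomial (Fin (d + 1)) ℂ, aeval x P = 0 ↔ f ∣ P
  f0 : f ≠ 0
  x0 : ∀ j, x j ≠ 0

/-- The coordinates as elements of the field which they generate. -/
def base (x : Fin (d + 1) → L) (k : Fin (d + 1)) : IntermediateField.adjoin ℂ (Set.range x) :=
  ⟨x k, IntermediateField.subset_adjoin ℂ _ ⟨k, rfl⟩⟩

theorem base_aeval (x : Fin (d + 1) → L) (P : MvPolynomial (Fin (d + 1)) ℂ) :
    algebraMap (IntermediateField.adjoin ℂ (Set.range x)) L (aeval (base x) P) = aeval x P := by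
  have h1 : x = (algebraMap (IntermediateField.adjoin ℂ (Set.range x)) L) ∘ base x := rfl
  have h2 := MvPolynomial.aeval_algebraMap_apply (R := ℂ)
    (A := IntermediateField.adjoin ℂ (Set.range x)) L (base x) P
  rw [← h2, ← h1]

variable {x : Fin (d + 1) → L} {f : MvPolynomial (Fin (d + 1)) ℂ}

namespace FinData

theorem eqn (H : FinData x f) : aeval x f = 0 := (H.ker f).2 dvd_rfl

theorem hyp₀ (H : FinData x f) : HypData (base x) f where
  gen := by
    rintro ⟨g, hg⟩
    obtain ⟨P, Q, h2⟩ := (IntermediateField.mem_adjoin_range_iff ℂ x g).1 hg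
    by_cases hQ : aeval x Q = 0
    · refine ⟨0, 1, by simp, ?_⟩
      apply Subtype.ext
      rw [map_zero, zero_div]
      show g = 0
      rw [h2, hQ]; simp
    · refine ⟨P, Q, ?_, ?_⟩
      · intro h0
        apply hQ
        rw [← base_aeval, h0, map_zero]
      · apply (algebraMap (IntermediateField.adjoin ℂ (Set.range x)) L).injective
        rw [map_div₀, base_aeval, base_aeval]
        exact h2
  ker := by
    intro P
    rw [← H.ker P, ← base_aeval x P]
    exact (map_eq_zero_iff _ (algebraMap (IntermediateField.adjoin ℂ (Set.range x)) L).injective).symm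
  f0 := H.f0
  x0 := by
    intro k h0
    apply H.x0 k
    exact congrArg Subtype.val h0

theorem alg (H : FinData x f) :
    Algebra.IsAlgebraic (IntermediateField.adjoin ℂ (Set.range x)) L := by
  haveI := H.fin
  exact Algebra.IsAlgebraic.of_finite _ _

theorem ess (H : FinData x f) : Algebra.EssFiniteType ℂ L := by
  haveI := H.hyp₀.ess
  haveI := H.fin
  exact Algebra.EssFiniteType.comp ℂ (IntermediateField.adjoin ℂ (Set.range x)) L

theorem trdeg (H : FinData x f) : Algebra.trdeg ℂ L = (d : ℕ) := by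
  rw [← gen_trdeg H.alg, H.hyp₀.trdeg]

theorem exists_pd (H : FinData x f) : ∃ i, aeval x (pderiv i f) ≠ 0 := by
  obtain ⟨i, hi⟩ := H.hyp₀.exists_pd
  refine ⟨i, fun h0 => hi ?_⟩
  apply (algebraMap (IntermediateField.adjoin ℂ (Set.range x)) L).injective
  rw [base_aeval, h0, map_zero]

theorem basis (H : FinData x f) {i : Fin (d + 1)} (hi : aeval x (pderiv i f) ≠ 0) :
    IsTranscendenceBasis ℂ (x ∘ i.succAbove) := by
  haveI := H.alg
  have hi' : aeval (base x) (pderiv i f) ≠ 0 := by
    intro h0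
    apply hi
    rw [← base_aeval, h0, map_zero]
  exact (H.hyp₀.basis hi').algebraMap_comp (A := L)

theorem jac_ne (H : FinData x f) {i : Fin (d + 1)} (hi : aeval x (pderiv i f) ≠ 0)
    {D' : Fin d → Derivation ℂ L L} (hD' : ∃ g, Q.jac D' g ≠ 0) :
    Q.jac D' (x ∘ i.succAbove) ≠ 0 := by
  obtain ⟨ω, hω, hω'⟩ := exists_form H.trdeg D' hD'
  obtain ⟨B, hB⟩ := exists_kaehler_basis _ (H.basis hi)
  have h1 := wedgeD_basis_ne_zero B hB
  rw [hω'] at h1
  intro h0
  rw [h0, zero_smul] at h1
  exact h1 rfl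

theorem exists_resForm (H : FinData x f) {D' : Fin d → Derivation ℂ L L}
    (hD' : ∃ g, Q.jac D' g ≠ 0) : ∃ h, ResForm x f D' h := by
  obtain ⟨i, hi⟩ := H.exists_pd
  exact exists_res x H.x0 f H.eqn D' i hi (H.jac_ne hi hD')

theorem rho_indep (H : FinData x f) (hd : 0 < d) {D' D'' : Fin d → Derivation ℂ L L}
    {h h' : L} (R : ResForm x f D' h) (R' : ResForm x f D'' h')
    {w : AddValuation L (WithTop ℤ)} (hw : Q.IsDivisorial d w) {m m' : ℤ}
    (hm : Q.FormOrder w D' m) (hm' : Q.FormOrder w D'' m') : m - ov w h = m' - ov w h' := by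
  haveI := H.ess
  obtain ⟨ω, hω, hω'⟩ := exists_form H.trdeg D' R.jac_ne
  obtain ⟨η, hη, hη'⟩ := exists_form H.trdeg D'' R'.jac_ne
  obtain ⟨i, hi⟩ := R.smooth
  have h1 : (-1 : L) ^ (i : ℕ) * aeval x (pderiv i f) ≠ 0 :=
    mul_ne_zero (pow_ne_zero _ (by norm_num)) hi
  have h2 := R.res i
  have h3 := R'.res i
  have hj : Q.jac D' (x ∘ i.succAbove) ≠ 0 := fun h0 => by
    rw [h0, mul_zero] at h2; exact h1 h2.symm
  have hj' : Q.jac D'' (x ∘ i.succAbove) ≠ 0 := fun h0 => by
    rw [h0, mul_zero] at h3; exact h1 h3.symm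
  have h4 : η = (h' / h) • ω := by
    have e1 := hω' (x ∘ i.succAbove)
    have e2 := hη' (x ∘ i.succAbove)
    rw [e1] at e2
    have e3 : Q.jac D' (x ∘ i.succAbove) = (h' / h) * Q.jac D'' (x ∘ i.succAbove) := by
      rw [div_mul_eq_mul_div, eq_div_iff R.h0, h3, ← h2, mul_comm]
    have e4 : Q.jac D'' (x ∘ i.succAbove) • η = Q.jac D'' (x ∘ i.succAbove) • ((h' / h) • ω) := by
      rw [← e2, smul_smul, e3, mul_comm]
    exact smul_right_injective _ hj' e4
  have h5 := formOrder_smul' hd H.trdeg.le (divisorial_iff.1 hw)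
    ((formOrder_iff_jac hω hω').1 hm) (div_ne_zero R'.h0 R.h0)
  rw [← h4] at h5
  have h6 := formOrder_unique h5 ((formOrder_iff_jac hη hη').1 hm')
  rw [ov_div w R'.h0 R.h0] at h6
  omega

theorem res_of (H : FinData x f) {D' : Fin d → Derivation ℂ L L} {h : L}
    (hres : ∀ i : Fin (d + 1),
      h * Q.jac D' (x ∘ i.succAbove) = (-1) ^ (i : ℕ) * aeval x (pderiv i f)) :
    ResForm x f D' h := by
  obtain ⟨i₀, hi₀⟩ := H.exists_pd
  exact
    { x0 := H.x0
      eqn := H.eqn
      smooth := ⟨i₀, hi₀⟩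
      h0 := by
        rintro rfl
        have h1 := hres i₀
        rw [zero_mul] at h1
        exact hi₀ ((mul_eq_zero.1 h1.symm).resolve_left (pow_ne_zero _ (neg_ne_zero.2 one_ne_zero)))
      res := hres }

end FinData

end Vale.Agent.P283.H108
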