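import Vale.Agent.P283.H108.KltN

/-!
The conditions on the function field of the hypersurface.
-/

set_option linter.all false

namespace Vale.Agent.P283.H108

open MvPolynomial Finset
open Vale.Agent.P283.Z647
open Vale.Agent.P283.H647 (ResForm HypData order_exists order_unique ov_algebraMap)

variable {d : ℕ} {L : Type} [Field L] [Algebra ℂ L]

theorem finData_base {y : Fin (d + 1) → L} {f : MvPolynomial (Fin (d + 1)) ℂ}
    (H : FinData y f) : FinData (base y) f := by
  have H₀ := H.hyp₀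
  refine ⟨?_, H₀.ker, H₀.f0, H₀.x0⟩
  have h1 : IntermediateField.adjoin ℂ (Set.range (base y)) = ⊤ := by
    rw [eq_top_iff]
    rintro z -
    obtain ⟨P, Q, hQ, rfl⟩ := H₀.gen z
    rw [IntermediateField.mem_adjoin_range_iff]
    exact ⟨P, Q, rfl⟩
  rw [h1]
  refine Module.Finite.of_surjective (Algebra.linearMap
    (⊤ : IntermediateField ℂ (IntermediateField.adjoin ℂ (Set.range y)))
    (IntermediateField.adjoin ℂ (Set.range y))) fun z => ⟨⟨z, trivial⟩, rfl⟩

section Down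

variable {E L : Type} [Field E] [Field L] [Algebra ℂ E] [Algebra ℂ L] [Algebra E L]
  [IsScalarTower ℂ E L] [FiniteDimensional E L] {N s M : ℕ} {v : Fin N → Fin (d + 1) → ℤ}
  {x : Fin (d + 1) → E} {f : MvPolynomial (Fin (d + 1)) ℂ}
  {g : Fin s → MvPolynomial (Fin (d + 1)) ℂ} {c : Fin s → ℚ}
  (HE : FinData x f) (HL : FinData (fun k => algebraMap E L (x k)) f) (hd : 0 < d)
  (hg : ∀ i, aeval x (g i) ≠ 0)
include HE HL hd hg

/-- The `ε`-lc condition descends. -/
theorem lcZ_down {D₀ : Fin d → Derivation ℂ E E} {h₀ : E} (R₀ : ResForm x f D₀ h₀)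
    {D : Fin d → Derivation ℂ L L} {h : L} (R : ResForm (fun k => algebraMap E L (x k)) f D h)
    {r : ℕ} {E' : Fin (M + 1) → Fin (d + 1) → ℤ} {ε : ℝ} (hε : 0 < ε)
    (hlc : LcZ v (fun k => algebraMap E L (x k)) D h g c r E' ε) :
    LcZ v x D₀ h₀ g c r E' (ε / Module.finrank E L) := by
  haveI := HE.ess
  haveI := HL.ess
  haveI : CharZero E := charZero_of_injective_algebraMap (algebraMap ℂ E).injective
  intro w₀ m₀ hw₀ hcone hm₀
  obtain ⟨w, e, he, hw1, hww⟩ := exists_extension (L := L) w₀ hw₀.normalized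
  have hw : Q.IsDivisorial d w :=
    divisorial_iff.2 (isDivisorial_of_ext (divisorial_iff.1 hw₀) hw1 hww)
  obtain ⟨m, hm⟩ := order_exists hd HL.trdeg D R.jac_ne hw
  have hwx : ∀ k, wts w (fun k => algebraMap E L (x k)) k = e * wts w₀ x k := fun k => by
    unfold wts
    rw [ov_algebraMap hww (HE.x0 k)]
  have hwg : ∀ i, ov w (aeval (fun k => algebraMap E L (x k)) (g i)) =
      e * ov w₀ (aeval x (g i)) := fun i => by
    rw [aeval_map, ov_algebraMap hww (hg i)]
  have h1 := hlc w m hw ((inCone_scale he hwx).2 hcone) hm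
  have h2 := transfer_disc HE HL hd R₀ R he hw₀ hw hww hm₀ hm
  have h3 : (1 : ℝ) + m - ov w h = e * (1 + m₀ - ov w₀ h₀) := by exact_mod_cast h2
  have h4 := ordMono_smul E' _ _ e fun k => (hwx k).symm
  have h5 : ∑ i, (c i : ℝ) * (ov w (aeval (fun k => algebraMap E L (x k)) (g i)) : ℝ) =
      e * ∑ i, (c i : ℝ) * (ov w₀ (aeval x (g i)) : ℝ) := by
    rw [Finset.mul_sum]
    exact Finset.sum_congr rfl fun i _ => by rw [hwg]; push_cast; ring
  rw [h3, h4, h5] at h1
  push_cast at h1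
  have heR : (0 : ℝ) < e := by exact_mod_cast he
  have hen : (e : ℝ) ≤ Module.finrank E L := by
    exact_mod_cast N647.e3 E L w₀ w e he hw1 hww
  have h6 : ε ≤ e * (1 + m₀ - ov w₀ h₀ - ∑ i, (c i : ℝ) * (ov w₀ (aeval x (g i)) : ℝ) -
      (ordMono E' (wts w₀ x) : ℝ) / r) := by
    refine h1.trans (le_of_eq ?_)
    ring
  have h7 : 0 < 1 + (m₀ : ℝ) - ov w₀ h₀ - ∑ i, (c i : ℝ) * (ov w₀ (aeval x (g i)) : ℝ) -
      (ordMono E' (wts w₀ x) : ℝ) / r := by
    by_contra hneg
    push Not at hneg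
    have := mul_nonpos_of_nonneg_of_nonpos heR.le hneg
    linarith
  have hn : (0 : ℝ) < Module.finrank E L := lt_of_lt_of_le heR hen
  rw [div_le_iff₀ hn]
  calc ε ≤ e * _ := h6
    _ ≤ Module.finrank E L * _ := mul_le_mul_of_nonneg_right hen h7.le
    _ = _ := mul_comm _ _

end Down

/-- The inequality of the theorem of Bertini type in a finite extension. -/
theorem bertini_up {E L : Type} [Field E] [Field L] [Algebra ℂ E] [Algebra ℂ L] [Algebra E L]
    [IsScalarTower ℂ E L] [FiniteDimensional E L] {e N s : ℕ} {v : Fin N → Fin (e + 2) → ℤ}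
    {x : Fin (e + 2) → E} {f : MvPolynomial (Fin (e + 2)) ℂ}
    {g : Fin s → MvPolynomial (Fin (e + 2)) ℂ} {S : MvPolynomial (Fin (e + 2)) ℂ}
    (HE : FinData x f) (HL : FinData (fun k => algebraMap E L (x k)) f) (hd : 0 < e + 1)
    (H₀ : HypData x f) {D₀ : Fin (e + 1) → Derivation ℂ E E} {h₀ : E} (R₀ : ResForm x f D₀ h₀)
    {D : Fin (e + 1) → Derivation ℂ L L} {h : L}
    (R : ResForm (fun k => algebraMap E L (x k)) f D h) (hg : ∀ i, aeval x (g i) ≠ 0)
    {q : ℕ} {cq : Fin s → ℕ} (hlc : TorLC v x f g D₀ h₀ q cq) (hS0 : S ≠ 0)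
    (hgen : GenCoeff f g S) {w : AddValuation L (WithTop ℤ)} (hw : Q.IsDivisorial (e + 1) w)
    (hcone : Z647.InCone v (wts w (fun k => algebraMap E L (x k)))) {m : ℤ}
    (hm : Q.FormOrder w D m) :
    ∑ i, (cq i : ℤ) * (ov w (aeval (fun k => algebraMap E L (x k)) (g i)) -
        minWt (g i) (wts w (fun k => algebraMap E L (x k)))) +
      q * (ov w (aeval (fun k => algebraMap E L (x k)) S) -
        minWt S (wts w (fun k => algebraMap E L (x k)))) ≤
      q * (1 + m - ov w h - ∑ j, wts w (fun k => algebraMap E L (x k)) j +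
        minWt f (wts w (fun k => algebraMap E L (x k)))) := by
  haveI := HE.ess
  haveI : Algebra.IsAlgebraic E L := Algebra.IsAlgebraic.of_finite E L
  obtain ⟨w₀, e₀, he, hw₀', hww⟩ := exists_restriction (K := E) (e + 1) w (divisorial_iff.1 hw)
  have hw₀ : Q.IsDivisorial (e + 1) w₀ := divisorial_iff.2 hw₀'
  obtain ⟨m₀, hm₀⟩ := order_exists hd HE.trdeg D₀ R₀.jac_ne hw₀
  have hg0 : ∀ i, g i ≠ 0 := fun i h0 => hg i (by rw [h0, map_zero])
  have hxS := hgen.aeval_ne H₀ hS0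
  have hwx : ∀ k, wts w (fun k => algebraMap E L (x k)) k = e₀ * wts w₀ x k := fun k => by
    unfold wts
    rw [ov_algebraMap hww (HE.x0 k)]
  have h1 := bertiniT H₀ R₀ hg hlc hS0 hgen hw₀ ((inCone_scale he hwx).1 hcone) hm₀
  have h2 := transfer_disc HE HL hd R₀ R he hw₀ hw hww hm₀ hm
  have h3 := mul_le_mul_of_nonneg_left h1 (Nat.cast_nonneg (α := ℤ) e₀)
  have h4 : ∑ i, (cq i : ℤ) * (ov w (aeval (fun k => algebraMap E L (x k)) (g i)) -
        minWt (g i) (wts w (fun k => algebraMap E L (x k)))) =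
      e₀ * ∑ i, (cq i : ℤ) * (ov w₀ (aeval x (g i)) - minWt (g i) (wts w₀ x)) := by
    rw [Finset.mul_sum]
    refine Finset.sum_congr rfl fun i _ => ?_
    rw [aeval_map, ov_algebraMap hww (hg i), minWt_smul (hg0 i) _ _ e₀ fun k => (hwx k).symm]
    ring
  have h5 := minWt_smul hS0 _ _ e₀ fun k => (hwx k).symm
  have h6 := minWt_smul HE.f0 _ _ e₀ fun k => (hwx k).symm
  have h7 : ∑ j, wts w (fun k => algebraMap E L (x k)) j = e₀ * ∑ j, wts w₀ x j := by
    rw [Finset.mul_sum]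
    exact Finset.sum_congr rfl fun j _ => hwx j
  rw [h4, h5, h6, h7, h2, aeval_map, ov_algebraMap hww hxS]
  calc _ = (e₀ : ℤ) * (∑ i, (cq i : ℤ) * (ov w₀ (aeval x (g i)) - minWt (g i) (wts w₀ x)) +
        q * (ov w₀ (aeval x S) - minWt S (wts w₀ x))) := by ring
    _ ≤ _ := h3
    _ = _ := by ring

end Vale.Agent.P283.H108
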