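import Vale.Agent.P283.H108.FinBase
import Vale.Agent.P283.H108.DefsLc
import Vale.Agent.P283.Z647.Lc

/-!
Log discrepancies in finite extensions.
-/

set_option linter.all false

namespace Vale.Agent.P283.H108

open MvPolynomial Finset
open Vale.Agent.P283.Z647
open Vale.Agent.P283.H647 (ResForm HypData order_exists order_unique order_transfer exists_ext
  exists_form exists_res jac_map ov_algebraMap)

variable {d : ℕ} {E L : Type} [Field E] [Field L] [Algebra ℂ E] [Algebra ℂ L] [Algebra E L]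
  [IsScalarTower ℂ E L]

theorem aeval_map (x : Fin (d + 1) → E) (P : MvPolynomial (Fin (d + 1)) ℂ) :
    aeval (fun k => algebraMap E L (x k)) P = algebraMap E L (aeval x P) := by
  have h2 := MvPolynomial.aeval_algebraMap_apply (R := ℂ) (A := E) L x P
  rw [← h2]
  rfl

/-- There are derivations with a residue form. -/
theorem exists_der {x : Fin (d + 1) → E} {f : MvPolynomial (Fin (d + 1)) ℂ} (H : FinData x f) :
    ∃ (D₀ : Fin d → Derivation ℂ E E) (h₀ : E), ResForm x f D₀ h₀ := by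
  haveI : CharZero E := charZero_of_injective_algebraMap (algebraMap ℂ E).injective
  obtain ⟨β', hβ'⟩ := gen_trbasis H.trdeg
  obtain ⟨BK, hBK⟩ := exists_kaehler_basis _ hβ'
  let D₀ : Fin d → Derivation ℂ E E := fun i => pd BK i
  have hD₀ : Q.jac D₀ β' ≠ 0 := by
    have h1 : (Matrix.of fun i j => D₀ j (β' i)) = (1 : Matrix (Fin d) (Fin d) E) := by
      ext i j
      rw [Matrix.of_apply, Matrix.one_apply]
      exact pd_self BK hBK i j
    unfold Q.jac
    rw [h1, Matrix.det_one]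
    exact one_ne_zero
  obtain ⟨h₀, R₀⟩ := H.exists_resForm ⟨_, hD₀⟩
  exact ⟨D₀, h₀, R₀⟩

section Transfer

variable {x : Fin (d + 1) → E} {f : MvPolynomial (Fin (d + 1)) ℂ} (HE : FinData x f)
  (HL : FinData (fun k => algebraMap E L (x k)) f) (hd : 0 < d)
include HE HL hd

/-- The log discrepancy of the residue form is multiplied by the ramification index. -/
theorem transfer_disc [Algebra.IsAlgebraic E L] {D₀ : Fin d → Derivation ℂ E E} {h₀ : E}
    (R₀ : ResForm x f D₀ h₀) {D : Fin d → Derivation ℂ L L} {h : L}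
    (R : ResForm (fun k => algebraMap E L (x k)) f D h)
    {w₀ : AddValuation E (WithTop ℤ)} {w : AddValuation L (WithTop ℤ)} {e : ℕ} (he : 0 < e)
    (hw₀ : Q.IsDivisorial d w₀) (hw : Q.IsDivisorial d w)
    (hww : ∀ z : E, w (algebraMap E L z) = e • w₀ z) {m₀ m : ℤ} (hm₀ : Q.FormOrder w₀ D₀ m₀)
    (hm : Q.FormOrder w D m) : 1 + m - ov w h = e * (1 + m₀ - ov w₀ h₀) := by
  haveI := HE.ess
  haveI := HL.ess
  obtain ⟨D₁, hD₁⟩ := exists_ext (K := E) (L := L) HL.trdeg D₀
  have hj₀ := R₀.jac_ne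
  have hj₁ : ∃ g, Q.jac D₁ g ≠ 0 := by
    obtain ⟨g, hg⟩ := hj₀
    exact ⟨_, by rw [jac_map hD₁]; exact (map_ne_zero _).2 hg⟩
  have R₁ : ResForm (fun k => algebraMap E L (x k)) f D₁ (algebraMap E L h₀) := by
    apply HL.res_of
    intro i
    have h1 := congrArg (algebraMap E L) (R₀.res i)
    rw [map_mul, map_mul, map_pow, map_neg, map_one, ← jac_map hD₁] at h1
    rw [aeval_map]
    exact h1
  obtain ⟨m₁, hm₁⟩ := order_exists hd HL.trdeg D₁ hj₁ hw
  have h1 := order_transfer hd HE.trdeg HL.trdeg hj₀ hD₁ hw₀ hw.normalized he hww hm₀ hm₁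
  have h2 := HL.rho_indep hd R R₁ hw hm hm₁
  rw [ov_algebraMap hww R₀.h0] at h2
  have h3 : (e : ℤ) * (1 + m₀ - ov w₀ h₀) = e * (1 + m₀) - e * ov w₀ h₀ := by ring
  rw [h3, ← h1]
  omega

end Transfer

theorem inCone_scale {m N : ℕ} {v : Fin N → Fin m → ℤ} {a a₀ : Fin m → ℤ} {e : ℕ} (he : 0 < e)
    (h : ∀ k, a k = e * a₀ k) : Z647.InCone v a ↔ Z647.InCone v a₀ := by
  have heQ : (0 : ℚ) < e := by exact_mod_cast he
  constructor
  · rintro ⟨t, ht, hta⟩
    refine ⟨fun j => t j / e, fun j => div_nonneg (ht j) heQ.le, fun k => ?_⟩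
    have h2 : (a k : ℚ) = e * (a₀ k : ℚ) := by exact_mod_cast h k
    have h3 : (a₀ k : ℚ) = a k / e := by rw [h2]; field_simp
    rw [h3, hta, Finset.sum_div]
    exact Finset.sum_congr rfl fun j _ => by ring
  · rintro ⟨t, ht, hta⟩
    refine ⟨fun j => e * t j, fun j => mul_nonneg heQ.le (ht j), fun k => ?_⟩
    have h2 : (a k : ℚ) = e * (a₀ k : ℚ) := by exact_mod_cast h k
    rw [h2, hta, Finset.mul_sum]
    exact Finset.sum_congr rfl fun j _ => by ring

section LC

variable {N s : ℕ} {v : Fin N → Fin (d + 1) → ℤ} {x : Fin (d + 1) → E}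
  {f : MvPolynomial (Fin (d + 1)) ℂ} {g : Fin s → MvPolynomial (Fin (d + 1)) ℂ} {c : Fin s → ℚ}

/-- Log canonicity passes to finite extensions. -/
theorem lc_up [FiniteDimensional E L] (HE : FinData x f)
    (HL : FinData (fun k => algebraMap E L (x k)) f) (hd : 0 < d)
    (hg : ∀ i, aeval x (g i) ≠ 0) (h : IsToricallyLC x f g c v) :
    IsToricallyLC (fun k => algebraMap E L (x k)) f g c v := by
  haveI := HE.ess
  intro D h' hres w m b a a' hw hm hb ha ha' hcone
  have R := HL.res_of hres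
  obtain ⟨w₀, e, he, hw₀', hww⟩ := exists_restriction (K := E) d w (divisorial_iff.1 hw)
  have hw₀ : Q.IsDivisorial d w₀ := divisorial_iff.2 hw₀'
  obtain ⟨D₀, h₀, R₀⟩ := exists_der HE
  obtain ⟨m₀, hm₀⟩ := order_exists hd HE.trdeg D₀ R₀.jac_ne hw₀
  have hg0 : ∀ i, g i ≠ 0 := fun i h0 => hg i (by rw [h0, map_zero])
  have ha₀ : ∀ k, a k = e * ov w₀ (x k) := by
    intro k
    rw [← ov_algebraMap hww (HE.x0 k)]
    exact (ov_eq_of w (ha k)).symm
  have ha₀' : ∀ i, a' i = e * ov w₀ (aeval x (g i)) := by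
    intro i
    rw [← ov_algebraMap hww (hg i), ← aeval_map]
    exact (ov_eq_of w (ha' i)).symm
  have h1 := h D₀ h₀ R₀.res w₀ m₀ (ov w₀ h₀) (fun k => ov w₀ (x k))
    (fun i => ov w₀ (aeval x (g i))) hw₀ hm₀ (coe_ov w₀ R₀.h0).symm
    (fun k => (coe_ov w₀ (HE.x0 k)).symm) (fun i => (coe_ov w₀ (hg i)).symm)
    ((inCone_scale he ha₀).1 hcone)
  have h2 := transfer_disc HE HL hd R₀ R he hw₀ hw hww hm₀ hm
  have hb0 : ov w h' = b := ov_eq_of w hb
  rw [hb0] at h2
  have heQ : (0 : ℚ) ≤ e := Nat.cast_nonneg e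
  have h3 := mul_le_mul_of_nonneg_left h1 heQ
  have h4 : ∑ i, c i * ((a' i : ℚ) - minWt (g i) a) =
      e * ∑ i, c i * ((ov w₀ (aeval x (g i)) : ℚ) - minWt (g i) (fun k => ov w₀ (x k))) := by
    rw [Finset.mul_sum]
    refine Finset.sum_congr rfl fun i _ => ?_
    rw [minWt_smul (hg0 i) _ a e fun k => (ha₀ k).symm, ha₀' i]
    push_cast; ring
  have h5 : ∑ k, (a k : ℚ) = e * ∑ k, (ov w₀ (x k) : ℚ) := by
    rw [Finset.mul_sum]
    exact Finset.sum_congr rfl fun k _ => by rw [ha₀ k]; push_cast; ring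
  have h6 := minWt_smul HE.f0 _ a e fun k => (ha₀ k).symm
  have h7 : (1 : ℚ) + m - b = e * (1 + m₀ - ov w₀ h₀) := by exact_mod_cast h2
  rw [h4, h5, h6, h7]
  push_cast
  linarith

/-- Log canonicity descends along finite extensions. -/
theorem lc_down [FiniteDimensional E L] (HE : FinData x f)
    (HL : FinData (fun k => algebraMap E L (x k)) f) (hd : 0 < d)
    (hg : ∀ i, aeval x (g i) ≠ 0)
    (h : IsToricallyLC (fun k => algebraMap E L (x k)) f g c v) : IsToricallyLC x f g c v := by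
  haveI := HE.ess
  haveI := HL.ess
  haveI : Algebra.IsAlgebraic E L := Algebra.IsAlgebraic.of_finite E L
  haveI : CharZero E := charZero_of_injective_algebraMap (algebraMap ℂ E).injective
  intro D₀ h₀ hres w₀ m₀ b a a' hw₀ hm₀ hb ha ha' hcone
  have R₀ := HE.res_of hres
  obtain ⟨w, e, he, hw1, hww⟩ := exists_extension (L := L) w₀ hw₀.normalized
  have hw : Q.IsDivisorial d w :=
    divisorial_iff.2 (isDivisorial_of_ext (divisorial_iff.1 hw₀) hw1 hww)
  obtain ⟨D, h', R⟩ := exists_der HL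
  obtain ⟨m, hm⟩ := order_exists hd HL.trdeg D R.jac_ne hw
  have hg0 : ∀ i, g i ≠ 0 := fun i h0 => hg i (by rw [h0, map_zero])
  have ha₀ : ∀ k, ov w₀ (x k) = a k := fun k => ov_eq_of w₀ (ha k)
  have ha₀' : ∀ i, ov w₀ (aeval x (g i)) = a' i := fun i => ov_eq_of w₀ (ha' i)
  have hwx : ∀ k, ov w (algebraMap E L (x k)) = e * a k := fun k => by
    rw [ov_algebraMap hww (HE.x0 k), ha₀]
  have hgL : ∀ i, aeval (fun k => algebraMap E L (x k)) (g i) ≠ 0 := fun i => by
    rw [aeval_map]; exact (map_ne_zero _).2 (hg i)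
  have hwg : ∀ i, ov w (aeval (fun k => algebraMap E L (x k)) (g i)) = e * a' i := fun i => by
    rw [aeval_map, ov_algebraMap hww (hg i), ha₀']
  have h1 := h D h' R.res w m (ov w h') (fun k => e * a k) (fun i => e * a' i) hw hm
    (coe_ov w R.h0).symm (fun k => by rw [← hwx, coe_ov w (HL.x0 k)])
    (fun i => by rw [← hwg, coe_ov w (hgL i)]) ((inCone_scale he fun k => rfl).2 hcone)
  have h2 := transfer_disc HE HL hd R₀ R he hw₀ hw hww hm₀ hm
  have hb0 : ov w₀ h₀ = b := ov_eq_of w₀ hb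
  rw [hb0] at h2
  have heQ : (0 : ℚ) < e := by exact_mod_cast he
  have h4 : ∑ i, c i * (((e * a' i : ℤ) : ℚ) - minWt (g i) (fun k => (e : ℤ) * a k)) =
      e * ∑ i, c i * ((a' i : ℚ) - minWt (g i) a) := by
    rw [Finset.mul_sum]
    refine Finset.sum_congr rfl fun i _ => ?_
    rw [minWt_smul (hg0 i) a (fun k => (e : ℤ) * a k) e fun k => rfl]
    push_cast; ring
  have h5 : ∑ k, (((e : ℤ) * a k : ℤ) : ℚ) = e * ∑ k, (a k : ℚ) := by
    rw [Finset.mul_sum]
    exact Finset.sum_congr rfl fun k _ => by push_cast; ring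
  have h6 := minWt_smul HE.f0 a (fun k => (e : ℤ) * a k) e fun k => rfl
  have h7 : (1 : ℚ) + m - ov w h' = e * (1 + m₀ - b) := by exact_mod_cast h2
  rw [h4, h5, h6, h7] at h1
  have h8 : (e : ℚ) * ∑ i, c i * ((a' i : ℚ) - minWt (g i) a) ≤
      e * (1 + m₀ - b - ∑ k, (a k : ℚ) + minWt f a) := by
    push_cast at h1
    linarith
  exact le_of_mul_le_mul_left h8 heQ

end LC

end Vale.Agent.P283.H108
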