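import Vale.Agent.P283.H108.Bound

/-!
The bound for functions with independent gradients at a point of the centre.
-/

set_option linter.all false

namespace Vale.Agent.P283.H108

open MvPolynomial Finset
open Vale.Agent.P283.Z647
open Vale.Agent.P283.H647 (ResForm order_log ov_lt_of)

variable {d : ℕ} {L : Type} [Field L] [Algebra ℂ L]

theorem indep_bound_fin [Algebra.EssFiniteType ℂ L] (hd : 0 < d)
    (htr : Algebra.trdeg ℂ L = (d : ℕ)) {x : Fin (d + 1) → L}
    {f : MvPolynomial (Fin (d + 1)) ℂ} {D' : Fin d → Derivation ℂ L L} {h : L}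
    (H : ResForm x f D' h) {w : AddValuation L (WithTop ℤ)} (hw : Q.IsDivisorial d w) {m' : ℤ}
    (hm' : Q.FormOrder w D' m') {b : Fin (d + 1) → ℤ} (hb : ∀ j, w (x j) = (b j : WithTop ℤ))
    {m : ℤ} (hm : IsMinZ f b m) (P : Fin d → MvPolynomial (Fin (d + 1)) ℂ) (I : Finset (Fin d))
    (μ : Fin d → ℤ) (hμ : ∀ l ∈ I, IsMinZ (P l) b (μ l)) (hP : ∀ l ∈ I, aeval x (P l) ≠ 0)
    {ξ : Fin (d + 1) → ℂ} (hξ0 : ∀ i, ξ i ≠ 0)
    (hξ : ∀ (P : MvPolynomial (Fin (d + 1)) ℂ) (μ : ℤ), HomogZ b P μ → eval ξ P ≠ 0 →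
      w (aeval x P) = (μ : WithTop ℤ))
    (hLI : GradIndep ξ (inFormZ f b) (fun l => inFormZ (P l) b) I) :
    ov w h + ∑ j, b j - m + ∑ l ∈ I, (ov w (aeval x (P l)) - μ l) ≤ 1 + m' := by
  classical
  have hc := hw.const
  have hn := hw.normalized
  -- the matrices
  let M : (Fin d → Fin (d + 1)) → Matrix (Fin (d + 1)) (Fin (d + 1)) (MvPolynomial (Fin (d + 1)) ℂ) :=
    fun c => Matrix.of (Fin.cons (fun k => X k * pderiv k (inFormZ f b))
      (fun l k => if l ∈ I then X k * pderiv k (inFormZ (P l) b) else if k = c l then 1 else 0))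
  let M' : (Fin d → Fin (d + 1)) → Matrix (Fin (d + 1)) (Fin (d + 1)) (MvPolynomial (Fin (d + 1)) ℂ) :=
    fun c => Matrix.of (Fin.cons (fun k => X k * pderiv k f)
      (fun l k => if l ∈ I then X k * pderiv k (P l) else if k = c l then 1 else 0))
  let ρ : Fin (d + 1) → ℤ := Fin.cons m (fun l => if l ∈ I then μ l else 0)
  have hρ : ∑ i, ρ i = m + ∑ l ∈ I, μ l := by
    rw [Fin.sum_univ_succ]
    simp only [ρ, Fin.cons_zero, Fin.cons_succ]
    rw [Finset.sum_ite_mem, Finset.univ_inter]
  have hM : ∀ c i j, HomogZ b (M c i j) (ρ i) := by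
    intro c i j
    refine Fin.cases ?_ (fun l => ?_) i
    · simp only [M, ρ, Matrix.of_apply, Fin.cons_zero]
      exact logd_inFormZ_homog hm j
    · simp only [M, ρ, Matrix.of_apply, Fin.cons_succ]
      by_cases hl : l ∈ I
      · rw [if_pos hl, if_pos hl]
        exact logd_inFormZ_homog (hμ l hl) j
      · rw [if_neg hl, if_neg hl]
        split_ifs
        · exact HomogZ.one b
        · exact HomogZ.zero b 0
  have hM' : ∀ c i j, AtLeastZ b (M' c i j - M c i j) (ρ i + 1) := by
    intro c i j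
    refine Fin.cases ?_ (fun l => ?_) i
    · simp only [M, M', ρ, Matrix.of_apply, Fin.cons_zero]
      exact logd_diff_atLeastZ hm j
    · simp only [M, M', ρ, Matrix.of_apply, Fin.cons_succ]
      by_cases hl : l ∈ I
      · rw [if_pos hl, if_pos hl, if_pos hl]
        exact logd_diff_atLeastZ (hμ l hl) j
      · rw [if_neg hl, if_neg hl, if_neg hl, sub_self]
        intro α hα
        simp at hα
  obtain ⟨c, hdetξ⟩ : ∃ c, eval ξ (M c).det ≠ 0 := by
    let F : Fin (d + 1) → (Fin (d + 1) → ℂ) := Fin.cons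
      (fun k => ξ k * eval ξ (pderiv k (inFormZ f b)))
      (fun l k => ξ k * eval ξ (pderiv k (inFormZ (P l) b)))
    let S : Finset (Fin (d + 1)) := insert 0 (I.map (Fin.succEmb d))
    have hS0 : (0 : Fin (d + 1)) ∉ I.map (Fin.succEmb d) := by
      rw [Finset.mem_map]
      rintro ⟨l, -, hl⟩
      exact Fin.succ_ne_zero l hl
    have hSm : ∀ l : Fin d, l.succ ∈ S ↔ l ∈ I := by
      intro l
      rw [Finset.mem_insert, Finset.mem_map]
      constructor
      · rintro (h | ⟨l', hl', h⟩)
        · exact absurd h (Fin.succ_ne_zero l)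
        · have : l' = l := Fin.succ_injective _ h
          rwa [← this]
      · intro h; exact Or.inr ⟨l, h, rfl⟩
    have hF : LinearIndepOn ℂ F (S : Set (Fin (d + 1))) := by
      rw [linearIndepOn_finset_iff]
      intro g hg
      rw [Finset.sum_insert hS0, Finset.sum_map] at hg
      have h2 := hLI (g 0) (fun l => g l.succ) (fun k => by
        have h3 := congrFun hg k
        rw [Pi.add_apply, Finset.sum_apply] at h3
        simp only [F, Pi.smul_apply, smul_eq_mul, Fin.cons_zero, Fin.coe_succEmb,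
          Fin.cons_succ, Pi.zero_apply] at h3
        have h4 : ξ k * (g 0 * eval ξ (pderiv k (inFormZ f b)) +
            ∑ l ∈ I, g l.succ * eval ξ (pderiv k (inFormZ (P l) b))) = 0 := by
          rw [← h3, mul_add, Finset.mul_sum]
          congr 1
          · ring
          · exact Finset.sum_congr rfl fun l _ => by ring
        exact (mul_eq_zero.1 h4).resolve_left (hξ0 k))
      intro i hi
      rw [Finset.mem_insert, Finset.mem_map] at hi
      rcases hi with rfl | ⟨l, hl, rfl⟩
      · exact h2.1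
      · exact h2.2 l hl
    obtain ⟨c, hc'⟩ := extend_unit _ S F rfl hF
    refine ⟨fun l => c l.succ, ?_⟩
    rw [RingHom.map_det]
    have hmat : (eval ξ).mapMatrix (M fun l => c l.succ) =
        Matrix.of (fun i => if i ∈ S then F i else (Pi.single (c i) 1 : Fin (d + 1) → ℂ)) := by
      ext i j
      rw [RingHom.mapMatrix_apply, Matrix.map_apply, Matrix.of_apply]
      refine Fin.cases ?_ (fun l => ?_) i
      · rw [if_pos (Finset.mem_insert_self _ _)]
        simp only [M, F, Matrix.of_apply, Fin.cons_zero, map_mul, eval_X]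
      · simp only [M, F, Matrix.of_apply, Fin.cons_succ]
        by_cases hl : l ∈ I
        · rw [if_pos hl, if_pos ((hSm l).2 hl)]
          simp only [map_mul, eval_X]
        · rw [if_neg hl, if_neg (fun h => hl ((hSm l).1 h)), Pi.single_apply]
          split_ifs <;> simp
    rw [hmat]
    have h5 := (Matrix.linearIndependent_rows_iff_isUnit (A := Matrix.of
      (fun i => if i ∈ S then F i else (Pi.single (c i) 1 : Fin (d + 1) → ℂ)))).1 hc'
    rw [Matrix.isUnit_iff_isUnit_det] at h5
    exact h5.ne_zero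
  have hk := hξ (M c).det (∑ i, ρ i) (HomogZ.det (hM c)) hdetξ
  -- the determinant of the full matrix
  let A : Matrix (Fin (d + 1)) (Fin (d + 1)) L := (M c).map (aeval x)
  let A' : Matrix (Fin (d + 1)) (Fin (d + 1)) L := (M' c).map (aeval x)
  have hA : A.det = aeval x (M c).det := (AlgHom.map_det (aeval x) (M c)).symm
  have hA' : A'.det = aeval x (M' c).det := (AlgHom.map_det (aeval x) (M' c)).symm
  have hdiff := det_diff w A A' ρ (fun i j => val_lowerZ w hc x b hb (hM c i j).atLeast)
    (fun i j => by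
      have h1 := val_lowerZ w hc x b hb (hM' c i j)
      rw [map_sub] at h1
      exact h1)
  have hdet : w A'.det = ((m + ∑ l ∈ I, μ l : ℤ) : WithTop ℤ) := by
    have h1 : A'.det = A.det + (A'.det - A.det) := by ring
    rw [h1]
    rw [hρ] at hdiff hk
    rw [← hA] at hk
    exact ov_lt_of hk hdiff
  have hdet0 : A'.det ≠ 0 := ne_zero_of_eq w hdet
  have hdetv := ov_eq_of w hdet
  -- the functions
  let g : Fin d → L := fun l => if l ∈ I then aeval x (P l) else x (c l)
  have hg0 : ∀ l, g l ≠ 0 := by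
    intro l
    simp only [g]
    split_ifs with hl
    · exact hP l hl
    · exact H.x0 _
  let s : Fin d → L := fun l => if l ∈ I then (aeval x (P l))⁻¹ else 1
  have hs0 : ∀ l, s l ≠ 0 := by
    intro l
    simp only [s]
    split_ifs with hl
    · exact inv_ne_zero (hP l hl)
    · exact one_ne_zero
  let U : Fin d → Fin (d + 1) → L := fun l j => s l * A' l.succ j
  have hform := H.formula g U (fun l k => by
    simp only [U, g, s]
    by_cases hl : l ∈ I
    · rw [if_pos hl, if_pos hl, H647.der_aeval (D' k) x (P l), Finset.mul_sum]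
      refine Finset.sum_congr rfl fun j _ => ?_
      have e1 : A' l.succ j = x j * aeval x (pderiv j (P l)) := by
        simp only [A', M', Matrix.map_apply, Matrix.of_apply, Fin.cons_succ, if_pos hl, map_mul,
          aeval_X]
      rw [e1]
      field_simp [H.x0 j, hP l hl]
    · rw [if_neg hl, if_neg hl]
      have e1 : ∀ j, A' l.succ j = if j = c l then 1 else 0 := by
        intro j
        simp only [A', M', Matrix.map_apply, Matrix.of_apply, Fin.cons_succ, if_neg hl]
        split_ifs <;> simp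
      simp only [e1, one_mul, ite_mul, zero_mul, Finset.sum_ite_eq', Finset.mem_univ, if_true]
      field_simp [H.x0 (c l)])
  have hrows : (Matrix.of (Fin.cons (fun j => x j * aeval x (pderiv j f)) U :
      Fin (d + 1) → Fin (d + 1) → L)).det = (∏ l, s l) * A'.det := by
    have h1 : (Matrix.of (Fin.cons (fun j => x j * aeval x (pderiv j f)) U :
        Fin (d + 1) → Fin (d + 1) → L)) =
        Matrix.of (fun i j => (Fin.cons 1 s : Fin (d + 1) → L) i * A' i j) := by
      ext i j
      refine Fin.cases ?_ (fun l => ?_) i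
      · simp only [Matrix.of_apply, Fin.cons_zero, one_mul, A', M', Matrix.map_apply, map_mul,
          aeval_X]
      · simp only [Matrix.of_apply, Fin.cons_succ, U]
    rw [h1, Matrix.det_mul_column, Fin.prod_univ_succ]
    simp only [Fin.cons_zero, Fin.cons_succ, one_mul]
  rw [hrows] at hform
  have hx0 : (∏ j, x j) ≠ 0 := Finset.prod_ne_zero_iff.2 fun j _ => H.x0 j
  have hgp : (∏ l, g l) ≠ 0 := Finset.prod_ne_zero_iff.2 fun j _ => hg0 j
  have hsp : (∏ l, s l) ≠ 0 := Finset.prod_ne_zero_iff.2 fun j _ => hs0 j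
  have hj : Q.jac D' g ≠ 0 := by
    intro h0
    rw [h0, mul_zero] at hform
    exact mul_ne_zero hgp (mul_ne_zero hsp hdet0) hform.symm
  have h1 := congrArg (ov w) hform
  rw [ov_mul w (mul_ne_zero H.h0 hx0) hj, ov_mul w H.h0 hx0, ov_mul w hgp
    (mul_ne_zero hsp hdet0), ov_mul w hsp hdet0, hdetv, ov_prod _ _ fun j _ => H.x0 j,
    ov_prod _ _ fun j _ => hg0 j, ov_prod _ _ fun j _ => hs0 j] at h1
  have h2 := order_log hd htr hw hm' g hg0 hj
  have h3 : ∑ l, ov w (s l) = - ∑ l ∈ I, ov w (aeval x (P l)) := by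
    have h4 : ∀ l, ov w (s l) = if l ∈ I then - ov w (aeval x (P l)) else 0 := by
      intro l
      simp only [s]
      split_ifs with hl
      · exact ov_inv w
      · exact ov_eq_of w (by rw [AddValuation.map_one]; rfl)
    rw [Finset.sum_congr rfl fun l _ => h4 l, Finset.sum_ite_mem, Finset.univ_inter,
      Finset.sum_neg_distrib]
  have h5 : ∑ j, ov w (x j) = ∑ j, b j := Finset.sum_congr rfl fun j _ => ov_eq_of w (hb j)
  rw [Finset.sum_sub_distrib]
  rw [h3, h5] at h1
  omega

theorem indep_bound [Algebra.EssFiniteType ℂ L] (hd : 0 < d)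
    (htr : Algebra.trdeg ℂ L = (d : ℕ)) {x : Fin (d + 1) → L}
    {f : MvPolynomial (Fin (d + 1)) ℂ} {D' : Fin d → Derivation ℂ L L} {h : L}
    (H : ResForm x f D' h) {w : AddValuation L (WithTop ℤ)} (hw : Q.IsDivisorial d w) {m' : ℤ}
    (hm' : Q.FormOrder w D' m') {b : Fin (d + 1) → ℤ} (hb : ∀ j, w (x j) = (b j : WithTop ℤ))
    {m : ℤ} (hm : IsMinZ f b m) {ι : Type} (P : ι → MvPolynomial (Fin (d + 1)) ℂ) (I : Finset ι)
    (μ : ι → ℤ) (hμ : ∀ l ∈ I, IsMinZ (P l) b (μ l)) (hP : ∀ l ∈ I, aeval x (P l) ≠ 0)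
    {ξ : Fin (d + 1) → ℂ} (hξ0 : ∀ i, ξ i ≠ 0)
    (hξ : ∀ (P : MvPolynomial (Fin (d + 1)) ℂ) (μ : ℤ), HomogZ b P μ → eval ξ P ≠ 0 →
      w (aeval x P) = (μ : WithTop ℤ))
    (hLI : GradIndep ξ (inFormZ f b) (fun l => inFormZ (P l) b) I) :
    ov w h + ∑ j, b j - m + ∑ l ∈ I, (ov w (aeval x (P l)) - μ l) ≤ 1 + m' := by
  classical
  have hcard : I.card ≤ d := by
    let F : Option I → (Fin (d + 1) → ℂ) := fun o => o.elim
      (fun k => eval ξ (pderiv k (inFormZ f b)))
      (fun l k => eval ξ (pderiv k (inFormZ (P l.1) b)))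
    have hF : LinearIndependent ℂ F := by
      rw [Fintype.linearIndependent_iff]
      intro g hg
      have h2 := hLI (g none) (fun l => if hl : l ∈ I then g (some ⟨l, hl⟩) else 0)
        (fun k => by
          have h3 := congrFun hg k
          rw [Fintype.sum_option, Pi.add_apply, Finset.sum_apply] at h3
          simp only [F, Pi.smul_apply, smul_eq_mul, Option.elim, Pi.zero_apply] at h3
          rw [← h3]
          congr 1
          rw [← Finset.sum_coe_sort I]
          refine Finset.sum_congr rfl fun i _ => ?_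
          rw [dif_pos i.2])
      rintro (_ | l)
      · exact h2.1
      · have h3 := h2.2 l.1 l.2
        rw [dif_pos l.2] at h3
        exact h3
    have h2 := hF.fintype_card_le_finrank
    rw [Fintype.card_option, Fintype.card_coe, Module.finrank_fin_fun] at h2
    omega
  let j : I ↪ Fin d := (I.equivFin.toEmbedding).trans (Fin.castLEEmb hcard)
  let P' : Fin d → MvPolynomial (Fin (d + 1)) ℂ := Function.extend j (fun i : I => P i.1) 0
  let μ' : Fin d → ℤ := Function.extend j (fun i : I => μ i.1) 0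
  have hP' : ∀ i : I, P' (j i) = P i.1 := fun i => j.injective.extend_apply _ _ i
  have hμ' : ∀ i : I, μ' (j i) = μ i.1 := fun i => j.injective.extend_apply _ _ i
  have h1 := indep_bound_fin hd htr H hw hm' hb hm P' (Finset.univ.map j) μ'
    (by
      intro l hl
      obtain ⟨i, -, rfl⟩ := Finset.mem_map.1 hl
      rw [hP', hμ']; exact hμ i.1 i.2)
    (by
      intro l hl
      obtain ⟨i, -, rfl⟩ := Finset.mem_map.1 hl
      rw [hP']; exact hP i.1 i.2)
    hξ0 hξ
    (by
      intro c₀ c hc
      have h2 := hLI c₀ (fun i => if hi : i ∈ I then c (j ⟨i, hi⟩) else 0) (fun k => by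
          have h3 := hc k
          rw [Finset.sum_map] at h3
          rw [← h3]
          congr 1
          rw [← Finset.sum_attach]
          refine Finset.sum_congr rfl fun i _ => ?_
          rw [dif_pos i.2]
          show _ = c (j i) * (eval ξ) ((pderiv k) (inFormZ (P' (j i)) b))
          rw [hP' i])
      refine ⟨h2.1, ?_⟩
      intro l hl
      obtain ⟨i, -, rfl⟩ := Finset.mem_map.1 hl
      have h3 := h2.2 i.1 i.2
      rw [dif_pos i.2] at h3
      exact h3)
  rw [Finset.sum_map] at h1
  have h2 : ∑ i : I, (ov w (aeval x (P' (j i))) - μ' (j i)) =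
      ∑ l ∈ I, (ov w (aeval x (P l)) - μ l) := by
    rw [← Finset.sum_coe_sort I (fun l => ov w (aeval x (P l)) - μ l)]
    refine Finset.sum_congr rfl fun i _ => ?_
    rw [hP' i, hμ' i]
  rw [h2] at h1
  exact h1

end Vale.Agent.P283.H108
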