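import Vale.Agent.P283.H108.BertiniT
import Vale.Agent.P283.H108.DefsLc

/-!
The complement is klt.
-/

set_option linter.all false

namespace Vale.Agent.P283.H108

open MvPolynomial Finset
open Vale.Agent.P283.Z647
open Vale.Agent.P283.H647 (ResForm HypData order_exists order_unique ov_monoT ov_lt_of)

variable {N s M : ℕ}

theorem ordMono_zero {m : ℕ} (E : Fin (M + 1) → Fin m → ℤ) : ordMono E 0 = 0 := by
  apply le_antisymm
  · have := ordMono_le E 0 0
    simpa using this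
  · apply le_ordMono
    intro i
    simp

section Values

variable {e : ℕ} {L : Type} [Field L] [Algebra ℂ L] {v : Fin N → Fin (e + 2) → ℤ}
  {y : Fin (e + 2) → L} {f : MvPolynomial (Fin (e + 2)) ℂ}
  {g : Fin s → MvPolynomial (Fin (e + 2)) ℂ} {S : MvPolynomial (Fin (e + 2)) ℂ}

theorem torLC_of (H : HypData y f) {D' : Fin (e + 1) → Derivation ℂ L L} {h : L}
    (R : ResForm y f D' h) (hg : ∀ i, aeval y (g i) ≠ 0) {c : Fin s → ℚ}
    (hlc : IsToricallyLC y f g c v) {q : ℕ} {cq : Fin s → ℕ} (hcq : ∀ i, (cq i : ℚ) = q * c i) :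
    TorLC v y f g D' h q cq := by
  intro w m hw hcone hm
  have h1 := hlc D' h R.res w m (ov w h) (wts w y) (fun i => ov w (aeval y (g i))) hw hm
    (coe_ov w R.h0).symm (fun k => (coe_ov w (H.x0 k)).symm) (fun i => (coe_ov w (hg i)).symm)
    hcone
  have h2 : (0 : ℚ) ≤ q := Nat.cast_nonneg q
  have h3 := mul_le_mul_of_nonneg_left h1 h2
  have h4 : (q : ℚ) * ∑ i, c i * ((ov w (aeval y (g i)) : ℚ) - minWt (g i) (wts w y)) =
      ∑ i, (cq i : ℚ) * ((ov w (aeval y (g i)) : ℚ) - minWt (g i) (wts w y)) := by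
    rw [Finset.mul_sum]
    exact Finset.sum_congr rfl fun i _ => by rw [hcq]; ring
  rw [h4] at h3
  exact_mod_cast h3

/-- The complement is klt. -/
theorem klt_phiT (H : HypData y f) {D' : Fin (e + 1) → Derivation ℂ L L} {h : L}
    (R : ResForm y f D' h) (hg : ∀ i, aeval y (g i) ≠ 0) (hS0 : S ≠ 0) (hxS : aeval y S ≠ 0)
    {k q : ℕ} (hk : 2 ≤ k) (hq : 0 < q) {cq : Fin s → ℕ} {σ : Fin (e + 2) → ℤ}
    (hlt : ∀ a, Z647.InCone v a → a ≠ 0 → NonMonoZ f a → ∃ γ ∈ S.support,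
      wtZ a γ - ∑ i, σ i * a i < k * (q * (∑ i, a i - minWt f a) - ∑ i, cq i * minWt (g i) a))
    {w : AddValuation L (WithTop ℤ)} (hw : Q.IsDivisorial (e + 1) w)
    (hcone : Z647.InCone v (wts w y)) {m' : ℤ}
    (hbert : ∑ i, (cq i : ℤ) * (ov w (aeval y (g i)) - minWt (g i) (wts w y)) +
      q * (ov w (aeval y S) - minWt S (wts w y)) ≤
      q * (1 + m' - ov w h - ∑ j, wts w y j + minWt f (wts w y)))
    (hz : wts w y = 0 → ∑ i, (cq i : ℤ) * ov w (aeval y (g i)) < q * (1 + m' - ov w h)) :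
    ov w (phiOne y h g k q cq S σ) < k * q * (1 + m') := by
  classical
  have hg0 : ∀ i, g i ≠ 0 := fun i h0 => hg i (by rw [h0, map_zero])
  rw [ov_phiOne H.x0 R.h0 hg hxS]
  have hSl := ov_lower hw.const H.x0 hxS (isMinZ_minWt hS0 (wts w y))
  have hkZ : (2 : ℤ) ≤ k := by exact_mod_cast hk
  have hqZ : (1 : ℤ) ≤ q := by exact_mod_cast hq
  have hEsplit : ∑ i, (cq i : ℤ) * (ov w (aeval y (g i)) - minWt (g i) (wts w y)) =
      ∑ i, (cq i : ℤ) * ov w (aeval y (g i)) - ∑ i, (cq i : ℤ) * minWt (g i) (wts w y) := by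
    rw [← Finset.sum_sub_distrib]
    exact Finset.sum_congr rfl fun i _ => by ring
  rw [hEsplit] at hbert
  set X := ov w (aeval y S) - minWt S (wts w y) with hX
  have hX0 : 0 ≤ X := by linarith
  have hkb := mul_le_mul_of_nonneg_left hbert (by linarith : (0 : ℤ) ≤ k)
  have hkq : (2 : ℤ) ≤ k * q := by nlinarith
  have hXk : X ≤ k * (q * X) := by
    have : k * (q * X) = (k * q) * X := by ring
    rw [this]; nlinarith
  have hSX : ov w (aeval y S) = X + minWt S (wts w y) := by rw [hX]; ring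
  rw [hSX]
  by_cases ha0 : wts w y = 0
  · have hz' := hz ha0
    rw [ha0] at hkb hbert ⊢
    simp only [minWt_zero H.f0, minWt_zero hS0, minWt_zero (hg0 _), Pi.zero_apply,
      Finset.sum_const_zero, sub_zero, add_zero, mul_zero] at hkb hbert ⊢
    rcases eq_or_lt_of_le hX0 with h0 | h0
    · rw [← h0]
      have h1 := mul_lt_mul_of_pos_left hz' (by linarith : (0 : ℤ) < k)
      linarith
    · have h1 : X < k * (q * X) := by
        have : k * (q * X) = (k * q) * X := by ring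
        rw [this]; nlinarith
      linarith
  · have hnm : NonMonoZ f (wts w y) := nonMono_of_zeroZ hw.const H.f0 H.eqn
      (fun j => (coe_ov w (H.x0 j)).symm)
    obtain ⟨γ, hγ, hγ'⟩ := hlt _ hcone ha0 hnm
    have h3 := (isMinZ_minWt hS0 (wts w y)).2 γ hγ
    linarith

/-- The complement is large. -/
theorem eff_phiT (H : HypData y f) {D' : Fin (e + 1) → Derivation ℂ L L}
    {h : L} (R : ResForm y f D' h) (hg : ∀ i, aeval y (g i) ≠ 0) (hS0 : S ≠ 0)
    (hxS : aeval y S ≠ 0) {k q : ℕ} {cq : Fin s → ℕ} {σ : Fin (e + 2) → ℤ} {B : ℚ}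
    {w : AddValuation L (WithTop ℤ)} (hw : ∀ c : ℂ, c ≠ 0 → w (algebraMap ℂ L c) = 0)
    (hB : ∀ γ ∈ S.support, B ≤ ((wtZ (wts w y) γ - ∑ i, σ i * wts w y i : ℤ) : ℚ)) :
    (k : ℚ) * q * ov w h + k * ∑ i, cq i * (ov w (aeval y (g i)) : ℚ) + B ≤
      ov w (phiOne y h g k q cq S σ) := by
  rw [ov_phiOne H.x0 R.h0 hg hxS]
  have hSl := ov_lower hw H.x0 hxS (isMinZ_minWt hS0 (wts w y))
  obtain ⟨γ, hγ, hγ'⟩ := (isMinZ_minWt hS0 (wts w y)).1
  have h1 := hB γ hγ
  rw [hγ'] at h1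
  push_cast at h1 ⊢
  have h2 : (minWt S (wts w y) : ℚ) ≤ ov w (aeval y S) := by exact_mod_cast hSl
  linarith

/-- The strict inequality for the divisors over the torus. -/
theorem zero_strict {D' : Fin (e + 1) → Derivation ℂ L L} {h : L} {c : Fin s → ℚ} {r : ℕ}
    {E : Fin (M + 1) → Fin (e + 2) → ℤ} {ε : ℝ} (hε : 0 < ε)
    (hlc : LcZ v y D' h g c r E ε) {q : ℕ} (hq : 0 < q) {cq : Fin s → ℕ}
    (hcq : ∀ i, (cq i : ℚ) = q * c i) {w : AddValuation L (WithTop ℤ)}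
    (hw : Q.IsDivisorial (e + 1) w) (hcone : Z647.InCone v (wts w y)) {m' : ℤ}
    (hm' : Q.FormOrder w D' m') (h0 : wts w y = 0) :
    ∑ i, (cq i : ℤ) * ov w (aeval y (g i)) < q * (1 + m' - ov w h) := by
  have h1 := hlc w m' hw hcone hm'
  rw [h0, ordMono_zero] at h1
  have hqR : (0 : ℝ) < q := by exact_mod_cast hq
  have h2 : (0 : ℝ) < 1 + m' - ov w h - ∑ i, (c i : ℝ) * ov w (aeval y (g i)) := by
    simp only [Int.cast_zero, zero_div, sub_zero] at h1
    linarith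
  have h3 := mul_pos hqR h2
  have h4 : (q : ℝ) * ∑ i, (c i : ℝ) * ov w (aeval y (g i)) =
      ∑ i, (cq i : ℝ) * ov w (aeval y (g i)) := by
    rw [Finset.mul_sum]
    refine Finset.sum_congr rfl fun i _ => ?_
    have h5 : (cq i : ℝ) = q * c i := by exact_mod_cast congrArg (Rat.cast : ℚ → ℝ) (hcq i)
    rw [h5]; ring
  have h5 : ∑ i, (cq i : ℝ) * ov w (aeval y (g i)) < q * (1 + m' - ov w h) := by
    rw [← h4]; linarith
  exact_mod_cast h5

end Values

end Vale.Agent.P283.H108
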