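import Vale.Agent.P283.H108.DefsLoc
import Vale.Agent.P283.H108.FinDown

/-!
Log canonicity over an open subset, and finite extensions.
-/

set_option linter.all false

namespace Vale.Agent.P283.H108

open MvPolynomial Finset
open Vale.Agent.P283.Z647
open Vale.Agent.P283.H647 (ResForm HypData order_exists order_unique order_transfer exists_ext
  jac_map ov_algebraMap)

theorem zero_of_nsmul {e : ℕ} (he : 0 < e) {x : WithTop ℤ} (h : e • x = 0) : x = 0 := by
  obtain ⟨m, rfl⟩ := Nat.exists_eq_succ_of_ne_zero he.ne'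
  induction x with
  | top => rw [succ_nsmul, WithTop.add_top] at h; exact absurd h (by simp)
  | coe x =>
    rw [← WithTop.coe_nsmul] at h
    have h1 : (m + 1) • x = 0 := by exact_mod_cast h
    have h2 : x = 0 := by
      rw [nsmul_eq_mul] at h1
      rcases mul_eq_zero.1 h1 with h3 | h3
      · exact absurd h3 (by positivity)
      · exact h3
    rw [h2]; rfl

theorem nonneg_of_nsmul {e : ℕ} (he : 0 < e) {x : WithTop ℤ} (h : 0 ≤ e • x) : 0 ≤ x := by
  by_contra hneg
  push Not at hneg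
  obtain ⟨n, rfl⟩ := WithTop.ne_top_iff_exists.1 (ne_top_of_lt hneg)
  rw [← WithTop.coe_nsmul] at h
  have h1 : 0 ≤ e • n := by exact_mod_cast h
  have h2 : n < 0 := by exact_mod_cast hneg
  rw [nsmul_eq_mul] at h1
  have h3 : (0 : ℤ) < e := by exact_mod_cast he
  have := mul_neg_of_pos_of_neg h3 h2
  omega

section LC

variable {d : ℕ} {E L : Type} [Field E] [Field L] [Algebra ℂ E] [Algebra ℂ L] [Algebra E L]
  [IsScalarTower ℂ E L]
variable {N s : ℕ} {v : Fin N → Fin (d + 1) → ℤ} {x : Fin (d + 1) → E}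
  {f : MvPolynomial (Fin (d + 1)) ℂ} {g : Fin s → MvPolynomial (Fin (d + 1)) ℂ} {c : Fin s → ℚ}

/-- Log canonicity passes to finite extensions. -/
theorem lc_upOn [FiniteDimensional E L] (HE : FinData x f)
    (HL : FinData (fun k => algebraMap E L (x k)) f) (hd : 0 < d)
    (hg : ∀ i, aeval x (g i) ≠ 0) {t : ℕ} {σ : Fin t → E}
    (h : IsToricallyLCOn x f g c v σ) :
    IsToricallyLCOn (fun k => algebraMap E L (x k)) f g c v (fun i => algebraMap E L (σ i)) := by
  haveI := HE.ess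
  intro D h' hres w m b a a' hw hm hb ha ha' hcone hσ
  have R := HL.res_of hres
  obtain ⟨w₀, e, he, hw₀', hww⟩ := exists_restriction (K := E) d w (divisorial_iff.1 hw)
  have hw₀ : Q.IsDivisorial d w₀ := divisorial_iff.2 hw₀'
  obtain ⟨D₀, h₀, R₀⟩ := exists_der HE
  obtain ⟨m₀, hm₀⟩ := order_exists hd HE.trdeg D₀ R₀.jac_ne hw₀
  have hg0 : ∀ i, g i ≠ 0 := fun i h0 => hg i (by rw [h0, map_zero])
  have ha₀ : ∀ k, a k = e * ov w₀ (x k) := by
    intro k
    rw [← ov_algebraMap hww (HE.x0 k)]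
    exact (ov_eq_of w (ha k)).symm
  have ha₀' : ∀ i, a' i = e * ov w₀ (aeval x (g i)) := by
    intro i
    rw [← ov_algebraMap hww (hg i), ← aeval_map]
    exact (ov_eq_of w (ha' i)).symm
  have h1 := h D₀ h₀ R₀.res w₀ m₀ (ov w₀ h₀) (fun k => ov w₀ (x k))
    (fun i => ov w₀ (aeval x (g i))) hw₀ hm₀ (coe_ov w₀ R₀.h0).symm
    (fun k => (coe_ov w₀ (HE.x0 k)).symm) (fun i => (coe_ov w₀ (hg i)).symm)
    ((inCone_scale he ha₀).1 hcone) (fun i => nonneg_of_nsmul he (by rw [← hww]; exact hσ i))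
  have h2 := transfer_disc HE HL hd R₀ R he hw₀ hw hww hm₀ hm
  have hb0 : ov w h' = b := ov_eq_of w hb
  rw [hb0] at h2
  have heQ : (0 : ℚ) ≤ e := Nat.cast_nonneg e
  have h3 := mul_le_mul_of_nonneg_left h1 heQ
  have h4 : ∑ i, c i * ((a' i : ℚ) - minWt (g i) a) =
      e * ∑ i, c i * ((ov w₀ (aeval x (g i)) : ℚ) - minWt (g i) (fun k => ov w₀ (x k))) := by
    rw [Finset.mul_sum]
    refine Finset.sum_congr rfl fun i _ => ?_
    rw [minWt_smul (hg0 i) _ a e fun k => (ha₀ k).symm, ha₀' i]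
    push_cast; ring
  have h5 : ∑ k, (a k : ℚ) = e * ∑ k, (ov w₀ (x k) : ℚ) := by
    rw [Finset.mul_sum]
    exact Finset.sum_congr rfl fun k _ => by rw [ha₀ k]; push_cast; ring
  have h6 := minWt_smul HE.f0 _ a e fun k => (ha₀ k).symm
  have h7 : (1 : ℚ) + m - b = e * (1 + m₀ - ov w₀ h₀) := by exact_mod_cast h2
  rw [h4, h5, h6, h7]
  push_cast
  linarith

/-- Log canonicity descends along finite extensions. -/
theorem lc_downOn [FiniteDimensional E L] (HE : FinData x f)
    (HL : FinData (fun k => algebraMap E L (x k)) f) (hd : 0 < d)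
    (hg : ∀ i, aeval x (g i) ≠ 0)
    {t : ℕ} {σ : Fin t → E}
    (h : IsToricallyLCOn (fun k => algebraMap E L (x k)) f g c v (fun i => algebraMap E L (σ i))) :
    IsToricallyLCOn x f g c v σ := by
  haveI := HE.ess
  haveI := HL.ess
  haveI : Algebra.IsAlgebraic E L := Algebra.IsAlgebraic.of_finite E L
  haveI : CharZero E := charZero_of_injective_algebraMap (algebraMap ℂ E).injective
  intro D₀ h₀ hres w₀ m₀ b a a' hw₀ hm₀ hb ha ha' hcone hσ
  have R₀ := HE.res_of hres
  obtain ⟨w, e, he, hw1, hww⟩ := exists_extension (L := L) w₀ hw₀.normalized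
  have hw : Q.IsDivisorial d w :=
    divisorial_iff.2 (isDivisorial_of_ext (divisorial_iff.1 hw₀) hw1 hww)
  obtain ⟨D, h', R⟩ := exists_der HL
  obtain ⟨m, hm⟩ := order_exists hd HL.trdeg D R.jac_ne hw
  have hg0 : ∀ i, g i ≠ 0 := fun i h0 => hg i (by rw [h0, map_zero])
  have ha₀ : ∀ k, ov w₀ (x k) = a k := fun k => ov_eq_of w₀ (ha k)
  have ha₀' : ∀ i, ov w₀ (aeval x (g i)) = a' i := fun i => ov_eq_of w₀ (ha' i)
  have hwx : ∀ k, ov w (algebraMap E L (x k)) = e * a k := fun k => by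
    rw [ov_algebraMap hww (HE.x0 k), ha₀]
  have hgL : ∀ i, aeval (fun k => algebraMap E L (x k)) (g i) ≠ 0 := fun i => by
    rw [aeval_map]; exact (map_ne_zero _).2 (hg i)
  have hwg : ∀ i, ov w (aeval (fun k => algebraMap E L (x k)) (g i)) = e * a' i := fun i => by
    rw [aeval_map, ov_algebraMap hww (hg i), ha₀']
  have h1 := h D h' R.res w m (ov w h') (fun k => e * a k) (fun i => e * a' i) hw hm
    (coe_ov w R.h0).symm (fun k => by rw [← hwx, coe_ov w (HL.x0 k)])
    (fun i => by rw [← hwg, coe_ov w (hgL i)]) ((inCone_scale he fun k => rfl).2 hcone)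
    (fun i => by rw [hww]; exact nsmul_nonneg (hσ i) e)
  have h2 := transfer_disc HE HL hd R₀ R he hw₀ hw hww hm₀ hm
  have hb0 : ov w₀ h₀ = b := ov_eq_of w₀ hb
  rw [hb0] at h2
  have heQ : (0 : ℚ) < e := by exact_mod_cast he
  have h4 : ∑ i, c i * (((e * a' i : ℤ) : ℚ) - minWt (g i) (fun k => (e : ℤ) * a k)) =
      e * ∑ i, c i * ((a' i : ℚ) - minWt (g i) a) := by
    rw [Finset.mul_sum]
    refine Finset.sum_congr rfl fun i _ => ?_
    rw [minWt_smul (hg0 i) a (fun k => (e : ℤ) * a k) e fun k => rfl]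
    push_cast; ring
  have h5 : ∑ k, (((e : ℤ) * a k : ℤ) : ℚ) = e * ∑ k, (a k : ℚ) := by
    rw [Finset.mul_sum]
    exact Finset.sum_congr rfl fun k _ => by push_cast; ring
  have h6 := minWt_smul HE.f0 a (fun k => (e : ℤ) * a k) e fun k => rfl
  have h7 : (1 : ℚ) + m - ov w h' = e * (1 + m₀ - b) := by exact_mod_cast h2
  rw [h4, h5, h6, h7] at h1
  have h8 : (e : ℚ) * ∑ i, c i * ((a' i : ℚ) - minWt (g i) a) ≤
      e * (1 + m₀ - b - ∑ k, (a k : ℚ) + minWt f a) := by
    push_cast at h1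
    linarith
  exact le_of_mul_le_mul_left h8 heQ

end LC

end Vale.Agent.P283.H108
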