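import Vale.Agent.P283.H108.PointQ
import Vale.Agent.P283.H108.Crit
import Vale.Agent.P283.H108.LocTransfer

/-!
A criterion for log canonicity together with the toric boundary over an open subset.
-/

set_option linter.all false

namespace Vale.Agent.P283.H108

open MvPolynomial Finset
open Vale.Agent.P283.Z647
open Vale.Agent.P283.H647 (ResForm HypData order_exists order_unique ov_monoT ov_lt_of)

variable {N s : ℕ}

theorem SmallMultAt.reg {m s : ℕ} {f : MvPolynomial (Fin m) ℂ}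
    {g : Fin s → MvPolynomial (Fin m) ℂ} {c : Fin s → ℚ} {a : Fin m → ℤ} {ξ : Fin m → ℂ}
    (h : SmallMultAt f g c a ξ) : ∃ k, eval ξ (pderiv k (inFormZ f a)) ≠ 0 := by
  by_contra hno
  push Not at hno
  obtain ⟨S, μ, β, h1, -⟩ := h
  have := (h1 1 0 (fun k => by simp [hno k])).1
  exact one_ne_zero this

section Values

variable {e : ℕ} {L : Type} [Field L] [Algebra ℂ L] {v : Fin N → Fin (e + 2) → ℤ}
  {y : Fin (e + 2) → L} {f : MvPolynomial (Fin (e + 2)) ℂ}
  {g : Fin s → MvPolynomial (Fin (e + 2)) ℂ} {S : MvPolynomial (Fin (e + 2)) ℂ}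

/-- The excess of the boundary for a single coefficient vector. -/
theorem tor_nonnegA {e : ℕ} {L : Type} [Field L] [Algebra ℂ L] {v : Fin N → Fin (e + 2) → ℤ}
    {y : Fin (e + 2) → L} {f : MvPolynomial (Fin (e + 2)) ℂ}
    {g : Fin s → MvPolynomial (Fin (e + 2)) ℂ} (H : HypData y f) {c : Fin s → ℚ}
    {D' : Fin (e + 1) → Derivation ℂ L L} {h : L}
    (R : ResForm y f D' h) {w : AddValuation L (WithTop ℤ)} (hw : Q.IsDivisorial (e + 1) w)
    {m' : ℤ} (hm' : Q.FormOrder w D' m') {ξ : Fin (e + 2) → ℂ}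
    (hξ0 : ∀ i, ξ i ≠ 0) (hξ : ∀ (P : MvPolynomial (Fin (e + 2)) ℂ) (μ : ℤ),
      HomogZ (wts w y) P μ → eval ξ P ≠ 0 → w (aeval y P) = (μ : WithTop ℤ))
    (hsm : SmallMultAt f g c (wts w y) ξ) :
    0 ≤ 1 + m' - ov w h - ∑ j, wts w y j + minWt f (wts w y) := by
  classical
  haveI := H.ess
  have hb : ∀ j, w (y j) = (wts w y j : WithTop ℤ) := fun j => (coe_ov w (H.x0 j)).symm
  have hm := isMinZ_minWt H.f0 (wts w y)
  have hfξ : eval ξ (inFormZ f (wts w y)) = 0 := by
    by_contra hne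
    have hk := hξ _ _ (inFormZ_homog hm) hne
    have h1 := val_lowerZ w hw.const y (wts w y) hb (diff_atLeastZ hm)
    have h2 : aeval y (inFormZ f (wts w y)) + aeval y (f - inFormZ f (wts w y)) = 0 := by
      rw [← map_add, add_sub_cancel, H.eqn]
    have h3 := ov_lt_of hk h1
    rw [h2, AddValuation.map_zero] at h3
    exact WithTop.top_ne_coe h3
  obtain ⟨k, hk⟩ := hsm.reg
  have h1 := indep_bound (Nat.succ_pos e) H.trdeg R hw hm' hb hm g ∅ (fun i => minWt (g i) (wts w y))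
    (fun i hi => absurd hi (Finset.notMem_empty i)) (fun i hi => absurd hi (Finset.notMem_empty i))
    hξ0 hξ (by
      intro t₀ t hrel
      refine ⟨?_, fun i hi => absurd hi (Finset.notMem_empty i)⟩
      have h2 := hrel k
      rw [Finset.sum_empty, add_zero] at h2
      exact (mul_eq_zero.1 h2).resolve_right hk)
  rw [Finset.sum_empty, add_zero] at h1
  linarith

/-- The excess of the boundary. -/
theorem excess_boundA (H : HypData y f) {c : Fin s → ℚ}
    {D' : Fin (e + 1) → Derivation ℂ L L} {h : L} (R : ResForm y f D' h)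
    (hg : ∀ i, aeval y (g i) ≠ 0) {q : ℕ} {cq : Fin s → ℕ} (hcq : ∀ i, (cq i : ℚ) = q * c i)
    (hq : 0 < q) {w : AddValuation L (WithTop ℤ)} (hw : Q.IsDivisorial (e + 1) w)
    (hcone : Z647.InCone v (wts w y)) {m' : ℤ} (hm' : Q.FormOrder w D' m')
    (hA : 0 ≤ 1 + m' - ov w h - ∑ j, wts w y j + minWt f (wts w y)) {ξ : Fin (e + 2) → ℂ}
    (hξ0 : ∀ i, ξ i ≠ 0) (hξ : ∀ (P : MvPolynomial (Fin (e + 2)) ℂ) (μ : ℤ),
      HomogZ (wts w y) P μ → eval ξ P ≠ 0 → w (aeval y P) = (μ : WithTop ℤ))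
    (hsm : SmallMultAt f g c (wts w y) ξ) :
    ∑ i, (cq i : ℤ) * (ov w (aeval y (g i)) - minWt (g i) (wts w y)) ≤
      (q - 1) * (1 + m' - ov w h - ∑ j, wts w y j + minWt f (wts w y)) := by
  classical
  haveI := H.ess
  set a := wts w y with ha
  set A := 1 + m' - ov w h - ∑ j, a j + minWt f a with hAdef
  have hb : ∀ j, w (y j) = (a j : WithTop ℤ) := fun j => (coe_ov w (H.x0 j)).symm
  have hg0 : ∀ i, g i ≠ 0 := fun i h0 => hg i (by rw [h0, map_zero])
  have he : ∀ i, 0 ≤ ov w (aeval y (g i)) - minWt (g i) a := fun i => by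
    have := ov_lower hw.const H.x0 (hg i) (isMinZ_minWt (hg0 i) (wts w y))
    linarith
  have hm := isMinZ_minWt H.f0 a
  have hfξ : eval ξ (inFormZ f a) = 0 := by
    by_contra hne
    have hk := hξ _ _ (inFormZ_homog hm) hne
    have h1 := val_lowerZ w hw.const y a hb (diff_atLeastZ hm)
    have h2 : aeval y (inFormZ f a) + aeval y (f - inFormZ f a) = 0 := by
      rw [← map_add, add_sub_cancel, H.eqn]
    have h3 := ov_lt_of hk h1
    rw [h2, AddValuation.map_zero] at h3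
    exact WithTop.top_ne_coe h3
  have hreg := hsm.reg
  obtain ⟨S', μ, β, hI, hM, hβ0, hβ, hlt⟩ := hsm
  have hS' : ∑ i ∈ S', (ov w (aeval y (g i)) - minWt (g i) a) ≤ A := by
    have h1 := indep_bound (Nat.succ_pos e) H.trdeg R hw hm' hb hm g S' (fun i => minWt (g i) a)
      (fun i _ => isMinZ_minWt (hg0 i) a) (fun i _ => hg i) hξ0 hξ hI
    linarith
  have hrest : ∀ i ∈ S'ᶜ, (cq i : ℤ) * (ov w (aeval y (g i)) - minWt (g i) a) ≤
      (cq i : ℤ) * μ i * A := by
    intro i hi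
    rw [Finset.mem_compl] at hi
    by_cases hci : c i = 0
    · have h1 : cq i = 0 := by
        have := hcq i
        rw [hci, mul_zero] at this
        exact_mod_cast this
      rw [h1]; simp
    · obtain ⟨k, hk⟩ : ∃ k, eval ξ (pderiv k (inFormZ f a)) ≠ 0 := hreg
      obtain ⟨l, hl, hlne⟩ := exists_tangs ξ hfξ ⟨k, hk⟩ (hM i hi hci)
      have hmi := isMinZ_minWt (hg0 i) a
      have h1 := (tangs_bound (Nat.succ_pos e) H.trdeg R hw hm' hb hm hξ l (g i)
        (inFormZ (g i) a) (minWt (g i) a) (inFormZ_homog hmi) (diff_atLeastZ hmi) hlne).2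
      have h2 : (l.length : ℤ) * A ≤ μ i * A :=
        mul_le_mul_of_nonneg_right (by exact_mod_cast hl) hA
      rw [mul_assoc]
      exact mul_le_mul_of_nonneg_left (h1.trans h2) (by positivity)
  -- the maximal coefficient
  set κ : ℕ := S'.sup cq with hκ
  have hκβ : (κ : ℚ) ≤ q * β := by
    by_cases hne : S'.Nonempty
    · obtain ⟨i, hi, hie⟩ := Finset.exists_mem_eq_sup S' hne cq
      rw [hκ, hie, hcq]
      exact mul_le_mul_of_nonneg_left (hβ i hi) (by positivity)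
    · rw [Finset.not_nonempty_iff_eq_empty] at hne
      rw [hκ, hne, Finset.sup_empty]
      simp only [Nat.bot_eq_zero, Nat.cast_zero]
      positivity
  have hsum : (κ : ℤ) + ∑ i ∈ S'ᶜ, (cq i : ℤ) * μ i ≤ q - 1 := by
    have hqQ : (0 : ℚ) < q := by exact_mod_cast hq
    have h1 : (κ : ℚ) + ∑ i ∈ S'ᶜ, (cq i : ℚ) * μ i < q := by
      have h2 : ∑ i ∈ S'ᶜ, (cq i : ℚ) * μ i = q * ∑ i ∈ S'ᶜ, c i * μ i := by
        rw [Finset.mul_sum]
        exact Finset.sum_congr rfl fun i _ => by rw [hcq]; ring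
      rw [h2]
      calc (κ : ℚ) + q * ∑ i ∈ S'ᶜ, c i * μ i ≤ q * β + q * ∑ i ∈ S'ᶜ, c i * μ i := by linarith
        _ = q * (β + ∑ i ∈ S'ᶜ, c i * μ i) := by ring
        _ < q * 1 := mul_lt_mul_of_pos_left hlt hqQ
        _ = q := mul_one _
    have h3 : (κ : ℤ) + ∑ i ∈ S'ᶜ, (cq i : ℤ) * μ i < q := by exact_mod_cast h1
    omega
  have hsplit := Finset.sum_add_sum_compl S'
    (fun i => (cq i : ℤ) * (ov w (aeval y (g i)) - minWt (g i) a))
  rw [← hsplit]
  have h1 : ∑ i ∈ S', (cq i : ℤ) * (ov w (aeval y (g i)) - minWt (g i) a) ≤ κ * A := by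
    calc ∑ i ∈ S', (cq i : ℤ) * (ov w (aeval y (g i)) - minWt (g i) a)
        ≤ ∑ i ∈ S', (κ : ℤ) * (ov w (aeval y (g i)) - minWt (g i) a) := by
          refine Finset.sum_le_sum fun i hi => mul_le_mul_of_nonneg_right ?_ (he i)
          exact_mod_cast Finset.le_sup (f := cq) hi
      _ = κ * ∑ i ∈ S', (ov w (aeval y (g i)) - minWt (g i) a) := by rw [Finset.mul_sum]
      _ ≤ κ * A := mul_le_mul_of_nonneg_left hS' (by positivity)
  have h2 : ∑ i ∈ S'ᶜ, (cq i : ℤ) * (ov w (aeval y (g i)) - minWt (g i) a) ≤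
      (∑ i ∈ S'ᶜ, (cq i : ℤ) * μ i) * A := by
    rw [Finset.sum_mul]
    exact Finset.sum_le_sum hrest
  calc _ ≤ κ * A + (∑ i ∈ S'ᶜ, (cq i : ℤ) * μ i) * A := add_le_add h1 h2
    _ = (κ + ∑ i ∈ S'ᶜ, (cq i : ℤ) * μ i) * A := by ring
    _ ≤ (q - 1) * A := mul_le_mul_of_nonneg_right hsum hA

end Values

/-- Small multiplicities over an open subset imply log canonicity there. -/
theorem smallMultAt_lc {d : ℕ} (hd : 0 < d) {L : Type} [Field L] [Algebra ℂ L]
    {v : Fin N → Fin (d + 1) → ℤ} {y : Fin (d + 1) → L} {f : MvPolynomial (Fin (d + 1)) ℂ}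
    {g : Fin s → MvPolynomial (Fin (d + 1)) ℂ} {c : Fin s → ℚ}
    (H : HypData y f) (hg : ∀ i, aeval y (g i) ≠ 0) (hc : ∀ i, 0 ≤ c i)
    {P : MvPolynomial (Fin (d + 1)) ℂ} {u : Fin (d + 1) → ℤ} (hyP : aeval y P ≠ 0)
    (hP : ∀ γ ∈ P.support, ∀ j, 0 ≤ ∑ k, v j k * (γ k + u k))
    (hsm : ∀ a, Z647.InCone v a → minWt P a + ∑ k, a k * u k = 0 → ∀ ξ : Fin (d + 1) → ℂ,
      (∀ k, ξ k ≠ 0) → eval ξ (inFormZ f a) = 0 → eval ξ (inFormZ P a) ≠ 0 →
        SmallMultAt f g c a ξ) :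
    IsToricallyLCOn y f g c v
      ![aeval y P * ∏ k, y k ^ u k, (aeval y P * ∏ k, y k ^ u k)⁻¹] := by
  classical
  obtain ⟨e, rfl⟩ : ∃ e, d = e + 1 := ⟨d - 1, by omega⟩
  obtain ⟨q, hq, cq, hcq⟩ := exists_common c hc
  intro D h hres w m b a a' hw hm hb ha ha' hcone hσ'
  have hσ : w (aeval y P * ∏ k, y k ^ u k) = 0 := by
    have h0 := hσ' 0
    have h1 := hσ' 1
    simp only [Matrix.cons_val_zero, Matrix.cons_val_one] at h0 h1
    have hz : aeval y P * ∏ k, y k ^ u k ≠ 0 := mul_ne_zero hyP (monoT_ne_zero H.x0 u)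
    rw [nonneg_iff w (inv_ne_zero hz), ov_inv] at h1
    rw [nonneg_iff w hz] at h0
    rw [eq_zero_iff w hz]
    omega
  obtain ⟨i₀, hi₀⟩ := H.exists_pd
  have R : ResForm y f D h :=
    { x0 := H.x0
      eqn := H.eqn
      smooth := ⟨i₀, hi₀⟩
      h0 := by
        rintro rfl
        have h1 := hres i₀
        rw [zero_mul] at h1
        exact hi₀ ((mul_eq_zero.1 h1.symm).resolve_left (pow_ne_zero _ (neg_ne_zero.2 one_ne_zero)))
      res := hres }
  have ha0 : wts w y = a := by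
    funext k
    exact ov_eq_of w (ha k)
  have hb0 : ov w h = b := ov_eq_of w hb
  have ha0' : ∀ i, ov w (aeval y (g i)) = a' i := fun i => ov_eq_of w (ha' i)
  subst ha0
  have hbw : ∀ j, w (y j) = (wts w y j : WithTop ℤ) := fun j => (coe_ov w (H.x0 j)).symm
  -- the function `σ`
  have hP0 : P ≠ 0 := by rintro rfl; exact hyP (map_zero _)
  have hmono : (∏ k, y k ^ u k) = monoT y u := rfl
  have hPw : ov w (aeval y P) + ∑ j, wts w y j * u j = 0 := by
    rw [hmono, ← coe_ov w (mul_ne_zero hyP (monoT_ne_zero H.x0 u)),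
      ov_mul w hyP (monoT_ne_zero H.x0 u), H647.ov_monoT w H.x0] at hσ
    have h1 : ov w (aeval y P) + ∑ j, u j * ov w (y j) = 0 := by exact_mod_cast hσ
    rw [← h1]
    congr 1
    exact Finset.sum_congr rfl fun j _ => by unfold wts; ring
  have hminP := isMinZ_minWt hP0 (wts w y)
  have hlow := ov_lower hw.const H.x0 hyP hminP
  have hpos : 0 ≤ minWt P (wts w y) + ∑ j, wts w y j * u j := by
    obtain ⟨γ, hγ, hγ'⟩ := hminP.1
    have h1 := hcone.pair (fun j => hP γ hγ j)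
    rw [← hγ']
    have h2 : ∑ k, wts w y k * ((γ k : ℤ) + u k) =
        wtZ (wts w y) γ + ∑ j, wts w y j * u j := by
      unfold wtZ
      rw [← Finset.sum_add_distrib]
      exact Finset.sum_congr rfl fun k _ => by ring
    rw [← h2]
    exact h1
  have hmin0 : minWt P (wts w y) + ∑ j, wts w y j * u j = 0 := by linarith
  have hPeq : ov w (aeval y P) = minWt P (wts w y) := by linarith
  have hin : w (aeval y (inFormZ P (wts w y))) = (minWt P (wts w y) : WithTop ℤ) := by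
    have h1 := val_lowerZ w hw.const y (wts w y) hbw (diff_atLeastZ hminP)
    have h2 := val_lowerZ w hw.const y (wts w y) hbw (inFormZ_homog hminP).atLeast
    refine le_antisymm ?_ h2
    by_contra hlt
    push Not at hlt
    have h3 : aeval y P = aeval y (inFormZ P (wts w y)) + aeval y (P - inFormZ P (wts w y)) := by
      rw [← map_add, add_sub_cancel]
    have h4 : (minWt P (wts w y) : WithTop ℤ) < w (aeval y P) := by
      rw [h3]
      refine lt_of_lt_of_le (lt_min hlt (lt_of_lt_of_le ?_ h1)) (AddValuation.map_add w _ _)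
      exact_mod_cast lt_add_one _
    rw [← coe_ov w hyP, hPeq] at h4
    exact lt_irrefl _ h4
  obtain ⟨ξ, hξ0, hPξ, hξ⟩ := exists_pointQ w hw.const y (wts w y) hbw hw.normalized
    (inFormZ_homog hminP) hin
  have hmf := isMinZ_minWt H.f0 (wts w y)
  have hfξ : eval ξ (inFormZ f (wts w y)) = 0 := by
    by_contra hne
    have hk := hξ _ _ (inFormZ_homog hmf) hne
    have h1 := val_lowerZ w hw.const y (wts w y) hbw (diff_atLeastZ hmf)
    have h2 : aeval y (inFormZ f (wts w y)) + aeval y (f - inFormZ f (wts w y)) = 0 := by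
      rw [← map_add, add_sub_cancel, H.eqn]
    have h3 := ov_lt_of hk h1
    rw [h2, AddValuation.map_zero] at h3
    exact WithTop.top_ne_coe h3
  have hat := hsm _ hcone hmin0 ξ hξ0 hfξ hPξ
  have hA := tor_nonnegA (v := v) H (c := c) (g := g) R hw hm hξ0 hξ hat
  have h1 := excess_boundA (v := v) H R hg hcq hq hw hcone hm hA hξ0 hξ hat
  simp only [ha0', hb0] at h1 hA
  have hqQ : (0 : ℚ) < q := by exact_mod_cast hq
  have h2 : ∑ i, (cq i : ℤ) * (a' i - minWt (g i) (wts w y)) ≤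
      q * (1 + m - b - ∑ j, wts w y j + minWt f (wts w y)) := by
    refine h1.trans ?_
    have : (q : ℤ) * (1 + m - b - ∑ j, wts w y j + minWt f (wts w y)) =
      (q - 1) * (1 + m - b - ∑ j, wts w y j + minWt f (wts w y)) +
      (1 + m - b - ∑ j, wts w y j + minWt f (wts w y)) := by ring
    rw [this]
    linarith
  have h3 : (q : ℚ) * ∑ i, c i * ((a' i : ℚ) - minWt (g i) (wts w y)) ≤
      q * (1 + m - b - ∑ j, (wts w y j : ℚ) + minWt f (wts w y)) := by
    have h4 : (q : ℚ) * ∑ i, c i * ((a' i : ℚ) - minWt (g i) (wts w y)) =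
        ∑ i, (cq i : ℚ) * ((a' i : ℚ) - minWt (g i) (wts w y)) := by
      rw [Finset.mul_sum]
      exact Finset.sum_congr rfl fun i _ => by rw [hcq]; ring
    rw [h4]
    exact_mod_cast h2
  exact le_of_mul_le_mul_left h3 hqQ

/-- Small multiplicities over an open subset imply log canonicity there, for all finite extensions
of the function field. -/
theorem smallMultAt_lcFin {d : ℕ} (hd : 0 < d) {L : Type} [Field L] [Algebra ℂ L]
    {v : Fin N → Fin (d + 1) → ℤ} {y : Fin (d + 1) → L} {f : MvPolynomial (Fin (d + 1)) ℂ}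
    {g : Fin s → MvPolynomial (Fin (d + 1)) ℂ} {c : Fin s → ℚ}
    (hfin : FiniteDimensional (IntermediateField.adjoin ℂ (Set.range y)) L)
    (hker : ∀ P : MvPolynomial (Fin (d + 1)) ℂ, aeval y P = 0 ↔ f ∣ P) (hf0 : f ≠ 0)
    (hy : ∀ k, y k ≠ 0) (hg : ∀ i, aeval y (g i) ≠ 0) (hc : ∀ i, 0 ≤ c i)
    {P : MvPolynomial (Fin (d + 1)) ℂ} {u : Fin (d + 1) → ℤ} (hyP : aeval y P ≠ 0)
    (hP : ∀ γ ∈ P.support, ∀ j, 0 ≤ ∑ k, v j k * (γ k + u k))
    (hsm : ∀ a, Z647.InCone v a → minWt P a + ∑ k, a k * u k = 0 → ∀ ξ : Fin (d + 1) → ℂ,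
      (∀ k, ξ k ≠ 0) → eval ξ (inFormZ f a) = 0 → eval ξ (inFormZ P a) ≠ 0 →
        SmallMultAt f g c a ξ) :
    IsToricallyLCOn y f g c v
      ![aeval y P * ∏ k, y k ^ u k, (aeval y P * ∏ k, y k ^ u k)⁻¹] := by
  have H : FinData y f := ⟨hfin, hker, hf0, hy⟩
  have HE : FinData (base y) f := finData_base H
  have hg' : ∀ i, aeval (base y) (g i) ≠ 0 := by
    intro i h0
    apply hg i
    rw [← base_aeval, h0, map_zero]
  have h2 := smallMultAt_lc hd H.hyp₀ hg' hc (fun h0 => hyP (by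
    rw [← base_aeval, h0, map_zero])) hP hsm
  have h3 := lc_upOn (E := IntermediateField.adjoin ℂ (Set.range y)) (L := L) HE H hd hg' h2
  have h4 : algebraMap (IntermediateField.adjoin ℂ (Set.range y)) L
      (aeval (base y) P * ∏ k, base y k ^ u k) = aeval y P * ∏ k, y k ^ u k := by
    rw [map_mul, base_aeval, map_prod]
    congr 1
  have h5 : (fun i : Fin 2 => algebraMap (IntermediateField.adjoin ℂ (Set.range y)) L
      ((![aeval (base y) P * ∏ k, base y k ^ u k, (aeval (base y) P * ∏ k, base y k ^ u k)⁻¹] :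
        Fin 2 → IntermediateField.adjoin ℂ (Set.range y)) i)) =
      ![aeval y P * ∏ k, y k ^ u k, (aeval y P * ∏ k, y k ^ u k)⁻¹] := by
    funext i
    fin_cases i
    · exact h4
    · show algebraMap (IntermediateField.adjoin ℂ (Set.range y)) L
        (aeval (base y) P * ∏ k, base y k ^ u k)⁻¹ = (aeval y P * ∏ k, y k ^ u k)⁻¹
      rw [map_inv₀, h4]
  rw [h5] at h3
  exact h3

end Vale.Agent.P283.H108
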