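import Vale.Agent.P283.H647.Forms
import Vale.Agent.P283.H647.Val

/-!
The order of a form in terms of a function with a zero of higher order.
-/

set_option linter.all false

namespace Vale.Agent.P283.H108

open MvPolynomial Finset
open Vale.Agent.P283.H647 (order_params)

theorem jac_cons_eq {K : Type} [Field K] [Algebra ℂ K] {e : ℕ}
    (D : Fin (e + 1) → Derivation ℂ K K) (u : Fin e → K) (t x : K) :
    Q.jac D (Fin.cons x u : Fin (e + 1) → K) =
      ((Matrix.of fun i j => D j ((Fin.cons t u : Fin (e + 1) → K) i)).updateRow 0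
        (fun j => D j x)).det := by
  unfold Q.jac
  congr 1
  ext i j
  rw [Matrix.updateRow_apply]
  refine Fin.cases ?_ (fun i => ?_) i
  · rw [if_pos rfl, Matrix.of_apply, Fin.cons_zero]
  · rw [if_neg (Fin.succ_ne_zero i), Matrix.of_apply, Matrix.of_apply, Fin.cons_succ,
      Fin.cons_succ]

theorem order_params_gen {K : Type} [Field K] [Algebra ℂ K] [Algebra.EssFiniteType ℂ K] {e : ℕ}
    (htr : Algebra.trdeg ℂ K = ((e + 1 : ℕ) : Cardinal)) {D : Fin (e + 1) → Derivation ℂ K K}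
    (hD : ∃ f, Q.jac D f ≠ 0) {v : AddValuation K (WithTop ℤ)} {m : ℤ}
    (hm : Q.FormOrder v D m) (hn : ∃ t, v t = 1) (π : K) (u : Fin e → K) {n : ℕ} (hn0 : 0 < n)
    (hπ : v π = ((n : ℤ) : WithTop ℤ))
    (hu : ∀ P : MvPolynomial (Fin e) ℂ, P ≠ 0 → v (aeval u P) = 0) :
    Q.jac D (Fin.cons π u : Fin (e + 1) → K) ≠ 0 ∧
      ov v (Q.jac D (Fin.cons π u : Fin (e + 1) → K)) = n - 1 - m := by
  classical
  haveI : CharZero K := charZero_of_injective_algebraMap (algebraMap ℂ K).injective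
  obtain ⟨t, ht⟩ := hn
  have ht0 : t ≠ 0 := ne_zero_of_eq v (n := 1) (by simpa using ht)
  have hto : ov v t = 1 := ov_eq_of v (n := 1) (by simpa using ht)
  have hπ0 : π ≠ 0 := ne_zero_of_eq v hπ
  have hπo : ov v π = n := ov_eq_of v hπ
  obtain ⟨hj, hjm⟩ := order_params htr hD hm t u ht hu
  set J := Q.jac D (Fin.cons t u : Fin (e + 1) → K) with hJ
  have htn : t ^ n ≠ 0 := pow_ne_zero _ ht0
  set a := π / t ^ n with ha
  have ha0 : a ≠ 0 := div_ne_zero hπ0 htn
  have hao : ov v a = 0 := by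
    rw [ha, ov_div v hπ0 htn, ov_pow v ht0, hto, hπo]; ring
  have hπa : π = a * t ^ n := by rw [ha]; field_simp
  have hrow : (fun j => D j π) = (a * n * t ^ (n - 1)) • (fun j => D j t) +
      (t ^ n) • (fun j => D j a) := by
    funext j
    rw [hπa]
    simp only [Pi.add_apply, Pi.smul_apply, smul_eq_mul, Derivation.leibniz, Derivation.leibniz_pow,
      nsmul_eq_mul]
    ring
  set M := (Matrix.of fun i j => D j ((Fin.cons t u : Fin (e + 1) → K) i)) with hM
  have hdet : Q.jac D (Fin.cons π u : Fin (e + 1) → K) =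
      (a * n * t ^ (n - 1)) * J + t ^ n * Q.jac D (Fin.cons a u : Fin (e + 1) → K) := by
    rw [jac_cons_eq D u t π, hrow, Matrix.det_updateRow_add, Matrix.det_updateRow_smul,
      Matrix.det_updateRow_smul, ← jac_cons_eq D u t t, ← jac_cons_eq D u t a]
  have hnK : (n : K) ≠ 0 := Nat.cast_ne_zero.2 hn0.ne'
  have h1 : a * n * t ^ (n - 1) ≠ 0 := mul_ne_zero (mul_ne_zero ha0 hnK) (pow_ne_zero _ ht0)
  have h1J : a * n * t ^ (n - 1) * J ≠ 0 := mul_ne_zero h1 hj
  have hun : ∀ k, v (u k) = 0 := by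
    intro k
    have := hu (X k) (X_ne_zero k)
    rwa [aeval_X] at this
  have hc : ov v (n : K) = 0 := by
    apply ov_eq_of
    have h2 := hu (C (n : ℂ)) (by
      rw [Ne, C_eq_zero]
      exact Nat.cast_ne_zero.2 hn0.ne')
    rw [aeval_C, map_natCast] at h2
    rw [h2]; rfl
  have h2 : ov v (a * n * t ^ (n - 1) * J) = n - 1 - m := by
    rw [ov_mul v h1 hj, ov_mul v (mul_ne_zero ha0 hnK) (pow_ne_zero _ ht0), ov_mul v ha0 hnK,
      ov_pow v ht0, hto, hao, hc]
    have h3 : ((n - 1 : ℕ) : ℤ) = n - 1 := by omega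
    rw [h3]
    linarith
  have h3 : ((n - m : ℤ) : WithTop ℤ) ≤
      v (t ^ n * Q.jac D (Fin.cons a u : Fin (e + 1) → K)) := by
    by_cases h0 : Q.jac D (Fin.cons a u : Fin (e + 1) → K) = 0
    · rw [h0, mul_zero, AddValuation.map_zero]; exact le_top
    · have h4 := hm.2 ⟨(Q.jac D (Fin.cons a u : Fin (e + 1) → K))⁻¹, (Fin.cons a u), (coe_ov v
        (inv_ne_zero h0)).symm, fun i => by
          refine Fin.cases ?_ (fun i => ?_) i
          · rw [Fin.cons_zero, nonneg_iff v ha0, hao]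
          · rw [Fin.cons_succ, hun]; , inv_mul_cancel₀ h0⟩
      rw [ov_inv] at h4
      rw [← coe_ov v (mul_ne_zero htn h0), ov_mul v htn h0, ov_pow v ht0, hto]
      have : (n : ℤ) - m ≤ n * 1 + ov v (Q.jac D (Fin.cons a u : Fin (e + 1) → K)) := by linarith
      exact_mod_cast this
  have h5 : v (a * n * t ^ (n - 1) * J) = ((n - 1 - m : ℤ) : WithTop ℤ) := by
    rw [← coe_ov v h1J, h2]
  have h6 : v (Q.jac D (Fin.cons π u : Fin (e + 1) → K)) = ((n - 1 - m : ℤ) : WithTop ℤ) := by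
    rw [hdet]
    refine H647.ov_lt_of h5 (le_trans (le_of_eq ?_) h3)
    congr 1
    ring
  exact ⟨ne_zero_of_eq v h6, ov_eq_of v h6⟩

end Vale.Agent.P283.H108
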