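import Vale.Agent.P283.H647.Inv
import Vale.Agent.P283.H647.Init

/-!
Forms of maximal order at a discrete valuation.
-/

set_option linter.all false

namespace Vale.Agent.P283.H108

open MvPolynomial Finset

variable {L : Type} [Field L] [Algebra ℂ L]

section Poly

variable {n : ℕ}

theorem support_pderiv {P : MvPolynomial (Fin n) ℂ} {k : Fin n} {α : Fin n →₀ ℕ}
    (hα : α ∈ (pderiv k P).support) : Finsupp.single k 1 + α ∈ P.support := by
  rw [mem_support_iff] at hα ⊢
  intro h0
  apply hα
  have h1 : coeff (Finsupp.single k 1 + α) (X k * pderiv k P) = coeff α (pderiv k P) := by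
    rw [coeff_X_mul]
  rw [← h1, H647.coeff_logd, h0, mul_zero]

theorem totalDegree_pderiv_lt {P : MvPolynomial (Fin n) ℂ} {k : Fin n} (h : pderiv k P ≠ 0) :
    (pderiv k P).totalDegree < P.totalDegree := by
  classical
  have hpos : 0 < P.totalDegree := by
    obtain ⟨α, hα⟩ := support_nonempty.2 h
    have h1 := le_totalDegree (support_pderiv hα)
    have h2 : (Finsupp.single k 1 + α).sum (fun _ e => e) = 1 + α.sum (fun _ e => e) := by
      rw [Finsupp.sum_add_index' (fun _ => rfl) (fun _ _ _ => rfl)]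
      simp
    rw [h2] at h1
    omega
  rw [totalDegree, Finset.sup_lt_iff hpos]
  intro α hα
  have h1 := le_totalDegree (support_pderiv hα)
  have h2 : (Finsupp.single k 1 + α).sum (fun _ e => e) = 1 + α.sum (fun _ e => e) := by
    rw [Finsupp.sum_add_index' (fun _ => rfl) (fun _ _ _ => rfl)]
    simp
  rw [h2] at h1
  omega

theorem eq_C_of_pderiv {P : MvPolynomial (Fin n) ℂ} (h : ∀ k, pderiv k P = 0) :
    P = C (P.coeff 0) := by
  classical
  ext α
  rw [coeff_C]
  split_ifs with h0
  · rw [h0]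
  · by_contra hne
    obtain ⟨k, hk⟩ : ∃ k, α k ≠ 0 := by
      by_contra hno
      push Not at hno
      exact h0 (Finsupp.ext fun i => (hno i).symm)
    have h1 := H647.coeff_logd P k α
    rw [h k, mul_zero, coeff_zero] at h1
    rcases mul_eq_zero.1 h1.symm with h2 | h2
    · exact hk (by exact_mod_cast h2)
    · exact hne h2

variable (v : AddValuation L (WithTop ℤ)) (hc : ∀ c : ℂ, c ≠ 0 → v (algebraMap ℂ L c) = 0)
include hc

omit hc in
theorem aeval_nonneg' (hc : ∀ c : ℂ, c ≠ 0 → v (algebraMap ℂ L c) = 0) (u : Fin n → L)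
    (hu : ∀ i, 0 ≤ v (u i)) (P : MvPolynomial (Fin n) ℂ) : 0 ≤ v (aeval u P) := by
  induction P using MvPolynomial.induction_on with
  | C a =>
    rw [MvPolynomial.algHom_C]
    by_cases h : a = 0
    · rw [h, map_zero, AddValuation.map_zero]; exact le_top
    · rw [hc a h]
  | add p q hp hq => rw [map_add]; exact nonneg_add v hp hq
  | mul_X p i hp => rw [map_mul, aeval_X]; exact nonneg_mul v hp (hu i)

/-- A relation of least degree modulo the maximal ideal. -/
theorem min_poly (u : Fin n → L) (hu : ∀ i, 0 ≤ v (u i))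
    (hex : ∃ P : MvPolynomial (Fin n) ℂ, P ≠ 0 ∧ v (aeval u P) ≠ 0) :
    ∃ P : MvPolynomial (Fin n) ℂ, P ≠ 0 ∧ 0 < v (aeval u P) ∧
      (∀ k, pderiv k P ≠ 0 → v (aeval u (pderiv k P)) = 0) ∧ ∃ k, pderiv k P ≠ 0 := by
  classical
  have hnn := aeval_nonneg' v hc u hu
  have hex' : ∃ m : ℕ, ∃ P : MvPolynomial (Fin n) ℂ, P.totalDegree = m ∧ P ≠ 0 ∧
      v (aeval u P) ≠ 0 := by
    obtain ⟨P, h1, h2⟩ := hex
    exact ⟨_, P, rfl, h1, h2⟩
  obtain ⟨P, hPm, hP0, hPv⟩ := Nat.find_spec hex'
  have hmin : ∀ m < Nat.find hex', ¬ ∃ P : MvPolynomial (Fin n) ℂ, P.totalDegree = m ∧ P ≠ 0 ∧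
      v (aeval u P) ≠ 0 := fun m hm => Nat.find_min hex' hm
  refine ⟨P, hP0, lt_of_le_of_ne (hnn P) (Ne.symm hPv), ?_, ?_⟩
  · intro k hk
    by_contra hne
    exact hmin _ (by rw [← hPm]; exact totalDegree_pderiv_lt hk) ⟨_, rfl, hk, hne⟩
  · by_contra hno
    push Not at hno
    have h1 := eq_C_of_pderiv hno
    rw [h1, MvPolynomial.algHom_C] at hPv
    by_cases h : P.coeff 0 = 0
    · rw [h, map_zero] at h1
      exact hP0 h1
    · exact hPv (hc _ h)

end Poly

section Dual

variable {d : ℕ} (D' : Fin d → Derivation ℂ L L) (z : Fin d → L)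

/-- The derivations dual to a system of functions. -/
noncomputable def dual (j : Fin d) : Derivation ℂ L L :=
  ∑ k, (Matrix.of fun i j => D' j (z i))⁻¹ k j • D' k

theorem dual_apply (j : Fin d) (x : L) : dual D' z j x =
    ∑ k, D' k x * (Matrix.of fun i j => D' j (z i))⁻¹ k j := by
  unfold dual
  have h1 : ∀ (s : Finset (Fin d)) (F : Fin d → Derivation ℂ L L),
      (∑ k ∈ s, F k) x = ∑ k ∈ s, F k x := by
    classical
    intro s F
    induction s using Finset.induction_on with
    | empty => simp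
    | insert a s ha ih => rw [Finset.sum_insert ha, Finset.sum_insert ha, Derivation.add_apply, ih]
  rw [h1]
  refine Finset.sum_congr rfl fun k _ => ?_
  rw [Derivation.smul_apply, smul_eq_mul, mul_comm]

variable {D' z} (hj : Q.jac D' z ≠ 0)
include hj

theorem dual_self (i j : Fin d) : dual D' z j (z i) = if i = j then 1 else 0 := by
  have hu : IsUnit (Matrix.of fun i j => D' j (z i)).det := isUnit_iff_ne_zero.2 hj
  have h1 := congrFun (congrFun (Matrix.mul_nonsing_inv _ hu) i) j
  rw [Matrix.mul_apply, Matrix.one_apply] at h1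
  rw [dual_apply, ← h1]
  rfl

theorem dual_expand (k : Fin d) (x : L) : D' k x = ∑ j, dual D' z j x * D' k (z j) := by
  have hu : IsUnit (Matrix.of fun i j => D' j (z i)).det := isUnit_iff_ne_zero.2 hj
  have h1 := Matrix.nonsing_inv_mul _ hu
  have h2 : ∀ l, ∑ j, (Matrix.of fun i j => D' j (z i))⁻¹ l j * D' k (z j) =
      if l = k then 1 else 0 := by
    intro l
    have h3 := congrFun (congrFun h1 l) k
    rw [Matrix.mul_apply, Matrix.one_apply] at h3
    exact h3
  have h3 : ∑ j, dual D' z j x * D' k (z j) = ∑ l, D' l x * (if l = k then 1 else 0) := by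
    rw [← Finset.sum_congr rfl fun l _ => congrArg (D' l x * ·) (h2 l)]
    simp only [dual_apply, Finset.sum_mul, Finset.mul_sum]
    rw [Finset.sum_comm]
    exact Finset.sum_congr rfl fun l _ => Finset.sum_congr rfl fun j _ => by ring
  rw [h3]
  simp

theorem jac_update (j : Fin d) (x : L) :
    Q.jac D' (Function.update z j x) = dual D' z j x * Q.jac D' z := by
  classical
  unfold Q.jac
  have h1 : (Matrix.of fun i k => D' k (Function.update z j x i)) =
      (Matrix.of fun i k => D' k (z i)).updateRow j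
        (∑ i, dual D' z i x • (Matrix.of fun i k => D' k (z i)) i) := by
    ext i k
    rw [Matrix.updateRow_apply]
    by_cases hi : i = j
    · subst hi
      rw [if_pos rfl, Matrix.of_apply, Function.update_self, Finset.sum_apply,
        dual_expand hj k x]
      exact Finset.sum_congr rfl fun i _ => by
        rw [Pi.smul_apply, Matrix.of_apply, smul_eq_mul]
    · rw [if_neg hi, Matrix.of_apply, Matrix.of_apply, Function.update_of_ne hi]
  rw [h1, Matrix.det_updateRow_sum, smul_eq_mul]

theorem dual_aeval {n : ℕ} (j : Fin d) (u : Fin n → L) (P : MvPolynomial (Fin n) ℂ) :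
    dual D' z j (aeval u P) = ∑ l, aeval u (pderiv l P) * dual D' z j (u l) :=
  H647.der_aeval' _ u P

end Dual

/-- A system of regular functions whose form has maximal order. -/
structure MaxSys {d : ℕ} (v : AddValuation L (WithTop ℤ)) (D' : Fin d → Derivation ℂ L L)
    (z : Fin d → L) (m : ℤ) : Prop where
  order : Q.FormOrder v D' m
  reg : ∀ i, 0 ≤ v (z i)
  jac : Q.jac D' z ≠ 0
  val : ov v (Q.jac D' z) = -m

section Max

variable {d : ℕ} {v : AddValuation L (WithTop ℤ)} {D' : Fin d → Derivation ℂ L L}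
  {z : Fin d → L} {m : ℤ}

theorem exists_maxSys (hm : Q.FormOrder v D' m) : ∃ z, MaxSys v D' z m := by
  obtain ⟨h, f, h1, h2, h3⟩ := hm.1
  have hj : Q.jac D' f ≠ 0 := right_ne_zero_of_mul (h3.trans_ne one_ne_zero)
  have hh : h ≠ 0 := left_ne_zero_of_mul (h3.trans_ne one_ne_zero)
  refine ⟨f, hm, h2, hj, ?_⟩
  have h4 : Q.jac D' f = h⁻¹ := (eq_inv_of_mul_eq_one_right h3)
  rw [h4, ov_inv, ov_eq_of v h1]

variable (M : MaxSys v D' z m)
include M

theorem MaxSys.dual_nonneg (j : Fin d) {x : L} (hx : 0 ≤ v x) : 0 ≤ v (dual D' z j x) := by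
  classical
  by_cases h0 : dual D' z j x = 0
  · rw [h0, AddValuation.map_zero]; exact le_top
  have h1 := jac_update M.jac j x
  have h2 : Q.jac D' (Function.update z j x) ≠ 0 := by
    rw [h1]; exact mul_ne_zero h0 M.jac
  have h3 := H647.order_regular M.order (Function.update z j x) (fun i => by
    by_cases hi : i = j
    · subst hi; rw [Function.update_self]; exact hx
    · rw [Function.update_of_ne hi]; exact M.reg i) h2
  rw [h1, ov_mul v h0 M.jac, M.val] at h3
  rw [nonneg_iff v h0]
  omega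

theorem MaxSys.update (j : Fin d) {x : L} (hx : 0 ≤ v x) (hd : v (dual D' z j x) = 0) :
    MaxSys v D' (Function.update z j x) m := by
  classical
  have h0 : dual D' z j x ≠ 0 := ne_zero_of_val_zero v hd
  have h1 := jac_update M.jac j x
  have h2 : Q.jac D' (Function.update z j x) ≠ 0 := by
    rw [h1]; exact mul_ne_zero h0 M.jac
  refine ⟨M.order, ?_, h2, ?_⟩
  · intro i
    by_cases hi : i = j
    · subst hi; rw [Function.update_self]; exact hx
    · rw [Function.update_of_ne hi]; exact M.reg i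
  · rw [h1, ov_mul v h0 M.jac, M.val, (eq_zero_iff v h0).1 hd, zero_add]

theorem MaxSys.ne_zero (i : Fin d) : z i ≠ 0 := by
  intro h0
  apply M.jac
  unfold Q.jac
  apply Matrix.det_eq_zero_of_row_eq_zero i
  intro j
  rw [Matrix.of_apply, h0, map_zero]

/-- A function `x` with `v x = 0` at `t` cannot be divided. -/
theorem MaxSys.not_div {t a : L} (ht : v t = 1) (ha : 0 < v a) (j : Fin d)
    (htj : 0 < v (dual D' z j t)) (haj : v (dual D' z j a) = 0) : False := by
  have ht0 : t ≠ 0 := ne_zero_of_eq v (n := 1) (by simpa using ht)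
  have hto : ov v t = 1 := ov_eq_of v (n := 1) (by simpa using ht)
  have ha0 : a ≠ 0 := by
    rintro rfl
    rw [map_zero, AddValuation.map_zero] at haj
    exact absurd haj (by simp)
  have hx : 0 ≤ v (a / t) := by
    rw [nonneg_iff v (div_ne_zero ha0 ht0), ov_div v ha0 ht0, hto]
    have := (pos_iff v ha0).1 ha
    omega
  have h1 := M.dual_nonneg j hx
  have h2 : t * dual D' z j (a / t) = dual D' z j a - (a / t) * dual D' z j t := by
    have h3 : dual D' z j (t * (a / t)) = dual D' z j a := by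
      rw [mul_div_cancel₀ _ ht0]
    rw [Derivation.leibniz, smul_eq_mul, smul_eq_mul] at h3
    linear_combination h3
  have h3 : 0 < v (t * dual D' z j (a / t)) := by
    rw [AddValuation.map_mul, ht]
    have : (1 : WithTop ℤ) ≤ 1 + v (dual D' z j (a / t)) := le_add_of_nonneg_right h1
    exact lt_of_lt_of_le (by decide) this
  have h4 : 0 < v ((a / t) * dual D' z j t) := by
    rw [AddValuation.map_mul]
    exact lt_of_lt_of_le htj (le_add_of_nonneg_left hx)
  have h5 : dual D' z j a = t * dual D' z j (a / t) + (a / t) * dual D' z j t := by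
    rw [h2]; ring
  have h6 : 0 < v (dual D' z j a) := by
    rw [h5]
    exact lt_of_lt_of_le (lt_min h3 h4) (AddValuation.map_add v _ _)
  rw [haj] at h6
  exact lt_irrefl _ h6

end Max

section Params

variable {e : ℕ} {v : AddValuation L (WithTop ℤ)} {D' : Fin (e + 1) → Derivation ℂ L L}
  {m : ℤ}

/-- Regular functions are dependent modulo the maximal ideal. -/
theorem exists_rel (hc : ∀ c : ℂ, c ≠ 0 → v (algebraMap ℂ L c) = 0) (hn : ∃ t, v t = 1)
    (htr : Algebra.trdeg ℂ L = ((e + 1 : ℕ) : Cardinal)) (z : Fin (e + 1) → L) :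
    ∃ P : MvPolynomial (Fin (e + 1)) ℂ, P ≠ 0 ∧ v (aeval z P) ≠ 0 := by
  by_contra hcon
  push Not at hcon
  obtain ⟨t, ht⟩ := hn
  have h3 := algInd_cons (k := ℂ) ht hcon
  have h4 := h3.lift_cardinalMk_le_trdeg
  simp only [Cardinal.mk_fin, Cardinal.lift_id] at h4
  have h5 := h4.trans htr.le
  have h6 : e + 1 + 1 ≤ e + 1 := by exact_mod_cast h5
  omega

/-- Parameters: a maximal system with a uniformizer and residually independent functions. -/
theorem exists_params' (hc : ∀ c : ℂ, c ≠ 0 → v (algebraMap ℂ L c) = 0) (hn : ∃ t, v t = 1)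
    (htr : Algebra.trdeg ℂ L = ((e + 1 : ℕ) : Cardinal)) (hm : Q.FormOrder v D' m) :
    ∃ (z : Fin (e + 1) → L) (i₀ : Fin (e + 1)), MaxSys v D' z m ∧ v (z i₀) = 1 ∧
      ∀ P : MvPolynomial (Fin e) ℂ, P ≠ 0 → v (aeval (fun l => z (i₀.succAbove l)) P) = 0 := by
  classical
  obtain ⟨t, ht⟩ := hn
  have ht' : 0 < v t := by rw [ht]; decide
  obtain ⟨z₀, M₀⟩ := exists_maxSys hm
  obtain ⟨P, hP0, hPv, hPd, j, hj⟩ := min_poly v hc z₀ M₀.reg (exists_rel hc ⟨t, ht⟩ htr z₀)
  have hd0 : ∀ j, dual D' z₀ j (aeval z₀ P) = aeval z₀ (pderiv j P) := by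
    intro j
    rw [dual_aeval M₀.jac, Finset.sum_eq_single j]
    · rw [dual_self M₀.jac, if_pos rfl, mul_one]
    · intro l _ hl
      rw [dual_self M₀.jac, if_neg hl, mul_zero]
    · intro h; exact absurd (Finset.mem_univ _) h
  have M₁ := M₀.update j hPv.le (by rw [hd0]; exact hPd j hj)
  set z₁ := Function.update z₀ j (aeval z₀ P) with hz₁
  have hz₁j : z₁ j = aeval z₀ P := by rw [hz₁, Function.update_self]
  obtain ⟨i₀, hi₀⟩ : ∃ i, v (dual D' z₁ i t) = 0 := by
    by_contra hno
    push Not at hno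
    have h1 : ∀ i, 0 < v (dual D' z₁ i t) := fun i =>
      lt_of_le_of_ne (M₁.dual_nonneg i ht'.le) (Ne.symm (hno i))
    refine M₁.not_div ht (a := z₁ j) (by rw [hz₁j]; exact hPv) j (h1 j) ?_
    rw [dual_self M₁.jac, if_pos rfl, AddValuation.map_one]
  have M₂ := M₁.update i₀ ht'.le hi₀
  set z₂ := Function.update z₁ i₀ t with hz₂
  have hz₂i : z₂ i₀ = t := by rw [hz₂, Function.update_self]
  refine ⟨z₂, i₀, M₂, by rw [hz₂i, ht], ?_⟩
  by_contra hno
  push Not at hno
  obtain ⟨P, hP0, hPv, hPd, l, hl⟩ := min_poly v hc (fun l => z₂ (i₀.succAbove l))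
    (fun l => M₂.reg _) hno
  refine M₂.not_div ht (a := aeval (fun l => z₂ (i₀.succAbove l)) P) hPv (i₀.succAbove l) ?_ ?_
  · rw [← hz₂i, dual_self M₂.jac, if_neg (Fin.succAbove_ne i₀ l).symm, AddValuation.map_zero]
    exact WithTop.coe_lt_top 0
  · rw [dual_aeval M₂.jac, Finset.sum_eq_single l]
    · rw [dual_self M₂.jac, if_pos rfl, mul_one]
      exact hPd l hl
    · intro l' _ hl'
      rw [dual_self M₂.jac, if_neg (fun h => hl' (Fin.succAbove_right_injective h)), mul_zero]
    · intro h; exact absurd (Finset.mem_univ _) h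

/-- A function whose derivatives along the residually independent functions vanish modulo the
maximal ideal is constant modulo the maximal ideal. -/
theorem exists_const (hc : ∀ c : ℂ, c ≠ 0 → v (algebraMap ℂ L c) = 0)
    (htr : Algebra.trdeg ℂ L = ((e + 1 : ℕ) : Cardinal)) {z : Fin (e + 1) → L}
    {i₀ : Fin (e + 1)} (M : MaxSys v D' z m) (ht : v (z i₀) = 1) {x : L} (hx : 0 ≤ v x)
    (hd : ∀ j, j ≠ i₀ → v (dual D' z j x) ≠ 0) : ∃ γ : ℂ, 0 < v (x - algebraMap ℂ L γ) := by
  classical
  set zs := Function.update z i₀ x with hzs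
  have hzr : ∀ i, 0 ≤ v (zs i) := by
    intro i
    by_cases hi : i = i₀
    · subst hi; rw [hzs, Function.update_self]; exact hx
    · rw [hzs, Function.update_of_ne hi]; exact M.reg i
  obtain ⟨P, hP0, hPv, hPd, -⟩ := min_poly v hc zs hzr (exists_rel hc ⟨_, ht⟩ htr zs)
  have hpd : ∀ j, j ≠ i₀ → pderiv j P = 0 := by
    intro j hj
    by_contra hne
    have h1 := hPd j hne
    -- the derivative of the relation
    refine M.not_div ht hPv j ?_ ?_
    · rw [dual_self M.jac, if_neg (Ne.symm hj), AddValuation.map_zero]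
      exact WithTop.coe_lt_top 0
    · have h2 : dual D' z j (aeval zs P) = aeval zs (pderiv j P) +
          aeval zs (pderiv i₀ P) * dual D' z j x := by
        rw [dual_aeval M.jac, ← Finset.add_sum_erase _ _ (Finset.mem_univ j),
          ← Finset.add_sum_erase _ _ (Finset.mem_erase.2 ⟨Ne.symm hj, Finset.mem_univ i₀⟩)]
        have h3 : zs j = z j := by rw [hzs, Function.update_of_ne hj]
        have h4 : zs i₀ = x := by rw [hzs, Function.update_self]
        rw [h3, h4, dual_self M.jac, if_pos rfl, mul_one, Finset.sum_eq_zero, add_zero]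
        intro l hl
        rw [Finset.mem_erase, Finset.mem_erase] at hl
        have h5 : zs l = z l := by rw [hzs, Function.update_of_ne hl.1]
        rw [h5, dual_self M.jac, if_neg hl.2.1, mul_zero]
      rw [h2]
      have h3 : 0 < v (aeval zs (pderiv i₀ P) * dual D' z j x) := by
        rw [AddValuation.map_mul]
        have h4 := M.dual_nonneg j hx
        have h5 : 0 < v (dual D' z j x) := lt_of_le_of_ne h4 (Ne.symm (hd j hj))
        exact lt_of_lt_of_le h5 (le_add_of_nonneg_left (aeval_nonneg' v hc zs hzr _))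
      rw [AddValuation.map_add_eq_of_lt_left]
      · exact h1
      · rw [h1]; exact h3
  -- the relation involves only `x`
  have hsupp : ∀ α ∈ P.support, ∀ j, j ≠ i₀ → α j = 0 := by
    intro α hα j hj
    have h1 := H647.coeff_logd P j α
    rw [hpd j hj, mul_zero, coeff_zero] at h1
    rcases mul_eq_zero.1 h1.symm with h2 | h2
    · exact_mod_cast h2
    · exact absurd h2 (mem_support_iff.1 hα)
  let p : Polynomial ℂ := ∑ α ∈ P.support, Polynomial.monomial (α i₀) (P.coeff α)
  have hpP : Polynomial.aeval (X i₀ : MvPolynomial (Fin (e + 1)) ℂ) p = P := by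
    simp only [p, map_sum, Polynomial.aeval_monomial]
    conv_rhs => rw [P.as_sum]
    refine Finset.sum_congr rfl fun α hα => ?_
    have hα' : Finsupp.single i₀ (α i₀) = α := by
      ext j
      by_cases hj : j = i₀
      · subst hj; rw [Finsupp.single_eq_same]
      · rw [Finsupp.single_eq_of_ne hj, hsupp α hα j hj]
    rw [MvPolynomial.algebraMap_eq, X_pow_eq_monomial, C_mul_monomial, mul_one, hα']
  have hp0 : p ≠ 0 := by
    intro h0
    rw [h0, map_zero] at hpP
    exact hP0 hpP.symm
  have hpx : aeval zs P = Polynomial.aeval x p := by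
    rw [← hpP]
    have h1 : (aeval zs : MvPolynomial (Fin (e + 1)) ℂ →ₐ[ℂ] L)
        (Polynomial.aeval (X i₀ : MvPolynomial (Fin (e + 1)) ℂ) p) =
        Polynomial.aeval (aeval zs (X i₀ : MvPolynomial (Fin (e + 1)) ℂ)) p :=
      (Polynomial.aeval_algHom_apply _ _ _).symm
    rw [h1, aeval_X, hzs, Function.update_self]
  have hroot : ∀ (n : ℕ) (p : Polynomial ℂ), p.natDegree = n → p ≠ 0 →
      0 < v (Polynomial.aeval x p) → ∃ γ : ℂ, 0 < v (x - algebraMap ℂ L γ) := by
    intro n
    induction n with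
    | zero =>
      intro p hpn hp hv
      exfalso
      rw [Polynomial.eq_C_of_natDegree_eq_zero hpn, Polynomial.aeval_C, hc] at hv
      · exact lt_irrefl _ hv
      · intro h
        apply hp
        rw [Polynomial.eq_C_of_natDegree_eq_zero hpn, h, map_zero]
    | succ n ih =>
      intro p hpn hp hv
      obtain ⟨γ, hγ⟩ := IsAlgClosed.exists_root p (by
        intro h
        have := Polynomial.natDegree_eq_zero_iff_degree_le_zero.2 h.le
        omega)
      obtain ⟨r, hr⟩ := Polynomial.dvd_iff_isRoot.2 hγ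
      have hr0 : r ≠ 0 := by rintro rfl; rw [mul_zero] at hr; exact hp hr
      have hrn : r.natDegree = n := by
        have h1 := congrArg Polynomial.natDegree hr
        rw [Polynomial.natDegree_mul (Polynomial.X_sub_C_ne_zero γ) hr0,
          Polynomial.natDegree_X_sub_C] at h1
        omega
      by_cases hlt : 0 < v (Polynomial.aeval x r)
      · exact ih r hrn hr0 hlt
      · refine ⟨γ, ?_⟩
        have h1 : Polynomial.aeval x p = (x - algebraMap ℂ L γ) * Polynomial.aeval x r := by
          rw [hr, map_mul]; simp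
        rw [h1, AddValuation.map_mul] at hv
        by_contra hle
        exact absurd hv (not_lt.2 (add_nonpos (not_lt.1 hle) (not_lt.1 hlt)))
  exact hroot _ p rfl hp0 (by rw [← hpx]; exact hPv)

end Params

end Vale.Agent.P283.H108
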