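import Vale.Agent.P283.H108.Bound

/-!
Points of the centre at which a given polynomial does not vanish.
-/

set_option linter.all false

namespace Vale.Agent.P283.H108

open MvPolynomial Finset
open Vale.Agent.P283.Z647
open Vale.Agent.P283.H647 (ResForm order_log ov_lt_of)

theorem wtZ_snoc {N : ℕ} (b : Fin N → ℤ) (ν : ℤ) (β : Fin N →₀ ℕ) :
    wtZ (Fin.snoc (α := fun _ => ℤ) b ν) (Finsupp.mapDomain Fin.castSucc β) = wtZ b β := by
  unfold wtZ
  rw [Fin.sum_univ_castSucc]
  have h1 : (Finsupp.mapDomain Fin.castSucc β) (Fin.last N) = 0 := by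
    apply Finsupp.mapDomain_notin_range
    rintro ⟨k, hk⟩
    exact absurd hk (Fin.castSucc_lt_last k).ne
  rw [h1, Nat.cast_zero, mul_zero, add_zero]
  refine Finset.sum_congr rfl fun k _ => ?_
  rw [Finsupp.mapDomain_apply (Fin.castSucc_injective N), Fin.snoc_castSucc]

theorem homog_rename {N : ℕ} {b : Fin N → ℤ} {ν μ : ℤ} {P : MvPolynomial (Fin N) ℂ}
    (h : HomogZ b P μ) :
    HomogZ (Fin.snoc (α := fun _ => ℤ) b ν) (rename Fin.castSucc P) μ := by
  intro α hα
  obtain ⟨β, rfl, hβ⟩ := coeff_rename_ne_zero Fin.castSucc P α (mem_support_iff.1 hα)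
  rw [wtZ_snoc]
  exact h β (mem_support_iff.2 hβ)

/-- A point of the torus at which all weighted homogeneous polynomials of too large value
vanish, and at which `Q` does not vanish. -/
theorem exists_pointQ {N : ℕ} {L : Type} [Field L] [Algebra ℂ L]
    (w : AddValuation L (WithTop ℤ)) (hc : ∀ c : ℂ, c ≠ 0 → w (algebraMap ℂ L c) = 0)
    (x : Fin N → L) (b : Fin N → ℤ) (hb : ∀ j, w (x j) = (b j : WithTop ℤ)) (hn : ∃ t, w t = 1)
    {Q : MvPolynomial (Fin N) ℂ} {ν : ℤ} (hQ : HomogZ b Q ν)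
    (hQw : w (aeval x Q) = (ν : WithTop ℤ)) :
    ∃ ξ : Fin N → ℂ, (∀ i, ξ i ≠ 0) ∧ eval ξ Q ≠ 0 ∧ ∀ (P : MvPolynomial (Fin N) ℂ) (μ : ℤ),
      HomogZ b P μ → eval ξ P ≠ 0 → w (aeval x P) = (μ : WithTop ℤ) := by
  classical
  obtain ⟨ξ, hξ0, hξ⟩ := exists_point w hc (Fin.snoc (α := fun _ => L) x (aeval x Q))
    (Fin.snoc (α := fun _ => ℤ) b ν) (by
      intro j
      refine Fin.lastCases ?_ (fun j => ?_) j
      · rw [Fin.snoc_last, Fin.snoc_last]; exact hQw
      · rw [Fin.snoc_castSucc, Fin.snoc_castSucc]; exact hb j) hn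
  have hae : ∀ P : MvPolynomial (Fin N) ℂ,
      aeval (Fin.snoc (α := fun _ => L) x (aeval x Q)) (rename Fin.castSucc P) = aeval x P := by
    intro P
    rw [aeval_rename]
    congr 1
    congr 1
    funext k
    rw [Function.comp_apply, Fin.snoc_castSucc]
  have hev : ∀ P : MvPolynomial (Fin N) ℂ,
      eval ξ (rename Fin.castSucc P) = eval (fun k => ξ (Fin.castSucc k)) P := by
    intro P
    rw [eval_rename]
    rfl
  refine ⟨fun k => ξ (Fin.castSucc k), fun k => hξ0 _, ?_, ?_⟩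
  · intro h0
    have h1 : HomogZ (Fin.snoc (α := fun _ => ℤ) b ν)
        (X (Fin.last N) - rename Fin.castSucc Q : MvPolynomial (Fin (N + 1)) ℂ) ν := by
      refine homog_sub ?_ (homog_rename hQ)
      intro α hα
      rw [support_X, Finset.mem_singleton] at hα
      subst hα
      rw [wtZ_single, Fin.snoc_last]
    have h2 := hξ _ _ h1 (by
      rw [map_sub, eval_X, hev, h0, sub_zero]
      exact hξ0 _)
    rw [map_sub, aeval_X, hae, Fin.snoc_last, sub_self, AddValuation.map_zero] at h2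
    exact WithTop.top_ne_coe h2
  · intro P μ hP hne
    have h2 := hξ _ _ (homog_rename (ν := ν) hP) (by rw [hev]; exact hne)
    rwa [hae] at h2

end Vale.Agent.P283.H108
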