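import Vale.Agent.P283.H108.TorusFac

/-!
Existence of a divisorial valuation along a multiple component.
-/

set_option linter.all false

namespace Vale.Agent.P283.H108

open MvPolynomial Finset
open Vale.Agent.P283.H647 (HypData red red_X0 red_X sub_red_dvd coeff_red coeff_pderiv' red_pderiv
  not_dvd_pderiv dvr_val coeff_logd)

variable {e : ℕ} {K : Type} [Field K] [Algebra ℂ K] {y : Fin (e + 2) → K}
  {F h g₀ : MvPolynomial (Fin (e + 2)) ℂ}

theorem TorusFac.exists_partial (H : TorusFac y F h g₀) :
    ∃ i : Fin (e + 2), i ≠ 0 ∧ pderiv i h ≠ 0 := by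
  obtain ⟨α, hα, hα0⟩ : ∃ α ∈ h.support, α ≠ 0 := by
    by_contra hno
    push Not at hno
    have h1 : h = C (h.coeff 0) := by
      ext β
      rw [coeff_C]
      split_ifs with hβ
      · rw [hβ]
      · by_contra hne
        exact hβ (hno β (mem_support_iff.2 hne)).symm
    have h2 : h.coeff 0 ≠ 0 := by
      intro h0
      rw [h0, map_zero] at h1
      exact H.irr.ne_zero h1
    apply H.irr.not_isUnit
    rw [h1]
    exact (isUnit_iff_ne_zero.2 h2).map C
  have h0 : α 0 = 0 := by
    by_contra hne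
    have h1 := coeff_red h α
    rw [H.redh, if_neg hne] at h1
    exact mem_support_iff.1 hα h1
  obtain ⟨i, hi⟩ : ∃ i, α i ≠ 0 := by
    by_contra hno
    push Not at hno
    exact hα0 (Finsupp.ext hno)
  refine ⟨i, fun h => hi (by rw [h]; exact h0), ?_⟩
  intro hz
  have h1 := coeff_logd h i α
  rw [hz, mul_zero, coeff_zero] at h1
  exact mul_ne_zero (Nat.cast_ne_zero.2 hi) (mem_support_iff.1 hα) h1.symm

theorem TorusFac.hyp (H : TorusFac y F h g₀) : HypData y F where
  gen := H.gen
  ker := fun P => ⟨H.ker P, fun ⟨G, hG⟩ => by rw [hG, map_mul, H.eqn, zero_mul]⟩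
  f0 := by
    rintro rfl
    exact H.f0 (map_zero _)
  x0 := H.y0

theorem TorusFac.partial_ne (H : TorusFac y F h g₀) {i : Fin (e + 2)} (hi : i ≠ 0)
    (hi' : pderiv i h ≠ 0) : aeval y (pderiv i F) ≠ 0 := by
  have hg0 : g₀ ≠ 0 := by
    rintro rfl
    exact H.f0 (by rw [H.fac, mul_zero])
  have h1 : pderiv i F ≠ 0 := by
    intro h0
    have h2 := red_pderiv hi F
    rw [h0, map_zero, H.fac] at h2
    refine pderiv_ne ?_ h2.symm
    rw [degreeOf_mul_eq H.irr.ne_zero hg0]
    have := degreeOf_pos hi'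
    omega
  intro h0
  exact not_dvd_pderiv h1 (H.ker _ h0)

/-- The divisorial valuation along a multiple component. -/
theorem TorusFac.exists_val (H : TorusFac y F h g₀) (hd : h ∣ g₀) :
    ∃ (w : AddValuation K (WithTop ℤ)) (i : Fin (e + 2)) (n : ℕ), i ≠ 0 ∧ 0 < n ∧
      Q.IsDivisorial (e + 1) w ∧ w (y 0) = ((n : ℤ) : WithTop ℤ) ∧
      (∀ k, k ≠ 0 → w (y k) = 0) ∧ 0 < w (aeval y h) ∧ aeval y (pderiv i F) ≠ 0 ∧
      (∀ P : MvPolynomial (Fin e) ℂ, P ≠ 0 →
        w (aeval (fun k => y (i.succAbove k.succ)) P) = 0) ∧ pderiv i h ≠ 0 := by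
  classical
  obtain ⟨i, hi, hi'⟩ := H.exists_partial
  have hi0 : i.succAbove 0 = 0 := Fin.succAbove_ne_zero_zero hi
  have HY := H.hyp
  let S := MvPolynomial (Fin (e + 1)) ℂ
  let z : Fin (e + 1) → K := fun k => y (i.succAbove k)
  have hb : IsTranscendenceBasis ℂ z := HY.basis (H.partial_ne hi hi')
  letI : Algebra S K := algP z
  haveI : IsScalarTower ℂ S K := isScalarTower_algP z
  haveI : FaithfulSMul S K := faithful_algP z hb.1
  let K' := FractionRing S
  letI : Algebra K' K := FractionRing.liftAlgebra _ K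
  haveI : IsScalarTower S K' K := FractionRing.isScalarTower_liftAlgebra _ K
  haveI : Algebra.IsAlgebraic S K := isAlgebraic_algP z hb
  haveI hKalg : Algebra.IsAlgebraic K' K :=
    (IsFractionRing.comap_isAlgebraic_iff (A := S)).1 inferInstance
  haveI : CharZero K' := charZero_of_injective_algebraMap (algebraMap ℂ K').injective
  have hSK : ∀ s : S, algebraMap K' K (algebraMap S K' s) = aeval z s := fun s =>
    (IsScalarTower.algebraMap_apply S K' K s).symm
  haveI : IsScalarTower ℂ K' K := IsScalarTower.of_algebraMap_eq fun c => by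
    rw [IsScalarTower.algebraMap_apply ℂ S K' c, hSK, MvPolynomial.algebraMap_eq, aeval_C]
  haveI : FiniteDimensional K' K := HY.finDim hKalg
  -- the valuation of the rational function field
  have hX0 : (X 0 : S) ≠ 0 := X_ne_zero 0
  have hXp : Prime (X 0 : S) := MvPolynomial.X_prime
  haveI hpr : (Ideal.span {(X 0 : S)}).IsPrime := (Ideal.span_singleton_prime hX0).2 hXp
  obtain ⟨v, hv1, hv2, hv3⟩ := dvr_val (K := K') (S := S) (Ideal.span {(X 0 : S)}) (X 0)
    (Ideal.subset_span rfl) hX0 (by
      intro p hp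
      obtain ⟨s, hs⟩ := Ideal.mem_span_singleton.1 hp
      exact ⟨1, (Ideal.ne_top_iff_one _).1 hpr.ne_top, s, by rw [one_mul, hs]⟩)
  have hv3' : ∀ s : S, 0 < v (algebraMap S K' s) ↔ X 0 ∣ s := fun s => by
    rw [hv3, Ideal.mem_span_singleton]
  have hv0 : ∀ s : S, ¬ X 0 ∣ s → v (algebraMap S K' s) = 0 := fun s hs =>
    le_antisymm (not_lt.1 fun h1 => hs ((hv3' s).1 h1)) (hv2 s)
  have hinj : Function.Injective (algebraMap S K') := IsFractionRing.injective S K'
  -- representation by fractions
  have hfr : ∀ a : K', 0 ≤ v a → ∃ b s : S, ¬ X 0 ∣ s ∧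
      algebraMap S K' s * a = algebraMap S K' b := by
    intro a ha
    set s : S := (IsFractionRing.den S a : S) with hs
    set b : S := IsFractionRing.num S a with hbdef
    have hs0 : s ≠ 0 := nonZeroDivisors.ne_zero (IsFractionRing.den S a).2
    have hs0' : algebraMap S K' s ≠ 0 := fun h0 => hs0 (hinj (by rw [h0, map_zero]))
    have hab : algebraMap S K' b / algebraMap S K' s = a := IsFractionRing.mk'_num_den' S a
    have hsa : algebraMap S K' s * a = algebraMap S K' b := by
      rw [← hab, mul_div_assoc', mul_comm, mul_div_assoc, div_self hs0', mul_one]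
    refine ⟨b, s, ?_, hsa⟩
    intro hdvd
    have hnb : ¬ X 0 ∣ b := fun h1 => hXp.not_unit (IsFractionRing.num_den_reduced S a h1 hdvd)
    have h1 := hv0 b hnb
    rw [← hsa, AddValuation.map_mul] at h1
    have h2 := (hv3' s).2 hdvd
    have h3 : 0 < v (algebraMap S K' s) + v a := lt_of_lt_of_le h2 (le_add_of_nonneg_right ha)
    rw [h1] at h3
    exact lt_irrefl _ h3
  have hredh : ∀ P : S, P ≠ 0 → ¬ h ∣ rename i.succAbove P := fun P hP =>
    not_dvd_rename hi' H.irr.ne_zero hP
  have hyh : aeval y h ≠ 0 := by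
    intro h0
    obtain ⟨G, hG⟩ := H.ker _ h0
    have h1 : h = h * g₀ * red e G := by
      have h2 := congrArg (red e) hG
      rw [map_mul, H.redh, H.fac] at h2
      exact h2
    have h2 : h * (g₀ * red e G - 1) = 0 := by
      linear_combination (-1 : MvPolynomial (Fin (e + 2)) ℂ) * h1
    have h3 : g₀ * red e G = 1 :=
      sub_eq_zero.1 ((mul_eq_zero.1 h2).resolve_left H.irr.ne_zero)
    exact H.irr.not_isUnit (isUnit_of_dvd_one (h3 ▸ dvd_mul_of_dvd_left hd _))
  -- the pole
  have hpole : ∀ p : Polynomial K', p.Monic → (∀ j, 0 ≤ v (p.coeff j)) →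
      Polynomial.aeval (aeval y h)⁻¹ p ≠ 0 := by
    intro p hp hpv hp0
    choose b s hs hbs using fun j => hfr (p.coeff j) (hpv j)
    set N := p.natDegree with hN
    let T : Finset ℕ := Finset.range (N + 1)
    let Dn : S := ∏ j ∈ T, s j
    let B : ℕ → S := fun j => (∏ l ∈ T.erase j, s l) * b j
    have hDn : ¬ X 0 ∣ Dn := by
      intro h1
      obtain ⟨j, -, hj⟩ := hXp.exists_mem_finset_dvd h1
      exact hs j hj
    have hB : ∀ j ∈ T, algebraMap S K' Dn * p.coeff j = algebraMap S K' (B j) := by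
      intro j hj
      have h1 : Dn = s j * ∏ l ∈ T.erase j, s l := (Finset.mul_prod_erase _ _ hj).symm
      rw [h1, map_mul]
      simp only [B]
      rw [map_mul, ← hbs j]
      ring
    have hBN : B N = Dn := by
      apply hinj
      have h1 : N ∈ T := Finset.self_mem_range_succ N
      rw [← hB N h1]
      have h2 : p.coeff N = 1 := hp
      rw [h2, mul_one]
    let P : MvPolynomial (Fin (e + 2)) ℂ := ∑ j ∈ T, rename i.succAbove (B j) * h ^ (N - j)
    have hren : ∀ s : S, aeval y (rename i.succAbove s) = aeval z s := fun s => by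
      rw [aeval_rename]; rfl
    have hP0 : aeval y P = 0 := by
      have h1 : aeval y P = algebraMap K' K (algebraMap S K' Dn) * (aeval y h) ^ N *
          Polynomial.aeval (aeval y h)⁻¹ p := by
        rw [Polynomial.aeval_eq_sum_range, Finset.mul_sum]
        simp only [P]
        rw [map_sum]
        refine Finset.sum_congr rfl fun j hj => ?_
        have hjN : j ≤ N := Nat.lt_succ_iff.1 (Finset.mem_range.1 hj)
        rw [map_mul, map_pow, hren, ← hSK, ← hB j hj, map_mul, Algebra.smul_def, inv_pow]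
        have h2 : (aeval y h) ^ N = (aeval y h) ^ (N - j) * (aeval y h) ^ j := by
          rw [← pow_add, Nat.sub_add_cancel hjN]
        rw [h2]
        field_simp
      rw [h1, hp0, mul_zero]
    obtain ⟨G, hG⟩ := H.ker _ hP0
    have h1 : h ∣ red e P := by
      rw [hG, map_mul, H.fac]
      exact dvd_mul_of_dvd_left (dvd_mul_right _ _) _
    have h2 : red e P = ∑ j ∈ T, red e (rename i.succAbove (B j)) * h ^ (N - j) := by
      simp only [P]
      rw [map_sum]
      exact Finset.sum_congr rfl fun j _ => by rw [map_mul, map_pow, H.redh]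
    have h3 : h ∣ red e (rename i.succAbove (B N)) := by
      have h4 : N ∈ T := Finset.self_mem_range_succ N
      rw [← Finset.add_sum_erase _ _ h4, Nat.sub_self, pow_zero, mul_one] at h2
      have h5 : red e (rename i.succAbove (B N)) =
          red e P - ∑ j ∈ T.erase N, red e (rename i.succAbove (B j)) * h ^ (N - j) := by
        rw [h2]; ring
      rw [h5]
      refine dvd_sub h1 (Finset.dvd_sum fun j hj => ?_)
      rw [Finset.mem_erase] at hj
      have hjN : j ≤ N := Nat.lt_succ_iff.1 (Finset.mem_range.1 hj.2)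
      exact dvd_mul_of_dvd_right (dvd_pow_self h (by omega)) _
    rw [red_rename hi, hBN] at h3
    exact hredh _ (redS_ne hDn) h3
  obtain ⟨w, n, hn, hw1, hwv, hwh⟩ := exists_extension_pole v ⟨_, hv1⟩ (aeval y h)⁻¹ hpole
  have hwS : ∀ s : S, ¬ X 0 ∣ s → w (aeval z s) = 0 := by
    intro s hs
    rw [← hSK, hwv, hv0 s hs, nsmul_zero]
  have hhpos : 0 < w (aeval y h) := by
    rw [pos_iff w hyh]
    rw [← coe_ov w (inv_ne_zero hyh), ov_inv] at hwh
    have h1 : -ov w (aeval y h) < 0 := by exact_mod_cast hwh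
    omega
  have hw0 : w (y 0) = ((n : ℤ) : WithTop ℤ) := by
    have h1 : y 0 = aeval z (X 0 : S) := by
      rw [aeval_X]
      simp only [z]
      rw [hi0]
    rw [h1, ← hSK, hwv, hv1]
    simp
  have hnd : ∀ s : S, redS e s = s → s ≠ 0 → ¬ X 0 ∣ s := by
    rintro s hs hs0 ⟨G, hG⟩
    apply hs0
    have h4 : redS e (X 0) = 0 := by simp [redS]
    rw [← hs, hG, map_mul, h4, zero_mul]
  have hwk : ∀ k : Fin (e + 1), k ≠ 0 → w (z k) = 0 := by
    intro k hk
    have h1 := hwS (X k) (hnd _ (by simp [redS, hk]) (X_ne_zero k))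
    rwa [aeval_X] at h1
  have hres : ∀ P : MvPolynomial (Fin e) ℂ, P ≠ 0 →
      w (aeval (fun k => y (i.succAbove k.succ)) P) = 0 := by
    intro P hP
    have h1 : aeval (fun k => y (i.succAbove k.succ)) P = aeval z (rename Fin.succ P : S) := by
      rw [aeval_rename]; rfl
    rw [h1]
    apply hwS
    apply hnd
    · have h2 : (redS e).comp (rename Fin.succ) = (rename Fin.succ : MvPolynomial (Fin e) ℂ →ₐ[ℂ] S)
          := by
        apply MvPolynomial.algHom_ext
        intro k
        rw [AlgHom.comp_apply, rename_X]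
        simp [redS]
      exact DFunLike.congr_fun h2 P
    · intro h0
      exact hP (rename_injective Fin.succ (Fin.succ_injective _) (by rw [h0, map_zero]))
  -- the remaining coordinate
  have hwi : w (y i) = 0 := by
    by_contra hne
    have h1 := eval_toU i y h
    have hψ : Function.Injective ((aeval z : S →ₐ[ℂ] K) : S →+* K) := hb.1
    have h2 := eval_nonpos w (p := (toU i h).map ((aeval z : S →ₐ[ℂ] K) : S →+* K)) (fun j => by
      rw [Polynomial.coeff_map]
      by_cases hc : (toU i h).coeff j = 0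
      · left; rw [hc, map_zero]
      · right
        apply hwS
        intro hdvd
        apply hc
        have h3 := toU_red hi h
        rw [H.redh] at h3
        have h4 : (toU i h).coeff j = redS e ((toU i h).coeff j) := by
          conv_lhs => rw [h3, Polynomial.coeff_map]
          rfl
        obtain ⟨G, hG⟩ := hdvd
        have h5 : redS e (X 0) = 0 := by simp [redS]
        rw [h4, hG, map_mul, h5, zero_mul]) (by
      rw [Polynomial.coeff_map]
      intro h0
      have h3 : (toU i h).coeff 0 = 0 := hψ (by rw [h0, map_zero])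
      obtain ⟨q, hq⟩ := Polynomial.X_dvd_iff.2 h3
      have h4 : h = X i * ofU i q := by
        rw [← ofU_toU i h, hq, map_mul]
        congr 1
        simp [ofU]
      rcases H.irr.isUnit_or_isUnit h4 with h5 | h5
      · exact (MvPolynomial.X_prime (i := i)).not_unit h5
      · apply H.nomon (Finsupp.single i 1)
        obtain ⟨u, hu⟩ := h5
        refine ⟨((u⁻¹ : (MvPolynomial (Fin (e + 2)) ℂ)ˣ) : MvPolynomial (Fin (e + 2)) ℂ), ?_⟩
        rw [h4, ← hu, mul_assoc, Units.mul_inv, mul_one]
        rfl) (H.y0 i) hne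
    rw [h1] at h2
    exact absurd hhpos (not_lt.2 h2)
  refine ⟨w, i, n, hi, hn, ⟨?_, hw1, ⟨fun k => y (i.succAbove k.succ), ?_⟩⟩, hw0, ?_, hhpos,
    H.partial_ne hi hi', ?_, hi'⟩
  · intro c hc
    have h1 : algebraMap ℂ K c = aeval z (C c : S) := by rw [aeval_C]
    rw [h1]
    exact hwS _ (hnd _ (by simp [redS]) (by rw [Ne, C_eq_zero]; exact hc))
  · exact hres
  · intro k hk
    by_cases hki : k = i
    · rw [hki]; exact hwi
    · obtain ⟨j, rfl⟩ := Fin.exists_succAbove_eq hki
      refine hwk j ?_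
      rintro rfl
      exact hk hi0
  · exact hres

end Vale.Agent.P283.H108
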