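import Vale.Agent.P283.Z647.THZ
import Vale.Agent.P283.H108.OrderN
import Vale.Agent.P283.H108.TorusVal

/-!
The log discrepancy of divisorial valuations attached to weights.
-/

set_option linter.all false

namespace Vale.Agent.P283.H108

open MvPolynomial Finset
open Vale.Agent.P283.Z647
open Vale.Agent.P283.H647 hiding Adapted exists_adapted

variable {e : ℕ} {K L : Type} [Field K] [Field L] [Algebra ℂ K] [Algebra ℂ L] [Algebra K L]
  [IsScalarTower ℂ K L]
variable {x : Fin (e + 2) → L} {f : MvPolynomial (Fin (e + 2)) ℂ} {G : Subgroup (L ≃ₐ[ℂ] L)}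

/-- The log discrepancy of a divisorial valuation over a component of the initial form. -/
theorem psi_gen (H : DiagData K x f G) (A : Fin (e + 2) → ℤ) (r : ℕ) {c : ℕ}
    {b : Module.Basis (Fin (e + 2)) ℤ (AddSubgroup.toIntSubmodule H.lat)}
    (hb : AdaptedZ H A r c b) {m : ℤ} (hm : IsMinZ f A m) {α : Fin (e + 2) →₀ ℕ}
    (hα : α ∈ f.support) (hαm : wtZ A α = m) {y : Fin (e + 2) → K}
    (hy : ∀ k, algebraMap K L (y k) = monoT x (vecs b k)) (hy0 : ∀ k, y k ≠ 0)
    {v : AddValuation K (WithTop ℤ)} {i : Fin (e + 2)} (hi : i ≠ 0) {ν : ℕ} (hν : 0 < ν)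
    (hv : Q.IsDivisorial (e + 1) v) (hv0 : v (y 0) = ((ν : ℤ) : WithTop ℤ))
    (hvk : ∀ k, k ≠ 0 → v (y k) = 0)
    (hres : ∀ P : MvPolynomial (Fin e) ℂ, P ≠ 0 →
      v (aeval (fun k => y (i.succAbove k.succ)) P) = 0) :
    ∃ (e₀ : ℕ) (w : AddValuation L (WithTop ℤ)),
      0 < e₀ ∧ Q.IsDivisorial (e + 1) w ∧
      (∀ g : K, w (algebraMap K L g) = e₀ • v g) ∧
      (∀ j, (r * c : ℤ) * ov w (x j) = e₀ * (ν * A j)) ∧
      ∀ (D' : Fin (e + 1) → Derivation ℂ L L) (h : L), ResForm x f D' h →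
        ∀ m', Q.FormOrder w D' m' → (r * c : ℤ) * (1 + m' - ov w h) =
          e₀ * (ν * (∑ j, A j - m)) -
            (r * c : ℤ) * (e₀ * ov v (aeval y (pderiv i (H.eqY b α)))) := by
  classical
  have HY : HypData x f := H.hyp
  have halg : Algebra.IsAlgebraic K L := isAlgebraic_of_fix H.fin H.fix
  haveI := halg
  haveI : CharZero K := charZero_of_injective_algebraMap (algebraMap ℂ K).injective
  haveI : FiniteDimensional K L := HY.finDim halg
  haveI hessL := HY.ess
  haveI hessK := HY.essK halg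
  obtain ⟨w, e₀, he₀, hw1, hvw⟩ := exists_extension (L := L) v hv.normalized
  have hw : Q.IsDivisorial (e + 1) w :=
    divisorial_iff.2 (isDivisorial_of_ext (divisorial_iff.1 hv) hw1 hvw)
  have he₀' : (e₀ : ℤ) ≠ 0 := by exact_mod_cast he₀.ne'
  set yL : Fin (e + 2) → L := fun k => monoT x (vecs b k) with hyL
  have hyL0 : ∀ k, yL k ≠ 0 := fun k => monoT_ne_zero H.x0 _
  have hoy0 : ov w (yL 0) = e₀ * ν := by
    simp only [hyL]
    rw [← hy 0, ov_algebraMap hvw (hy0 0), ov_eq_of v hv0]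
  have hoyk : ∀ k, k ≠ 0 → ov w (yL k) = 0 := by
    intro k hk
    simp only [hyL]
    rw [← hy k, ov_algebraMap hvw (hy0 k), ov_eq_of v (n := 0) (by simpa using hvk k hk), mul_zero]
  have hX : ∀ k, ∑ j, vecs b k j * ov w (x j) = ov w (yL k) := fun k => (ov_monoT w H.x0 _).symm
  have hlin : ∀ n : Fin (e + 2) → ℤ, ∑ j, (∑ k, n k * vecs b k j) * ov w (x j) = n 0 * (e₀ * ν) := by
    intro n
    have h1 : ∑ j, (∑ k, n k * vecs b k j) * ov w (x j) =
        ∑ k, n k * ∑ j, vecs b k j * ov w (x j) := by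
      simp only [Finset.mul_sum, Finset.sum_mul]
      rw [Finset.sum_comm]
      exact Finset.sum_congr rfl fun k _ => Finset.sum_congr rfl fun j _ => by ring
    rw [h1, Fin.sum_univ_succ, hX, hoy0, Finset.sum_eq_zero, add_zero]
    intro k _
    rw [hX, hoyk _ (Fin.succ_ne_zero k), mul_zero]
  haveI := H.fin
  have hxj : ∀ j, (r * c : ℤ) * ov w (x j) = e₀ * (ν * A j) := by
    intro j
    have hmem := H.card_mem (Pi.single j 1)
    have h1 : ∀ j', ((Nat.card G : ℤ) • (Pi.single j 1 : Fin (e + 2) → ℤ)) j' =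
        ∑ k, rep b ((Nat.card G : ℤ) • Pi.single j 1) k * vecs b k j' := rep_spec b hmem
    have h2 := hlin (rep b ((Nat.card G : ℤ) • Pi.single j 1))
    have h3 := hb.weight (rep b ((Nat.card G : ℤ) • Pi.single j 1))
    simp only [← h1] at h2 h3
    simp only [Pi.smul_apply, smul_eq_mul, Pi.single_apply, mul_ite, mul_one, mul_zero, ite_mul,
      zero_mul, Finset.sum_ite_eq', Finset.mem_univ, if_true] at h2 h3
    have h4 : (Nat.card G : ℤ) ≠ 0 := by exact_mod_cast Nat.card_pos.ne'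
    apply mul_left_cancel₀ h4
    have h5 : (Nat.card G : ℤ) * (r * c * ov w (x j)) = r * c * (Nat.card G * ov w (x j)) := by ring
    rw [h5, h2]
    linear_combination (-(e₀ * ν : ℤ)) * h3
  -- the order of the residue form
  obtain ⟨β', hβ'⟩ := gen_trbasis (HY.trdegK halg)
  obtain ⟨BK, hBK⟩ := exists_kaehler_basis _ hβ'
  let D₀ : Fin (e + 1) → Derivation ℂ K K := fun i => pd BK i
  have hD₀ : Q.jac D₀ β' ≠ 0 := by
    have h1 : (Matrix.of fun i j => D₀ j (β' i)) = (1 : Matrix (Fin (e + 1)) (Fin (e + 1)) K) := by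
      ext i j
      rw [Matrix.of_apply, Matrix.one_apply]
      exact pd_self BK hBK i j
    unfold Q.jac
    rw [h1, Matrix.det_one]
    exact one_ne_zero
  obtain ⟨D₁, hD₁⟩ := exists_ext (L := L) HY.trdeg D₀
  have hD₁' : ∃ g, Q.jac D₁ g ≠ 0 := ⟨_, by rw [jac_map hD₁]; exact (map_ne_zero _).2 hD₀⟩
  obtain ⟨h₀, R₀⟩ := HY.exists_resForm hD₁'
  obtain ⟨mv, hmv⟩ := order_exists (Nat.succ_pos e) (HY.trdegK halg) D₀ ⟨_, hD₀⟩ hv
  obtain ⟨mw, hmw⟩ := order_exists (Nat.succ_pos e) HY.trdeg D₁ hD₁' hw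
  have htrans := order_transfer (Nat.succ_pos e) (HY.trdegK halg) HY.trdeg ⟨_, hD₀⟩ hD₁ hv hw1 he₀
    hvw hmv hmw
  obtain ⟨hj0, hmv'⟩ := order_params_gen (HY.trdegK halg) ⟨_, hD₀⟩ hmv hv.normalized (y 0)
    (fun k => y (i.succAbove k.succ)) hν hv0 hres
  have hcons : (Fin.cons (y 0) (fun k => y (i.succAbove k.succ)) : Fin (e + 1) → K) =
      fun l => y (i.succAbove l) := by
    funext l
    refine Fin.cases ?_ (fun k => ?_) l
    · rw [Fin.cons_zero, Fin.succAbove_ne_zero_zero hi]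
    · rw [Fin.cons_succ]
  rw [hcons] at hj0 hmv'
  let U : Fin (e + 1) → Fin (e + 2) → L := fun l j => (vecs b (i.succAbove l) j : L)
  have hform := R₀.formula (fun l => yL (i.succAbove l)) U (fun l k => by
    simp only [hyL, U]
    exact dlog_monoT (D₁ k) H.x0 _)
  have hjacL : Q.jac D₁ (fun l => yL (i.succAbove l)) =
      algebraMap K L (Q.jac D₀ (fun l => y (i.succAbove l))) := by
    rw [← jac_map hD₁]
    congr 1
    funext l
    exact (hy _).symm
  -- the determinant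
  let τ := H.tauY b α
  let η : Fin (e + 2) → L := fun k => yL k * aeval yL (pderiv k (H.eqY b α))
  let A₁ : Matrix (Fin (e + 2)) (Fin (e + 2)) L :=
    Matrix.of (Fin.cons (fun j => (vecs b i j : L)) U : Fin (e + 2) → Fin (e + 2) → L)
  let cc : Fin (e + 2) → L := Fin.cons (monoT x τ * η i) (fun l => monoT x τ * η (i.succAbove l))
  have hdet : (Matrix.of (Fin.cons (fun j => x j * aeval x (pderiv j f)) U :
      Fin (e + 2) → Fin (e + 2) → L)).det = (monoT x τ * η i) * A₁.det := by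
    have h1 : (Matrix.of (Fin.cons (fun j => x j * aeval x (pderiv j f)) U :
        Fin (e + 2) → Fin (e + 2) → L)) = A₁.updateRow 0 (∑ k, cc k • A₁ k) := by
      ext l j
      rw [Matrix.updateRow_apply]
      refine Fin.cases ?_ (fun l => ?_) l
      · have hR : (∑ k, cc k • A₁ k) j = monoT x τ * η i * (vecs b i j : L) +
            ∑ l, monoT x τ * η (i.succAbove l) * (vecs b (i.succAbove l) j : L) := by
          rw [Finset.sum_apply, Fin.sum_univ_succ]
          simp only [cc, A₁, U, Pi.smul_apply, Matrix.of_apply, smul_eq_mul, Fin.cons_zero,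
            Fin.cons_succ]
        rw [if_pos rfl, Matrix.of_apply, Fin.cons_zero, H.theta b hα j, hR,
          Fin.sum_univ_succAbove _ i]
        rw [mul_add, Finset.mul_sum]
        congr 1
        · simp only [η, hyL, τ]; ring
        · refine Finset.sum_congr rfl fun l _ => ?_
          simp only [η, hyL, τ]; ring
      · rw [if_neg (Fin.succ_ne_zero l), Matrix.of_apply, Fin.cons_succ]
        simp only [A₁, Matrix.of_apply, Fin.cons_succ]
    rw [h1, Matrix.det_updateRow_sum, smul_eq_mul]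
    simp only [cc, Fin.cons_zero]
  rw [hdet, hjacL] at hform
  have hxprod : (∏ j, x j) ≠ 0 := Finset.prod_ne_zero_iff.2 fun j _ => H.x0 j
  have hyprod : (∏ l, yL (i.succAbove l)) ≠ 0 := Finset.prod_ne_zero_iff.2 fun j _ => hyL0 _
  have hjL0 : algebraMap K L (Q.jac D₀ (fun l => y (i.succAbove l))) ≠ 0 :=
    (map_ne_zero _).2 hj0
  have hlhs : h₀ * (∏ j, x j) * algebraMap K L (Q.jac D₀ (fun l => y (i.succAbove l))) ≠ 0 :=
    mul_ne_zero (mul_ne_zero R₀.h0 hxprod) hjL0
  have hrhs : (monoT x τ * η i) * A₁.det ≠ 0 := by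
    intro h0
    rw [h0, mul_zero] at hform
    exact hlhs hform
  have hη : η i ≠ 0 := right_ne_zero_of_mul (left_ne_zero_of_mul hrhs)
  have hA₁ : A₁.det ≠ 0 := right_ne_zero_of_mul hrhs
  have hmτ : monoT x τ ≠ 0 := monoT_ne_zero H.x0 _
  have hA₁v : ov w A₁.det = 0 := by
    let Z : Matrix (Fin (e + 2)) (Fin (e + 2)) ℤ :=
      Matrix.of (Fin.cons (vecs b i) (fun l => vecs b (i.succAbove l)))
    have h1 : A₁ = Z.map (Int.cast : ℤ → L) := by
      ext l j
      rw [Matrix.map_apply]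
      refine Fin.cases ?_ (fun l => ?_) l
      · simp only [A₁, Z, Matrix.of_apply, Fin.cons_zero]
      · simp only [A₁, Z, U, Matrix.of_apply, Fin.cons_succ]
    have h2 : A₁.det = algebraMap ℂ L (Z.det : ℂ) := by
      rw [h1]
      have h3 := (Int.castRingHom L).map_det Z
      have h4 : (Int.castRingHom L).mapMatrix Z = Z.map (Int.cast : ℤ → L) := rfl
      rw [h4] at h3
      rw [← h3]; simp
    have h3 : (Z.det : ℂ) ≠ 0 := by
      intro h0
      rw [h0, map_zero] at h2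
      exact hA₁ h2
    apply ov_eq_of
    rw [h2, hw.const _ h3]; rfl
  have hηv : ov w (η i) = e₀ * ov v (aeval y (pderiv i (H.eqY b α))) := by
    have h1 : aeval yL (pderiv i (H.eqY b α)) = algebraMap K L (aeval y (pderiv i (H.eqY b α))) :=
      (aeval_map_y hy _).symm
    have h4 : aeval yL (pderiv i (H.eqY b α)) ≠ 0 := right_ne_zero_of_mul hη
    have h2 : aeval y (pderiv i (H.eqY b α)) ≠ 0 := by
      intro h0
      rw [h1, h0, map_zero] at h4
      exact h4 rfl
    simp only [η]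
    rw [ov_mul w (hyL0 i) h4, hoyk i hi, h1, ov_algebraMap hvw h2, zero_add]
  have hval := congrArg (ov w) hform
  rw [ov_mul w (mul_ne_zero R₀.h0 hxprod) hjL0, ov_mul w R₀.h0 hxprod,
    ov_prod _ _ fun j _ => H.x0 j, ov_algebraMap hvw hj0, ov_mul w hyprod hrhs,
    ov_prod _ _ fun l _ => hyL0 _, ov_mul w (mul_ne_zero hmτ hη) hA₁, ov_mul w hmτ hη, hηv,
    hA₁v, ov_monoT w H.x0] at hval
  have hsumy : ∑ l, ov w (yL (i.succAbove l)) = e₀ * ν := by
    have h1 := Fin.sum_univ_succAbove (fun k => ov w (yL k)) i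
    rw [hoyk i hi, zero_add, Fin.sum_univ_succ, hoy0, Finset.sum_eq_zero, add_zero] at h1
    · exact h1.symm
    · intro k _; exact hoyk _ (Fin.succ_ne_zero k)
  rw [hsumy] at hval
  rw [hmv'] at hval
  -- the weight of the monomial factor
  have hAτ : ∑ j, A j * τ j = m := by
    have h1 := hb.weight (shf f H.f0 (H.nf b α))
    have h2 := (hb.min_iff hα hm hα).1 hαm
    have h3 := toE_apply (shf_nonneg H.f0 (H.nf b α) α hα) 0
    rw [h2] at h3
    have h4 : H.nf b α α = 0 := by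
      have h5 : (fun j => ((α j : ℤ)) - α j) = (0 : Fin (e + 2) → ℤ) := by funext j; simp
      simp only [DiagData.nf, h5, rep]
      rw [dif_pos H.lat.zero_mem]
      funext k
      have h6 : (⟨0, H.lat.zero_mem⟩ : AddSubgroup.toIntSubmodule H.lat) = 0 := rfl
      rw [h6, map_zero]; rfl
    rw [h4, add_zero] at h3
    rw [← h3] at h1
    push_cast at h1
    rw [mul_zero] at h1
    have h5 : ∑ j, A j * τ j = wtZ A α -
        ∑ j, A j * ∑ k, shf f H.f0 (H.nf b α) k * vecs b k j := by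
      simp only [τ, DiagData.tauY, mul_sub, Finset.sum_sub_distrib, wt]
      push_cast
      rfl
    rw [h5, h1, hαm]; ring
  refine ⟨e₀, w, he₀, hw, hvw, hxj, fun D' h R m' hm' => ?_⟩
  have hrho := HY.rho_indep (Nat.succ_pos e) R R₀ hw hm' hmw
  set ρ := ov v (aeval y (pderiv i (H.eqY b α))) with hρ
  have k1 : 1 + m' - ov w h = ∑ j, ov w (x j) - ∑ j, τ j * ov w (x j) - e₀ * ρ := by
    have h2 : (e₀ : ℤ) * (1 + mv) = e₀ + e₀ * mv := by ring
    rw [h2] at htrans
    have h3 : (e₀ : ℤ) * (ν - 1 - mv) = e₀ * ν - e₀ - e₀ * mv := by ring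
    rw [h3] at hval
    linarith
  have k4 : (r * c : ℤ) * (∑ j, ov w (x j) - ∑ j, τ j * ov w (x j) - e₀ * ρ) =
      ∑ j, (r * c : ℤ) * ov w (x j) - ∑ j, (r * c : ℤ) * (τ j * ov w (x j)) -
        (r * c : ℤ) * (e₀ * ρ) := by
    rw [← Finset.mul_sum, ← Finset.mul_sum]; ring
  rw [k1, k4]
  have k2 : ∑ j, (r * c : ℤ) * ov w (x j) = e₀ * (ν * ∑ j, A j) := by
    rw [Finset.mul_sum, Finset.mul_sum]; exact Finset.sum_congr rfl fun j _ => hxj j
  have k3 : ∑ j, (r * c : ℤ) * (τ j * ov w (x j)) = e₀ * (ν * m) := by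
    rw [← hAτ, Finset.mul_sum, Finset.mul_sum]
    refine Finset.sum_congr rfl fun j _ => ?_
    linear_combination (τ j) * hxj j
  rw [k2, k3]; ring

end Vale.Agent.P283.H108
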