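import Vale.Agent.P283.H647.Base

/-!
Semilinear endomorphisms of the function field of a hypersurface.
-/

set_option linter.all false

namespace Vale.Agent.P283.H108

open MvPolynomial Finset
open Vale.Agent.P283.H647 (ResForm HypData)

theorem exists_retraction (ι₀ : ℂ →+* ℂ) : ∃ l : ℂ → ℂ, (∀ a b, l (a + b) = l a + l b) ∧
    l 0 = 0 ∧ (∀ a b, l (ι₀ a * b) = a * l b) ∧ l 1 = 1 := by
  obtain ⟨g, hg⟩ := LinearMap.exists_leftInverse_of_injective
    (Algebra.linearMap ι₀.fieldRange ℂ)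
    (LinearMap.ker_eq_bot.2 (algebraMap ι₀.fieldRange ℂ).injective)
  let e : ℂ ≃+* ι₀.fieldRange := ι₀.rangeRestrictFieldEquiv
  have he : ∀ a, ((e a : ι₀.fieldRange) : ℂ) = ι₀ a := fun a => rfl
  have hg1 : g 1 = 1 := by
    have h1 := LinearMap.congr_fun hg 1
    simpa using h1
  refine ⟨fun b => e.symm (g b), ?_, ?_, ?_, ?_⟩
  · intro a b; simp only [map_add]
  · simp only [map_zero]
  · intro a b
    have h1 : ι₀ a * b = (e a) • b := by
      rw [Subfield.smul_def, he, smul_eq_mul]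
    simp only [h1, map_smul, smul_eq_mul, map_mul, RingEquiv.symm_apply_apply]
  · simp only [hg1, map_one]

section Map

variable {N : ℕ} {ι₀ : ℂ →+* ℂ} {f : MvPolynomial (Fin N) ℂ}

theorem map_eq_self (hf : ∀ α, ι₀ (f.coeff α) = f.coeff α) : map ι₀ f = f := by
  ext α
  rw [coeff_map, hf]

theorem dvd_map_iff (hf : map ι₀ f = f) (P : MvPolynomial (Fin N) ℂ) : f ∣ map ι₀ P ↔ f ∣ P := by
  classical
  constructor
  · rintro ⟨R, hR⟩
    obtain ⟨l, hadd, h0, hmul, h1⟩ := exists_retraction ι₀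
    let R' : MvPolynomial (Fin N) ℂ := ∑ α ∈ R.support, monomial α (l (R.coeff α))
    have hR' : ∀ β, coeff β R' = l (coeff β R) := by
      intro β
      simp only [R', coeff_sum, coeff_monomial, Finset.sum_ite_eq']
      by_cases hβ : β ∈ R.support
      · rw [if_pos hβ]
      · rw [if_neg hβ, notMem_support_iff.1 hβ, h0]
    have hsum : ∀ (s : Finset ((Fin N →₀ ℕ) × (Fin N →₀ ℕ)))
        (F : (Fin N →₀ ℕ) × (Fin N →₀ ℕ) → ℂ), l (∑ x ∈ s, F x) = ∑ x ∈ s, l (F x) := by
      intro s F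
      induction s using Finset.induction_on with
      | empty => simpa using h0
      | insert a s ha ih => rw [Finset.sum_insert ha, Finset.sum_insert ha, hadd, ih]
    refine ⟨R', ?_⟩
    ext α
    have h2 : l (coeff α (map ι₀ P)) = coeff α P := by
      rw [coeff_map]
      have := hmul (coeff α P) 1
      rwa [mul_one, h1, mul_one] at this
    rw [← h2, hR, coeff_mul, coeff_mul, hsum]
    refine Finset.sum_congr rfl fun x _ => ?_
    have h3 : coeff x.1 f = ι₀ (coeff x.1 f) := by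
      conv_lhs => rw [← hf]
      rw [coeff_map]
    conv_lhs => rw [h3]
    rw [hmul, hR']
  · rintro ⟨Q, rfl⟩
    rw [map_mul, hf]
    exact dvd_mul_right _ _

end Map

variable {d : ℕ} {L : Type} [Field L] [Algebra ℂ L] {y : Fin (d + 1) → L}
  {f : MvPolynomial (Fin (d + 1)) ℂ} {ι₀ : ℂ →+* ℂ}

/-- The extension of an endomorphism of `ℂ` to the function field. -/
theorem exists_semi (H : HypData y f) (hf : map ι₀ f = f) :
    ∃ ι : L →+* L, ∀ P : MvPolynomial (Fin (d + 1)) ℂ, ι (aeval y P) = aeval y (map ι₀ P) := by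
  let φ : MvPolynomial (Fin (d + 1)) ℂ →ₐ[ℂ] L := aeval y
  let S : Subalgebra ℂ L := φ.range
  haveI : IsFractionRing S L := IsFractionRing.of_field S L fun z => by
    obtain ⟨P, Q, -, h1⟩ := H.gen z
    exact ⟨φ.rangeRestrict P, φ.rangeRestrict Q, h1⟩
  let π : MvPolynomial (Fin (d + 1)) ℂ →+* S := φ.rangeRestrict.toRingHom
  have hπ : Function.Surjective π := φ.rangeRestrict_surjective
  let ψ : MvPolynomial (Fin (d + 1)) ℂ →+* L := φ.toRingHom.comp (map ι₀)
  have hψ : ∀ P, ψ P = aeval y (map ι₀ P) := fun P => rfl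
  have hπ0 : ∀ P, π P = 0 ↔ f ∣ P := by
    intro P
    rw [← H.ker P]
    exact ⟨fun h => congrArg Subtype.val h, fun h => Subtype.ext h⟩
  have hψ0 : ∀ P, ψ P = 0 ↔ f ∣ P := by
    intro P
    rw [hψ, H.ker, dvd_map_iff hf]
  have hker : RingHom.ker π ≤ RingHom.ker ψ := by
    intro P hP
    rw [RingHom.mem_ker] at hP ⊢
    exact (hψ0 P).2 ((hπ0 P).1 hP)
  let χ : S →+* L := π.liftOfSurjective hπ ⟨ψ, hker⟩
  have hχ : ∀ P, χ (π P) = ψ P := fun P => RingHom.liftOfRightInverse_comp_apply _ _ _ ⟨ψ, hker⟩ P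
  have hχi : Function.Injective χ := by
    rw [injective_iff_map_eq_zero]
    intro a ha
    obtain ⟨P, rfl⟩ := hπ a
    rw [hχ, hψ0] at ha
    exact (hπ0 P).2 ha
  refine ⟨IsFractionRing.lift hχi, fun P => ?_⟩
  have h1 : aeval y P = algebraMap S L (π P) := rfl
  rw [h1, IsFractionRing.lift_algebraMap, hχ, hψ]

section Semi

variable {ι : L →+* L}
  (hι : ∀ P : MvPolynomial (Fin (d + 1)) ℂ, ι (aeval y P) = aeval y (map ι₀ P))
include hι

theorem semi_y (k : Fin (d + 1)) : ι (y k) = y k := by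
  have h1 := hι (X k)
  rwa [aeval_X, map_X, aeval_X] at h1

theorem semi_C (a : ℂ) : ι (algebraMap ℂ L a) = algebraMap ℂ L (ι₀ a) := by
  have h1 := hι (C a)
  rwa [MvPolynomial.algHom_C, map_C, MvPolynomial.algHom_C] at h1

theorem semi_fix {P : MvPolynomial (Fin (d + 1)) ℂ} (hP : map ι₀ P = P) :
    ι (aeval y P) = aeval y P := by rw [hι, hP]

/-- Gradients are compatible with the semilinear map. -/
theorem semi_grad (H : HypData y f) (z : L) : ∃ G : Fin (d + 1) → L,
    (∀ D : Derivation ℂ L L, D z = ∑ j, G j * D (y j)) ∧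
    ∀ D : Derivation ℂ L L, D (ι z) = ∑ j, ι (G j) * D (y j) := by
  obtain ⟨P, Q, hQ, rfl⟩ := H.gen z
  have hQ' : aeval y (map ι₀ Q) ≠ 0 := by
    rw [← hι]; exact (map_ne_zero ι).2 hQ
  have hgen : ∀ (P Q : MvPolynomial (Fin (d + 1)) ℂ), aeval y Q ≠ 0 →
      ∀ D : Derivation ℂ L L, D (aeval y P / aeval y Q) = ∑ j, ((aeval y (pderiv j P) * aeval y Q -
        aeval y P * aeval y (pderiv j Q)) / (aeval y Q * aeval y Q)) * D (y j) := by
    intro P Q hQ D
    have h1 : D (aeval y P / aeval y Q) =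
        (aeval y Q * D (aeval y P) - aeval y P * D (aeval y Q)) / (aeval y Q * aeval y Q) := by
      rw [div_eq_mul_inv, Derivation.leibniz, Derivation.leibniz_inv]
      simp only [smul_eq_mul]
      field_simp
      ring
    rw [h1, H647.der_aeval D y P, H647.der_aeval D y Q, Finset.mul_sum, Finset.mul_sum,
      ← Finset.sum_sub_distrib, Finset.sum_div]
    refine Finset.sum_congr rfl fun j _ => ?_
    ring
  refine ⟨_, hgen P Q hQ, fun D => ?_⟩
  rw [map_div₀, hι, hι, hgen _ _ hQ' D]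
  refine Finset.sum_congr rfl fun j _ => ?_
  rw [map_div₀, map_sub, map_mul, map_mul, map_mul, hι, hι, hι, hι, MvPolynomial.pderiv_map,
    MvPolynomial.pderiv_map]

/-- The residue form is invariant under the semilinear map. -/
theorem semi_jac (H : HypData y f) (hf : map ι₀ f = f) {D' : Fin d → Derivation ℂ L L} {h : L}
    (R : ResForm y f D' h) (z : Fin d → L) (hz : ∀ i, z i ≠ 0) :
    h * Q.jac D' (fun i => ι (z i)) = ι (h * Q.jac D' z) := by
  choose G hG hG' using fun i => semi_grad hι H (z i)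
  have hz' : ∀ i, ι (z i) ≠ 0 := fun i => (map_ne_zero ι).2 (hz i)
  have h1 := R.formula z (fun l j => y j * G l j / z l) (fun l k => by
    rw [hG l (D' k), Finset.mul_sum]
    refine Finset.sum_congr rfl fun j _ => ?_
    have := R.x0 j
    have := hz l
    field_simp)
  have h2 := R.formula (fun i => ι (z i)) (fun l j => y j * ι (G l j) / ι (z l)) (fun l k => by
    rw [hG' l (D' k), Finset.mul_sum]
    refine Finset.sum_congr rfl fun j _ => ?_
    have := R.x0 j
    have := hz' l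
    field_simp)
  have h3 : ι (Matrix.of (Fin.cons (fun j => y j * aeval y (pderiv j f))
      (fun l j => y j * G l j / z l) : Fin (d + 1) → Fin (d + 1) → L)).det =
      (Matrix.of (Fin.cons (fun j => y j * aeval y (pderiv j f))
      (fun l j => y j * ι (G l j) / ι (z l)) : Fin (d + 1) → Fin (d + 1) → L)).det := by
    rw [RingHom.map_det]
    congr 1
    ext i j
    rw [RingHom.mapMatrix_apply, Matrix.map_apply]
    refine Fin.cases ?_ (fun l => ?_) i
    · simp only [Matrix.of_apply, Fin.cons_zero, map_mul, semi_y hι, hι]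
      rw [← MvPolynomial.pderiv_map, hf]
    · simp only [Matrix.of_apply, Fin.cons_succ, map_mul, map_div₀, semi_y hι]
  have hy0 : (∏ j, y j) ≠ 0 := Finset.prod_ne_zero_iff.2 fun j _ => R.x0 j
  have h4 := congrArg ι h1
  rw [map_mul, map_mul, map_mul, map_prod, map_prod, h3] at h4
  have h5 : (∏ j, ι (y j)) = ∏ j, y j := Finset.prod_congr rfl fun j _ => semi_y hι j
  rw [h5] at h4
  rw [map_mul]
  apply mul_right_cancel₀ hy0
  calc h * Q.jac D' (fun i => ι (z i)) * ∏ j, y j
      = h * (∏ j, y j) * Q.jac D' (fun i => ι (z i)) := by ring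
    _ = ι h * (∏ j, y j) * ι (Q.jac D' z) := by rw [h2, h4]
    _ = ι h * ι (Q.jac D' z) * ∏ j, y j := by ring

end Semi

end Vale.Agent.P283.H108
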