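import Vale.Agent.P283.H108.Params
import Vale.Agent.P283.H108.Semi

/-!
The restriction of a divisorial valuation along a semilinear endomorphism.
-/

set_option linter.all false

namespace Vale.Agent.P283.H108

open MvPolynomial Finset
open Vale.Agent.P283.H647 (ResForm HypData)

/-- Normalization of a discrete valuation. -/
theorem exists_normalized {L : Type} [Field L] (v : AddValuation L (WithTop ℤ))
    (hne : ∃ x : L, x ≠ 0 ∧ ov v x ≠ 0) : ∃ (v' : AddValuation L (WithTop ℤ)) (β : ℕ), 0 < β ∧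
      (∃ t, v' t = 1) ∧ ∀ x, v x = β • v' x := by
  classical
  let H : AddSubgroup ℤ :=
    { carrier := {n | ∃ f : L, f ≠ 0 ∧ ov v f = n}
      zero_mem' := ⟨1, one_ne_zero, ov_one v⟩
      add_mem' := by
        rintro m n ⟨f, hf, rfl⟩ ⟨g, hg, rfl⟩
        exact ⟨f * g, mul_ne_zero hf hg, ov_mul v hf hg⟩
      neg_mem' := by
        rintro n ⟨f, hf, rfl⟩
        exact ⟨f⁻¹, inv_ne_zero hf, by rw [ov_inv]⟩ }
  obtain ⟨e0, he0⟩ := Int.subgroup_cyclic H
  let e : ℕ := e0.natAbs
  have hmem : ∀ x, x ∈ H ↔ (e : ℤ) ∣ x := by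
    intro x
    rw [he0, AddSubgroup.mem_closure_singleton]
    constructor
    · rintro ⟨n, rfl⟩
      rw [smul_eq_mul]
      exact Dvd.dvd.mul_left (Int.natAbs_dvd.mpr dvd_rfl) n
    · intro h
      obtain ⟨n, hn⟩ := Int.natAbs_dvd.mp h
      exact ⟨n, by rw [smul_eq_mul, hn, mul_comm]⟩
  have hdvd : ∀ f : L, f ≠ 0 → (e : ℤ) ∣ ov v f := fun f hf => (hmem _).mp ⟨f, hf, rfl⟩
  have he : 0 < e := by
    rcases Nat.eq_zero_or_pos e with h | h
    · exfalso
      obtain ⟨x, hx, hx0⟩ := hne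
      have := hdvd x hx
      rw [h] at this
      exact hx0 (by simpa using this)
    · exact h
  have heZ : (0 : ℤ) < e := by exact_mod_cast he
  have hq : ∀ f : L, f ≠ 0 → ov v f = e * (ov v f / e) :=
    fun f hf => (Int.mul_ediv_cancel' (hdvd f hf)).symm
  let v' : AddValuation L (WithTop ℤ) := AddValuation.of
    (fun f => if f = 0 then ⊤ else ((ov v f / e : ℤ) : WithTop ℤ))
    (by simp) (by simp [ov_one]) (by
      intro x y
      by_cases hx : x = 0
      · subst hx; simp only [↓reduceIte, le_top, inf_of_le_right, zero_add, Std.le_refl]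
      by_cases hy : y = 0
      · subst hy; simp only [↓reduceIte, le_top, inf_of_le_left, add_zero, Std.le_refl]
      by_cases hxy : x + y = 0
      · simp only [hxy, ↓reduceIte, le_top]
      simp only [if_neg hx, if_neg hy, if_neg hxy]
      rw [← WithTop.coe_min, WithTop.coe_le_coe]
      have h1 := AddValuation.map_add v x y
      rw [← coe_ov v hx, ← coe_ov v hy, ← coe_ov v hxy, ← WithTop.coe_min,
        WithTop.coe_le_coe] at h1
      rcases min_le_iff.mp h1 with h | h
      · exact (min_le_left _ _).trans (Int.ediv_le_ediv heZ h)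
      · exact (min_le_right _ _).trans (Int.ediv_le_ediv heZ h)) (by
      intro x y
      by_cases hx : x = 0
      · subst hx; simp
      by_cases hy : y = 0
      · subst hy; simp
      have hxy : x * y ≠ 0 := mul_ne_zero hx hy
      simp only [if_neg hx, if_neg hy, if_neg hxy]
      rw [← WithTop.coe_add, WithTop.coe_inj, ov_mul v hx hy,
        Int.add_ediv_of_dvd_left (hdvd x hx)])
  have hv' : ∀ f : L, f ≠ 0 → v' f = ((ov v f / e : ℤ) : WithTop ℤ) := by
    intro f hf
    show (if f = 0 then ⊤ else ((ov v f / e : ℤ) : WithTop ℤ)) = _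
    rw [if_neg hf]
  refine ⟨v', e, he, ?_, ?_⟩
  · obtain ⟨f, hf, hf'⟩ := (hmem e).mpr dvd_rfl
    refine ⟨f, ?_⟩
    rw [hv' f hf, hf', Int.ediv_self heZ.ne']
    rfl
  · intro f
    by_cases hf : f = 0
    · subst hf
      rw [AddValuation.map_zero, AddValuation.map_zero]
      obtain ⟨e', he'⟩ := Nat.exists_eq_succ_of_ne_zero he.ne'
      rw [he', succ_nsmul]; simp
    · rw [hv' f hf, ← coe_ov v hf, ← WithTop.coe_nsmul, WithTop.coe_inj, nsmul_eq_mul]
      exact hq f hf

variable {e : ℕ} {L : Type} [Field L] [Algebra ℂ L] {y : Fin (e + 2) → L}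
  {f : MvPolynomial (Fin (e + 2)) ℂ} {ι₀ : ℂ →+* ℂ} {ι : L →+* L}

theorem ov_comap_mul {w v' : AddValuation L (WithTop ℤ)} {β : ℕ}
    (hβ : ∀ x, w (ι x) = β • v' x) {x : L} (hx : x ≠ 0) : ov w (ι x) = β * ov v' x := by
  apply ov_eq_of
  rw [hβ, ← coe_ov v' hx, ← WithTop.coe_nsmul, nsmul_eq_mul]

/-- The restricted valuation has an order of forms. -/
theorem restr_order (hι : ∀ P : MvPolynomial (Fin (e + 2)) ℂ, ι (aeval y P) = aeval y (map ι₀ P))
    (H : HypData y f) (hf : map ι₀ f = f) {D' : Fin (e + 1) → Derivation ℂ L L} {h : L}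
    (R : ResForm y f D' h) {w v' : AddValuation L (WithTop ℤ)} {m : ℤ}
    (hm : Q.FormOrder w D' m) {β : ℕ} (hβ0 : 0 < β) (hβ : ∀ x, w (ι x) = β • v' x) :
    ∃ m', Q.FormOrder v' D' m' := by
  classical
  have hne : ∃ k : ℤ, ∃ (h₁ : L) (g : Fin (e + 1) → L), v' h₁ = (k : WithTop ℤ) ∧
      (∀ i, 0 ≤ v' (g i)) ∧ h₁ * Q.jac D' g = 1 := by
    obtain ⟨g, hg⟩ := R.jac_ne
    have hg0 : ∀ i, g i ≠ 0 := by
      intro i h0
      apply hg
      unfold Q.jac
      apply Matrix.det_eq_zero_of_row_eq_zero i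
      intro j
      rw [Matrix.of_apply, h0, map_zero]
    let g' : Fin (e + 1) → L := fun i => if 0 ≤ v' (g i) then g i else (g i)⁻¹
    have hj : Q.jac D' g' ≠ 0 := by
      have h1 : Q.jac D' g' = (∏ i, if 0 ≤ v' (g i) then (1 : L) else -(g i)⁻¹ ^ 2) *
          Q.jac D' g := by
        unfold Q.jac
        rw [← Matrix.det_mul_column]
        congr 1
        ext i j
        simp only [Matrix.of_apply, g']
        split_ifs with hi
        · rw [one_mul]
        · rw [Derivation.leibniz_inv, smul_eq_mul]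
      rw [h1]
      refine mul_ne_zero (Finset.prod_ne_zero_iff.2 fun i _ => ?_) hg
      split_ifs
      · exact one_ne_zero
      · exact neg_ne_zero.2 (pow_ne_zero _ (inv_ne_zero (hg0 i)))
    refine ⟨ov v' (Q.jac D' g')⁻¹, (Q.jac D' g')⁻¹, g', (coe_ov v' (inv_ne_zero hj)).symm, ?_,
      inv_mul_cancel₀ hj⟩
    intro i
    simp only [g']
    split_ifs with hi
    · exact hi
    · rw [nonneg_iff v' (hg0 i)] at hi
      rw [nonneg_iff v' (inv_ne_zero (hg0 i)), ov_inv]
      omega
  have hbdd : ∃ b : ℤ, ∀ k : ℤ, (∃ (h₁ : L) (g : Fin (e + 1) → L), v' h₁ = (k : WithTop ℤ) ∧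
      (∀ i, 0 ≤ v' (g i)) ∧ h₁ * Q.jac D' g = 1) → k ≤ b := by
    refine ⟨max 0 (m - ov w h + β * ov v' h), ?_⟩
    rintro k ⟨h₁, g, h1, h2, h3⟩
    have hj : Q.jac D' g ≠ 0 := right_ne_zero_of_mul (h3.trans_ne one_ne_zero)
    have hg0 : ∀ i, g i ≠ 0 := by
      intro i h0
      apply hj
      unfold Q.jac
      apply Matrix.det_eq_zero_of_row_eq_zero i
      intro j
      rw [Matrix.of_apply, h0, map_zero]
    have h4 := semi_jac hι H hf R g hg0
    have h5 : ι (h * Q.jac D' g) ≠ 0 := (map_ne_zero ι).2 (mul_ne_zero R.h0 hj)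
    have h6 : Q.jac D' (fun i => ι (g i)) ≠ 0 := by
      intro h0
      rw [h0, mul_zero] at h4
      exact h5 h4.symm
    have h7 := H647.order_regular hm (fun i => ι (g i)) (fun i => by
      rw [hβ]; exact nsmul_nonneg (h2 i) β) h6
    have h8 := congrArg (ov w) h4
    rw [ov_mul w R.h0 h6, ov_comap_mul hβ (mul_ne_zero R.h0 hj), ov_mul v' R.h0 hj] at h8
    have h9 : ov v' (Q.jac D' g) = -k := by
      have h10 : Q.jac D' g = h₁⁻¹ := eq_inv_of_mul_eq_one_right h3
      rw [h10, ov_inv, ov_eq_of v' h1]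
    rw [h9] at h8
    have hβZ : (1 : ℤ) ≤ β := by exact_mod_cast hβ0
    rcases le_or_gt k 0 with hk | hk
    · exact le_trans hk (le_max_left _ _)
    · refine le_trans ?_ (le_max_right _ _)
      have h10 : k ≤ β * k := by nlinarith
      have h11 : (β : ℤ) * (ov v' h + -k) = β * ov v' h - β * k := by ring
      rw [h11] at h8
      linarith
  obtain ⟨m', h1, h2⟩ := Int.exists_greatest_of_bdd hbdd hne
  exact ⟨m', h1, fun k hk => h2 k hk⟩

/-- The key inequality. -/
theorem restr_key [Algebra.EssFiniteType ℂ L]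
    (hι : ∀ P : MvPolynomial (Fin (e + 2)) ℂ, ι (aeval y P) = aeval y (map ι₀ P))
    (H : HypData y f) (hf : map ι₀ f = f) {D' : Fin (e + 1) → Derivation ℂ L L} {h : L}
    (R : ResForm y f D' h) {w v' : AddValuation L (WithTop ℤ)} (hw : Q.IsDivisorial (e + 1) w)
    {m m' : ℤ} (hm : Q.FormOrder w D' m) {β : ℕ} (hβ0 : 0 < β)
    (hβ : ∀ x, w (ι x) = β • v' x) (hn : ∃ t, v' t = 1)
    (hc : ∀ c : ℂ, c ≠ 0 → v' (algebraMap ℂ L c) = 0) (hm' : Q.FormOrder v' D' m')
    {c : ℂ} (hcι : ∀ γ, ι₀ γ ≠ c) {x : L} (hx : 0 ≤ v' x)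
    (hcx : 0 < w (algebraMap ℂ L c - ι x)) : Q.IsDivisorial (e + 1) v' ∧
      β * (1 + m' - ov v' h) + ov w (algebraMap ℂ L c - ι x) ≤ 1 + m - ov w h := by
  classical
  obtain ⟨z, i₀, M, hz1, hres⟩ := exists_params' hc hn H.trdeg hm'
  refine ⟨⟨hc, hn, ⟨fun l => z (i₀.succAbove l), hres⟩⟩, ?_⟩
  obtain ⟨j, hj0, hj⟩ : ∃ j, j ≠ i₀ ∧ v' (dual D' z j x) = 0 := by
    by_contra hno
    push Not at hno
    obtain ⟨γ, hγ⟩ := exists_const hc H.trdeg M hz1 hx hno
    have h1 : 0 < w (ι (x - algebraMap ℂ L γ)) := by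
      rw [hβ]
      by_cases h0 : x - algebraMap ℂ L γ = 0
      · rw [h0, AddValuation.map_zero]
        obtain ⟨e', he'⟩ := Nat.exists_eq_succ_of_ne_zero hβ0.ne'
        rw [he', succ_nsmul]; simp
      · rw [← coe_ov v' h0] at hγ ⊢
        rw [← WithTop.coe_nsmul]
        have h2 : (0 : ℤ) < ov v' (x - algebraMap ℂ L γ) := by exact_mod_cast hγ
        have h3 : (0 : ℤ) < β • ov v' (x - algebraMap ℂ L γ) := by
          rw [nsmul_eq_mul]
          exact mul_pos (by exact_mod_cast hβ0) h2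
        exact_mod_cast h3
    rw [map_sub, semi_C hι] at h1
    have h2 : 0 < w (algebraMap ℂ L (c - ι₀ γ)) := by
      have h3 : algebraMap ℂ L (c - ι₀ γ) = (algebraMap ℂ L c - ι x) +
          (ι x - algebraMap ℂ L (ι₀ γ)) := by rw [map_sub]; ring
      rw [h3]
      exact lt_of_lt_of_le (lt_min hcx h1) (AddValuation.map_add w _ _)
    rw [hw.const _ (sub_ne_zero.2 (Ne.symm (hcι γ)))] at h2
    exact lt_irrefl _ h2
  have hd0 : dual D' z j x ≠ 0 := ne_zero_of_val_zero v' hj
  have hx0 : x ≠ 0 := by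
    rintro rfl
    exact hd0 (map_zero _)
  -- the functions
  have hzj : ∀ i, Function.update z j x i ≠ 0 := by
    intro i
    by_cases hi : i = j
    · subst hi; rw [Function.update_self]; exact hx0
    · rw [Function.update_of_ne hi]; exact M.ne_zero i
  have h1 := semi_jac hι H hf R (Function.update z j x) hzj
  have hju : Q.jac D' (Function.update z j x) ≠ 0 := by
    rw [jac_update M.jac]; exact mul_ne_zero hd0 M.jac
  set σ := algebraMap ℂ L c - ι x with hσ
  let g : Fin (e + 1) → L := fun i => if i = j then σ else ι (z i)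
  have hjg : Q.jac D' g = - Q.jac D' (fun i => ι (Function.update z j x i)) := by
    have h2 : Q.jac D' g = (∏ i, if i = j then (-1 : L) else 1) *
        Q.jac D' (fun i => ι (Function.update z j x i)) := by
      unfold Q.jac
      rw [← Matrix.det_mul_column]
      congr 1
      ext i k
      simp only [Matrix.of_apply, g]
      by_cases hi : i = j
      · subst hi
        rw [if_pos rfl, if_pos rfl, Function.update_self, hσ, map_sub, Derivation.map_algebraMap]
        ring
      · rw [if_neg hi, if_neg hi, Function.update_of_ne hi, one_mul]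
    rw [h2, Finset.prod_ite_eq' Finset.univ j (fun _ => (-1 : L)), if_pos (Finset.mem_univ _)]
    ring
  have h2 : ι (h * Q.jac D' (Function.update z j x)) ≠ 0 :=
    (map_ne_zero ι).2 (mul_ne_zero R.h0 hju)
  have h3 : Q.jac D' (fun i => ι (Function.update z j x i)) ≠ 0 := by
    intro h0
    rw [h0, mul_zero] at h1
    exact h2 h1.symm
  have h4 : Q.jac D' g ≠ 0 := by rw [hjg]; exact neg_ne_zero.2 h3
  have hg0 : ∀ i, g i ≠ 0 := by
    intro i h0
    apply h4
    unfold Q.jac
    apply Matrix.det_eq_zero_of_row_eq_zero i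
    intro k
    rw [Matrix.of_apply, h0, map_zero]
  have h5 := H647.order_log (Nat.succ_pos e) H.trdeg hw hm g hg0 h4
  have h6 : ov w (Q.jac D' g) = ov w (Q.jac D' (fun i => ι (Function.update z j x i))) := by
    rw [hjg]
    apply ov_eq_of
    rw [AddValuation.map_neg, coe_ov w h3]
  have h7 := congrArg (ov w) h1
  rw [ov_mul w R.h0 h3, ov_comap_mul hβ (mul_ne_zero R.h0 hju), ov_mul v' R.h0 hju,
    jac_update M.jac, ov_mul v' hd0 M.jac, M.val, (eq_zero_iff v' hd0).1 hj, zero_add] at h7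
  have hσ0 : σ ≠ 0 := by
    have := hg0 j
    simpa only [g, if_true] using this
  -- the sum of the values
  have h8 : ov w σ + β ≤ ∑ i, ov w (g i) := by
    have hgj : g j = σ := by simp only [g, if_true]
    have hgi : g i₀ = ι (z i₀) := by simp only [g]; rw [if_neg (Ne.symm hj0)]
    rw [← Finset.add_sum_erase _ _ (Finset.mem_univ j),
      ← Finset.add_sum_erase _ _ (Finset.mem_erase.2 ⟨Ne.symm hj0, Finset.mem_univ i₀⟩), hgj, hgi,
      ov_comap_mul hβ (M.ne_zero i₀), ov_eq_of v' (n := 1) (by simpa using hz1), mul_one]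
    have h9 : 0 ≤ ∑ i ∈ (Finset.univ.erase j).erase i₀, ov w (g i) := by
      refine Finset.sum_nonneg fun i hi => ?_
      rw [Finset.mem_erase, Finset.mem_erase] at hi
      have h10 : g i = ι (z i) := by simp only [g]; rw [if_neg hi.2.1]
      rw [h10, ov_comap_mul hβ (M.ne_zero i)]
      exact mul_nonneg (by positivity) ((nonneg_iff v' (M.ne_zero i)).1 (M.reg i))
    linarith
  rw [h6] at h5
  have h9 : (β : ℤ) * (1 + m' - ov v' h) = β - β * (ov v' h + -m') := by ring
  rw [h9]
  linarith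

end Vale.Agent.P283.H108
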