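import Vale.Agent.P283.H108.ExtPole
import Vale.Agent.P283.H647.Base

/-!
Divisorial valuations of a hypersurface in a torus along a multiple component of its intersection
with a coordinate hyperplane.
-/

set_option linter.all false

namespace Vale.Agent.P283.H108

open MvPolynomial Finset
open Vale.Agent.P283.H647 (HypData red red_X0 red_X sub_red_dvd coeff_red coeff_pderiv' red_pderiv
  not_dvd_pderiv dvr_val coeff_logd)

section Uni

variable {K : Type} [Field K] (w : AddValuation K (WithTop ℤ))

theorem eval_nonneg {p : Polynomial K} (hp : ∀ j, 0 ≤ w (p.coeff j)) {x : K} (hx : 0 ≤ w x) :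
    0 ≤ w (p.eval x) := by
  rw [Polynomial.eval_eq_sum_range]
  refine Finset.sum_induction _ (fun z => 0 ≤ w z) (fun a b ha hb => ?_) ?_ fun j _ => ?_
  · exact le_trans (le_min ha hb) (AddValuation.map_add w _ _)
  · rw [AddValuation.map_zero]; exact le_top
  · rw [AddValuation.map_mul, AddValuation.map_pow]
    exact add_nonneg (hp j) (nsmul_nonneg hx j)

theorem eval_zero_of_pos {p : Polynomial K} (hp : ∀ j, 0 ≤ w (p.coeff j))
    (hp0 : w (p.coeff 0) = 0) {x : K} (hx : 0 < w x) : w (p.eval x) = 0 := by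
  have h1 : p.eval x = p.coeff 0 + (p.divX).eval x * x := by
    conv_lhs => rw [← Polynomial.divX_mul_X_add p]
    rw [Polynomial.eval_add, Polynomial.eval_mul, Polynomial.eval_X, Polynomial.eval_C, add_comm]
  have h2 : 0 < w ((p.divX).eval x * x) := by
    rw [AddValuation.map_mul]
    have h3 : 0 ≤ w ((p.divX).eval x) := eval_nonneg w (fun j => by
      rw [Polynomial.coeff_divX]; exact hp _) hx.le
    exact lt_of_lt_of_le hx (le_add_of_nonneg_left h3)
  rw [h1, AddValuation.map_add_eq_of_lt_left w (by rw [hp0]; exact h2), hp0]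

theorem eval_nonpos {p : Polynomial K} (hp : ∀ j, p.coeff j = 0 ∨ w (p.coeff j) = 0)
    (hp0 : p.coeff 0 ≠ 0) {x : K} (hx0 : x ≠ 0) (hx : w x ≠ 0) : w (p.eval x) ≤ 0 := by
  have hp' : ∀ j, 0 ≤ w (p.coeff j) := by
    intro j
    rcases hp j with h | h
    · rw [h, AddValuation.map_zero]; exact le_top
    · rw [h]
  rcases lt_or_gt_of_ne hx with hneg | hpos
  · have hpne : p ≠ 0 := by rintro rfl; simp at hp0
    letI : Invertible x := invertibleOfNonzero hx0
    have h1 := Polynomial.eval₂_reverse_mul_pow (RingHom.id K) x p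
    rw [← Polynomial.eval, ← Polynomial.eval, invOf_eq_inv] at h1
    have h2 : w (p.reverse.eval x⁻¹) = 0 := by
      apply eval_zero_of_pos w
      · intro j
        rw [Polynomial.coeff_reverse]; exact hp' _
      · rw [Polynomial.coeff_zero_reverse]
        exact (hp _).resolve_left (Polynomial.leadingCoeff_ne_zero.2 hpne)
      · rw [pos_iff w (inv_ne_zero hx0), ov_inv]
        have h3 : ov w x < 0 := by
          rw [← coe_ov w hx0] at hneg
          exact_mod_cast hneg
        omega
    rw [← h1, AddValuation.map_mul, h2, zero_add, AddValuation.map_pow]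
    exact nsmul_nonpos hneg.le _
  · exact (eval_zero_of_pos w hp' ((hp 0).resolve_left hp0) hpos).le

end Uni

variable {e : ℕ} {K : Type} [Field K] [Algebra ℂ K]

/-- A hypersurface in a torus, and a component of the restriction of its equation to `Y₀ = 0`. -/
structure TorusFac (y : Fin (e + 2) → K) (F h g₀ : MvPolynomial (Fin (e + 2)) ℂ) : Prop where
  y0 : ∀ k, y k ≠ 0
  gen : ∀ g : K, ∃ P Q : MvPolynomial (Fin (e + 2)) ℂ, aeval y Q ≠ 0 ∧ g = aeval y P / aeval y Q
  eqn : aeval y F = 0
  ker : ∀ P : MvPolynomial (Fin (e + 2)) ℂ, aeval y P = 0 → F ∣ P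
  fac : red e F = h * g₀
  redh : red e h = h
  redg : red e g₀ = g₀
  irr : Irreducible h
  nomon : ∀ t : Fin (e + 2) →₀ ℕ, ¬ h ∣ monomial t 1
  f0 : red e F ≠ 0

theorem pderiv_ne {n : ℕ} {Q : MvPolynomial (Fin n) ℂ} {i : Fin n} (h : 0 < degreeOf i Q) :
    pderiv i Q ≠ 0 := by
  classical
  intro h0
  have h1 : degreeOf i Q ≤ 0 := by
    rw [degreeOf_le_iff]
    intro α hα
    have h2 := coeff_logd Q i α
    rw [h0, mul_zero, coeff_zero] at h2
    rcases mul_eq_zero.1 h2.symm with h3 | h3
    · have : α i = 0 := by exact_mod_cast h3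
      omega
    · exact absurd h3 (mem_support_iff.1 hα)
  omega

theorem degreeOf_pos {n : ℕ} {Q : MvPolynomial (Fin n) ℂ} {i : Fin n} (h : pderiv i Q ≠ 0) :
    0 < degreeOf i Q := by
  obtain ⟨α, hα⟩ := support_nonempty.2 h
  rw [mem_support_iff, coeff_pderiv'] at hα
  have h4 : α + Finsupp.single i 1 ∈ Q.support := mem_support_iff.2 (right_ne_zero_of_mul hα)
  have h5 := monomial_le_degreeOf i h4
  simp at h5
  omega

/-- A polynomial in the other variables is not divisible by `h`. -/
theorem not_dvd_rename {i : Fin (e + 2)} {h : MvPolynomial (Fin (e + 2)) ℂ}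
    (hi' : pderiv i h ≠ 0) (hh : h ≠ 0) {P : MvPolynomial (Fin (e + 1)) ℂ} (hP : P ≠ 0) :
    ¬ h ∣ rename i.succAbove P := by
  have hρ : Function.Injective i.succAbove := Fin.succAbove_right_injective
  have hP' : rename i.succAbove P ≠ 0 := fun h0 =>
    hP (rename_injective i.succAbove hρ (by rw [h0, map_zero]))
  rintro ⟨G, hG⟩
  have hG0 : G ≠ 0 := by rintro rfl; rw [mul_zero] at hG; exact hP' hG
  have h2 : degreeOf i (rename i.succAbove P) = degreeOf i h + degreeOf i G := by
    rw [hG, degreeOf_mul_eq hh hG0]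
  have h3 : degreeOf i (rename i.succAbove P) = 0 := by
    rw [← Nat.le_zero, degreeOf_le_iff]
    intro α hα
    rw [Nat.le_zero]
    rw [mem_support_iff] at hα
    obtain ⟨β, rfl, -⟩ := coeff_rename_ne_zero i.succAbove P α hα
    rw [Finsupp.mapDomain_notin_range]
    rintro ⟨k, hk⟩
    exact Fin.succAbove_ne i _ hk
  have h4 := degreeOf_pos hi'
  omega

/-- Setting the first variable equal to zero. -/
noncomputable def redS (e : ℕ) : MvPolynomial (Fin (e + 1)) ℂ →ₐ[ℂ] MvPolynomial (Fin (e + 1)) ℂ :=
  aeval (fun k => if k = 0 then 0 else X k)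

theorem sub_redS_dvd (P : MvPolynomial (Fin (e + 1)) ℂ) : X 0 ∣ P - redS e P := by
  induction P using MvPolynomial.induction_on with
  | C a => simp [redS]
  | add p q hp hq =>
    rw [map_add]
    have : p + q - (redS e p + redS e q) = (p - redS e p) + (q - redS e q) := by ring
    rw [this]; exact dvd_add hp hq
  | mul_X p k hp =>
    rw [map_mul]
    have hk : redS e (X k) = if k = 0 then 0 else X k := by simp [redS]
    rw [hk]
    by_cases hk : k = 0
    · subst hk
      rw [if_pos rfl, mul_zero, sub_zero]; exact dvd_mul_left _ _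
    · rw [if_neg hk, ← sub_mul]; exact dvd_mul_of_dvd_left hp _

theorem redS_ne {P : MvPolynomial (Fin (e + 1)) ℂ} (h : ¬ X 0 ∣ P) : redS e P ≠ 0 := by
  intro h0
  apply h
  have := sub_redS_dvd P
  rwa [h0, sub_zero] at this

theorem red_rename {i : Fin (e + 2)} (hi : i ≠ 0) (P : MvPolynomial (Fin (e + 1)) ℂ) :
    red e (rename i.succAbove P) = rename i.succAbove (redS e P) := by
  have hi0 : i.succAbove 0 = 0 := Fin.succAbove_ne_zero_zero hi
  have h1 : (red e).comp (rename i.succAbove) = (rename i.succAbove).comp (redS e) := by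
    apply MvPolynomial.algHom_ext
    intro k
    rw [AlgHom.comp_apply, AlgHom.comp_apply, rename_X]
    have hk : redS e (X k) = if k = 0 then 0 else X k := by simp [redS]
    rw [hk]
    by_cases hk0 : k = 0
    · subst hk0
      rw [if_pos rfl, hi0, red_X0, map_zero]
    · rw [if_neg hk0, rename_X, red_X]
      intro h0
      rw [← hi0] at h0
      exact hk0 (Fin.succAbove_right_injective h0)
  exact DFunLike.congr_fun h1 P

/-- The equation as a polynomial in the variable `i`. -/
noncomputable def toU (i : Fin (e + 2)) :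
    MvPolynomial (Fin (e + 2)) ℂ →ₐ[ℂ] Polynomial (MvPolynomial (Fin (e + 1)) ℂ) :=
  aeval (i.insertNth (α := fun _ => Polynomial (MvPolynomial (Fin (e + 1)) ℂ)) Polynomial.X
    fun k => Polynomial.C (X k))

theorem toU_X (i : Fin (e + 2)) : toU i (X i) = Polynomial.X := by
  simp [toU]

theorem toU_X' (i : Fin (e + 2)) (k : Fin (e + 1)) :
    toU i (X (i.succAbove k)) = Polynomial.C (X k) := by
  simp [toU]

theorem toU_C (i : Fin (e + 2)) (c : ℂ) : toU i (C c) = Polynomial.C (C c) := by
  rw [← MvPolynomial.algebraMap_eq, AlgHom.commutes]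
  rfl

theorem ringHom_ext_succAbove {A : Type} [CommRing A] (i : Fin (e + 2))
    {φ ψ : MvPolynomial (Fin (e + 2)) ℂ →+* A} (hC : ∀ c, φ (C c) = ψ (C c))
    (hi : φ (X i) = ψ (X i)) (hk : ∀ k, φ (X (i.succAbove k)) = ψ (X (i.succAbove k))) :
    φ = ψ := by
  apply MvPolynomial.ringHom_ext hC
  intro j
  by_cases hj : j = i
  · rw [hj]; exact hi
  · obtain ⟨k, rfl⟩ := Fin.exists_succAbove_eq hj
    exact hk k

/-- The inverse. -/
noncomputable def ofU (i : Fin (e + 2)) :
    Polynomial (MvPolynomial (Fin (e + 1)) ℂ) →+* MvPolynomial (Fin (e + 2)) ℂ :=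
  Polynomial.eval₂RingHom ((rename i.succAbove : MvPolynomial (Fin (e + 1)) ℂ →ₐ[ℂ] _) :
    MvPolynomial (Fin (e + 1)) ℂ →+* MvPolynomial (Fin (e + 2)) ℂ) (X i)

theorem ofU_toU (i : Fin (e + 2)) (P : MvPolynomial (Fin (e + 2)) ℂ) : ofU i (toU i P) = P := by
  have h1 : (ofU i).comp (toU i : MvPolynomial (Fin (e + 2)) ℂ →+* _) = RingHom.id _ := by
    apply ringHom_ext_succAbove i
    · intro c
      simp only [RingHom.comp_apply, RingHom.coe_coe, toU_C, ofU, Polynomial.coe_eval₂RingHom,
        Polynomial.eval₂_C, RingHom.id_apply, rename_C]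
    · simp only [RingHom.comp_apply, RingHom.coe_coe, toU_X, ofU, Polynomial.coe_eval₂RingHom,
        Polynomial.eval₂_X, RingHom.id_apply]
    · intro k
      simp only [RingHom.comp_apply, RingHom.coe_coe, toU_X', ofU, Polynomial.coe_eval₂RingHom,
        Polynomial.eval₂_C, RingHom.id_apply, rename_X]
  exact DFunLike.congr_fun h1 P

theorem eval_toU (i : Fin (e + 2)) (y : Fin (e + 2) → K) (P : MvPolynomial (Fin (e + 2)) ℂ) :
    Polynomial.eval (y i) ((toU i P).map
      ((aeval (fun k => y (i.succAbove k)) : MvPolynomial (Fin (e + 1)) ℂ →ₐ[ℂ] K) :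
        MvPolynomial (Fin (e + 1)) ℂ →+* K)) = aeval y P := by
  have h1 : ((Polynomial.evalRingHom (y i)).comp (Polynomial.mapRingHom
      ((aeval (fun k => y (i.succAbove k)) : MvPolynomial (Fin (e + 1)) ℂ →ₐ[ℂ] K) :
        MvPolynomial (Fin (e + 1)) ℂ →+* K))).comp
      (toU i : MvPolynomial (Fin (e + 2)) ℂ →+* _) =
      ((aeval y : MvPolynomial (Fin (e + 2)) ℂ →ₐ[ℂ] K) : _ →+* K) := by
    apply ringHom_ext_succAbove i
    · intro c
      rw [RingHom.comp_apply, RingHom.comp_apply]
      show Polynomial.eval (y i) (Polynomial.map _ (toU i (C c))) = aeval y (C c)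
      rw [toU_C, Polynomial.map_C, Polynomial.eval_C]
      show aeval (fun k => y (i.succAbove k)) (C c) = aeval y (C c)
      rw [aeval_C, aeval_C]
    · simp only [RingHom.comp_apply, RingHom.coe_coe, toU_X, Polynomial.coe_mapRingHom,
        Polynomial.map_X, Polynomial.coe_evalRingHom, Polynomial.eval_X, aeval_X]
    · intro k
      simp only [RingHom.comp_apply, RingHom.coe_coe, toU_X', Polynomial.coe_mapRingHom,
        Polynomial.map_C, Polynomial.coe_evalRingHom, Polynomial.eval_C, aeval_X]
  exact DFunLike.congr_fun h1 P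

theorem toU_red {i : Fin (e + 2)} (hi : i ≠ 0) (P : MvPolynomial (Fin (e + 2)) ℂ) :
    toU i (red e P) = (toU i P).map (redS e).toRingHom := by
  have hi0 : i.succAbove 0 = 0 := Fin.succAbove_ne_zero_zero hi
  have h1 : (toU i : MvPolynomial (Fin (e + 2)) ℂ →+* _).comp
      (red e : MvPolynomial (Fin (e + 2)) ℂ →+* _) =
      (Polynomial.mapRingHom (redS e).toRingHom).comp
        (toU i : MvPolynomial (Fin (e + 2)) ℂ →+* _) := by
    apply ringHom_ext_succAbove i
    · intro c
      show toU i (red e (C c)) = Polynomial.map _ (toU i (C c))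
      have h2 : red e (C c) = C c := by simp [red]
      have h3 : redS e (C c) = C c := by simp [redS]
      rw [h2, toU_C, Polynomial.map_C]
      show _ = Polynomial.C (redS e (C c))
      rw [h3]
    · show toU i (red e (X i)) = Polynomial.map _ (toU i (X i))
      rw [red_X hi, toU_X, Polynomial.map_X]
    · intro k
      show toU i (red e (X (i.succAbove k))) = Polynomial.map _ (toU i (X (i.succAbove k)))
      rw [toU_X', Polynomial.map_C]
      show _ = Polynomial.C (redS e (X k))
      have hk : redS e (X k) = if k = 0 then 0 else X k := by simp [redS]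
      rw [hk]
      by_cases hk0 : k = 0
      · subst hk0
        rw [if_pos rfl, hi0, red_X0, map_zero, map_zero]
      · rw [if_neg hk0, red_X, toU_X']
        intro h0
        rw [← hi0] at h0
        exact hk0 (Fin.succAbove_right_injective h0)
  exact DFunLike.congr_fun h1 P

end Vale.Agent.P283.H108
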